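import Crest.Agent.N336.C.CombA

/-!
# Row 336, CORE: combinatorics of the scanner (`CombStmt`)
-/

set_option autoImplicit false
set_option linter.unusedSectionVars false

open Finset

namespace Crest.Agent.N336.C

open Crest.Agent.N336.Eng

namespace Cb

section geo

variable {ι V : Type} [Fintype ι] [DecidableEq ι] [Fintype V] {K w r b₁ b₂ N₀ Na : ℕ}
  {S : Scn ι V K w r b₁ b₂ N₀ Na}

/-! ### active terms -/

open Classical in
/-- an active term crosses for a total expected time at most `card V` -/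
lemma sum_act [Nonempty V] {v : V} (ha : S.act v) (T t : ℕ) :
    ∑ o ∈ range T, (avg S.mv)^[o + t] (fun c => if S.cr c v then (1 : ℝ) else 0) S.ini ≤
      Fintype.card V := by
  -- `Dn c` : the front of `v` has absorbed `v`
  obtain ⟨Dn, hst, hno, hyes⟩ : ∃ Dn : Cnf ι K → Prop, (∀ c x, Dn c → Dn (S.mv c x)) ∧
      (∀ c, S.Ok c → Dn c → ¬ S.cr c v) ∧ (∀ c, S.Ok c → S.cr c v → Dn (S.mv c v)) := by
    refine ⟨fun c => ∀ c', (∀ g, (c g).1 ⊆ (c' g).1 ∧ (c' g).2 ⊆ (c g).2) → S.Ok c' →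
      ¬ S.cr c' v, fun c x hD c' hc' => hD c' fun g =>
        ⟨(mv1_sup c x g).trans (hc' g).1, (hc' g).2.trans (mv2_sub c x g)⟩,
      fun c hc hD => hD c (fun g => ⟨subset_rfl, subset_rfl⟩) hc, ?_⟩
    intro c hc hcr c' hc' hok hcr'
    obtain ⟨hn, g, hg | hg⟩ := cr_cases hc hcr
    · have hZ : S.Z v ⊆ (c' g).1 := by
        refine subset_trans ?_ (hc' g).1
        rw [hg.2.2.2.2 ha, Function.update_self]
        exact Finset.subset_union_right
      obtain ⟨⟨x1, h1, a1⟩, -, -⟩ := lvP hc hn hg.1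
      have hle : ∀ y ∈ S.Z v, S.lv y ≤ S.a g + w := fun y hy => ok2 hok (hZ hy)
      obtain ⟨-, -, hall⟩ := lvP hc hn hg.1
      obtain ⟨g', hg' | hg'⟩ := hcr'
      · obtain ⟨⟨y1, k1, b1⟩, ⟨y0, k0, b0⟩, -⟩ := lvP hok hn hg'
        rcases lt_trichotomy g' g with hl | rfl | hl
        · have := S.sep' _ _ hl; have := S.sep g'; have := hall y0 k0; omega
        · exact hg'.1 hZ
        · have := S.sep' _ _ hl; have := S.sep g; have := hle y1 k1; omega
      · obtain ⟨⟨y1, k1, b1⟩, ⟨y0, k0, b0⟩, -⟩ := lvR hok hn hg'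
        rcases lt_trichotomy g' g with hl | rfl | hl
        · have := S.sep' _ _ hl; have := hall y0 k0; omega
        · have := S.sep g'; have := hle y1 k1; omega
        · have := S.sep' _ _ hl; have := S.sep g; have := S.sep g'; have := hle y1 k1; omega
    · have hZ : Disjoint (S.Z v) (c' g).2 := by
        refine Disjoint.mono_right (hc' g).2 ?_
        rw [hg.2.2.2.2 ha, Function.update_self]
        exact Finset.disjoint_sdiff
      have hge : ∀ y ∈ S.Z v, S.b g - w < S.lv y := fun y hy => by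
        by_contra hh
        exact Finset.disjoint_left.1 hZ hy (ok3 hok (by omega))
      obtain ⟨-, -, hall⟩ := lvR hc hn hg.1
      obtain ⟨g', hg' | hg'⟩ := hcr'
      · obtain ⟨⟨y1, k1, b1⟩, ⟨y0, k0, b0⟩, -⟩ := lvP hok hn hg'
        rcases lt_trichotomy g' g with hl | rfl | hl
        · have := S.sep' _ _ hl; have := S.sep g'; have := S.sep g; have := hge y0 k0; omega
        · have := S.sep g'; have := hge y0 k0; omega
        · have := S.sep' _ _ hl; have := hall y1 k1; omega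
      · obtain ⟨⟨y1, k1, b1⟩, ⟨y0, k0, b0⟩, -⟩ := lvR hok hn hg'
        rcases lt_trichotomy g' g with hl | rfl | hl
        · have := S.sep' _ _ hl; have := S.sep g; have := hge y0 k0; omega
        · exact hg'.2 hZ
        · have := S.sep' _ _ hl; have := S.sep g'; have := hall y1 k1; omega
  have hN := card_pos' (X := V)
  refine sum_iter_le S.mv S.Ok (fun c x h => ok_mv c x h) _ (fun c => if Dn c then 0 else 1)
    _ hN.le (fun c => by split_ifs <;> norm_num) (fun c => by split_ifs <;> norm_num) ?_ T t _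
    ok_ini
  intro c hc
  have e : (-(Fintype.card V : ℝ)) * avg S.mv (fun c => if Dn c then (0 : ℝ) else 1) c =
      -∑ x, (if Dn (S.mv c x) then (0 : ℝ) else 1) := by
    unfold avg
    field_simp
  rw [e]
  by_cases hD : Dn c
  · simp [hD, hno c hc hD, fun x => hst c x hD]
  · rw [if_neg hD, mul_one]
    have h1 : ∑ x, (if Dn (S.mv c x) then (0 : ℝ) else 1) ≤
        ∑ x, (1 - if x = v then (if S.cr c v then (1 : ℝ) else 0) else 0) := by
      refine Finset.sum_le_sum fun x _ => ?_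
      by_cases hx : x = v
      · subst hx
        by_cases hcr : S.cr c x
        · simp [hcr, hyes c hc hcr]
        · simp only [hcr, if_false, if_true]
          split_ifs <;> norm_num
      · simp only [hx, if_false]
        split_ifs <;> norm_num
    rw [Finset.sum_sub_distrib, Finset.sum_ite_eq'] at h1
    simp only [Finset.sum_const, Finset.card_univ, nsmul_eq_mul, mul_one, Finset.mem_univ,
      if_true] at h1
    linarith

/-! ### inactive terms -/

variable (S)

/-- weight of a site for the front `P g` -/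
noncomputable def wP (c : Cnf ι K) (g : Fin K) (x : ι) : ℝ :=
  if x ∈ (c g).1 ∧ S.a g - r < S.lv x then Real.exp (((S.lv x : ℝ) - S.a g) / r) else 0

/-- weight of a site for the front `R g` -/
noncomputable def wR (c : Cnf ι K) (g : Fin K) (x : ι) : ℝ :=
  if x ∉ (c g).2 ∧ S.lv x ≤ S.b g + r then Real.exp (((S.b g : ℝ) - S.lv x) / r) else 0

/-- the potential -/
noncomputable def Psi (c : Cnf ι K) : ℝ := ∑ g, ∑ x, (wP S c g x + wR S c g x)

lemma wP_nonneg (c : Cnf ι K) (g : Fin K) (x : ι) : 0 ≤ wP S c g x := by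
  unfold wP; split_ifs; exacts [(Real.exp_pos _).le, le_rfl]

lemma wR_nonneg (c : Cnf ι K) (g : Fin K) (x : ι) : 0 ≤ wR S c g x := by
  unfold wR; split_ifs; exacts [(Real.exp_pos _).le, le_rfl]

lemma le_Psi (c : Cnf ι K) (g : Fin K) (x : ι) : wP S c g x + wR S c g x ≤ Psi S c := by
  have h0 : ∀ g x, 0 ≤ wP S c g x + wR S c g x := fun g x =>
    add_nonneg (wP_nonneg S c g x) (wR_nonneg S c g x)
  exact (Finset.single_le_sum (f := fun x => wP S c g x + wR S c g x) (fun x _ => h0 g x)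
    (Finset.mem_univ x)).trans (Finset.single_le_sum
      (f := fun g => ∑ x, (wP S c g x + wR S c g x))
      (fun g _ => Finset.sum_nonneg fun x _ => h0 g x) (Finset.mem_univ g))

lemma Psi_nonneg (c : Cnf ι K) : 0 ≤ Psi S c :=
  Finset.sum_nonneg fun g _ => Finset.sum_nonneg fun x _ =>
    add_nonneg (wP_nonneg S c g x) (wR_nonneg S c g x)

include S in
lemma r_pos' : (0 : ℝ) < r := by exact_mod_cast S.r_pos

lemma Psi_ini : Psi S S.ini ≤ 2 * K * N₀ := by
  have hr := r_pos' S
  have h1 : ∀ g, ∑ x, (wP S S.ini g x + wR S S.ini g x) ≤ 2 * N₀ := by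
    intro g
    have a1 : ∑ x, wP S S.ini g x ≤ N₀ := by
      refine le_trans (Finset.sum_le_sum (g := fun x =>
        if S.a g - r < S.lv x ∧ S.lv x ≤ S.a g then (1 : ℝ) else 0) fun x _ => ?_) ?_
      · unfold wP
        simp only [ini1]
        by_cases hx : S.lv x ≤ S.a g ∧ S.a g - r < S.lv x
        · rw [if_pos hx, if_pos hx.symm, Real.exp_le_one_iff]
          have : (S.lv x : ℝ) ≤ S.a g := by exact_mod_cast hx.1
          exact div_nonpos_of_nonpos_of_nonneg (by linarith) hr.le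
        · rw [if_neg hx, if_neg (fun hh => hx hh.symm)]
      · rw [Finset.sum_boole]
        exact_mod_cast (S.lay g).1
    have a2 : ∑ x, wR S S.ini g x ≤ N₀ := by
      refine le_trans (Finset.sum_le_sum (g := fun x =>
        if S.b g < S.lv x ∧ S.lv x ≤ S.b g + r then (1 : ℝ) else 0) fun x _ => ?_) ?_
      · unfold wR
        simp only [ini2, not_le]
        by_cases hx : S.b g < S.lv x ∧ S.lv x ≤ S.b g + r
        · rw [if_pos hx, if_pos hx, Real.exp_le_one_iff]
          have : (S.b g : ℝ) ≤ S.lv x := by exact_mod_cast hx.1.le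
          exact div_nonpos_of_nonpos_of_nonneg (by linarith) hr.le
        · rw [if_neg hx, if_neg hx]
      · rw [Finset.sum_boole]
        exact_mod_cast (S.lay g).2
    rw [Finset.sum_add_distrib]
    linarith
  refine (Finset.sum_le_sum fun g _ => h1 g).trans ?_
  simp only [Finset.sum_const, Finset.card_univ, Fintype.card_fin, nsmul_eq_mul]
  linarith

variable {S}

lemma Psi_big {c : Cnf ι K} (h : S.Ok c) {v : V} (hc : S.cr c v) (ha : ¬ S.act v) :
    Real.exp ((w : ℝ) / r - 1) ≤ Psi S c := by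
  have hr := r_pos' S
  have hn := near_of_cr h hc
  have e : (w : ℝ) / r - 1 = ((w : ℝ) - r) / r := by field_simp
  obtain ⟨g, hg | hg⟩ := hc
  · obtain ⟨-, x0, h0, h0'⟩ := crs_iff.1 hg
    have hy : ¬ S.Z v ⊆ (S.fin g).1 := fun hh =>
      ha ⟨hn, g, Or.inl ⟨hh, fun hd => hg.1 (hd.trans (h g).1)⟩⟩
    obtain ⟨y, hy, hy'⟩ := Finset.not_subset.1 hy
    rw [fin1] at hy'
    have hs := S.spread v hn y hy x0 h0
    refine le_trans ?_ (le_Psi S c g x0)
    refine le_trans ?_ (le_add_of_nonneg_right (wR_nonneg S c g x0))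
    unfold wP
    rw [if_pos ⟨h0', by omega⟩, e]
    have : (S.a g : ℝ) + w - r ≤ S.lv x0 := by exact_mod_cast (by omega : S.a g + w - r ≤ S.lv x0)
    exact Real.exp_le_exp.2 (div_le_div_of_nonneg_right (by linarith) hr.le)
  · obtain ⟨⟨x1, h1, h1'⟩, -⟩ := crs_iff.1 hg
    have hy : ¬ Disjoint (S.Z v) (S.fin g).2 := fun hh =>
      ha ⟨hn, g, Or.inr ⟨hh, fun hd => hg.2 (hd.mono_right (h g).2.2.2)⟩⟩
    obtain ⟨y, hy, hy'⟩ := Finset.not_disjoint_iff.1 hy
    rw [fin2] at hy'
    have hs := S.spread v hn x1 h1 y hy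
    refine le_trans ?_ (le_Psi S c g x1)
    refine le_trans ?_ (le_add_of_nonneg_left (wP_nonneg S c g x1))
    unfold wR
    rw [if_pos ⟨h1', by omega⟩, e]
    have : (S.lv x1 : ℝ) ≤ S.b g - w + r := by exact_mod_cast (by omega : S.lv x1 ≤ S.b g - w + r)
    exact Real.exp_le_exp.2 (div_le_div_of_nonneg_right (by linarith) hr.le)

lemma exp_step {p q : ℝ} (hr : (0 : ℝ) < r) (h : p ≤ q + r) :
    Real.exp (p / r) ≤ 3 * Real.exp (q / r) := by
  have h1 : p / r ≤ 1 + q / r := by
    rw [div_le_iff₀ hr]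
    field_simp
    linarith
  refine (Real.exp_le_exp.2 h1).trans ?_
  rw [Real.exp_add]
  have := Real.exp_one_lt_d9
  exact mul_le_mul_of_nonneg_right (by linarith) (Real.exp_pos _).le

lemma sum_new {Z : Finset ι} (f f' : ι → ℝ) (M : ℝ) (hM : 0 ≤ M) (hZ : Z.card ≤ b₁)
    (H : ∀ x, f' x ≤ f x + if x ∈ Z then M else 0) : ∑ x, f' x ≤ ∑ x, f x + b₁ * M := by
  refine (Finset.sum_le_sum fun x _ => H x).trans ?_
  rw [Finset.sum_add_distrib, Finset.sum_ite_mem, Finset.univ_inter, Finset.sum_const,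
    nsmul_eq_mul]
  have : (Z.card : ℝ) ≤ b₁ := by exact_mod_cast hZ
  nlinarith

lemma wP_mv {c : Cnf ι K} (h : S.Ok c) {v : V} (hn : v ∈ S.near) (g : Fin K) :
    ∑ x, wP S (S.mv c v) g x ≤ ∑ x, wP S c g x + b₁ * (3 * ∑ x ∈ S.Z v, wP S c g x) := by
  have hr := r_pos' S
  have hM : 0 ≤ 3 * ∑ x ∈ S.Z v, wP S c g x :=
    mul_nonneg (by norm_num) (Finset.sum_nonneg fun x _ => wP_nonneg S c g x)
  refine sum_new _ _ _ hM (S.size v hn) fun x => ?_
  by_cases hb : Crs (S.Z v) (c g).1 ∧ S.Z v ⊆ (S.fin g).1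
  · have e : (S.mv c v g).1 = (c g).1 ∪ S.Z v := by unfold Scn.mv; rw [if_pos hb]
    by_cases hx : x ∈ S.Z v
    · obtain ⟨-, x0, h0, h0'⟩ := crs_iff.1 hb.1
      obtain ⟨-, -, hall⟩ := lvP h hn hb.1
      have a0 : wP S c g x0 = Real.exp (((S.lv x0 : ℝ) - S.a g) / r) := by
        unfold wP; rw [if_pos ⟨h0', (hall x0 h0).1⟩]
      have a1 : wP S c g x0 ≤ ∑ x ∈ S.Z v, wP S c g x :=
        Finset.single_le_sum (f := fun x => wP S c g x) (fun x _ => wP_nonneg S c g x) h0
      have a2 : wP S (S.mv c v) g x ≤ 3 * wP S c g x0 := by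
        rw [a0]
        unfold wP
        split_ifs
        · have : (S.lv x : ℝ) ≤ S.lv x0 + r := by exact_mod_cast S.spread v hn x hx x0 h0
          exact exp_step hr (by linarith)
        · positivity
      rw [if_pos hx]
      have := wP_nonneg S c g x
      linarith
    · rw [if_neg hx, add_zero]
      unfold wP
      rw [e]
      simp [hx]
  · have e : (S.mv c v g).1 = (c g).1 := by unfold Scn.mv; rw [if_neg hb]
    have : wP S (S.mv c v) g x = wP S c g x := by unfold wP; rw [e]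
    rw [this]
    split_ifs <;> linarith

lemma wR_mv {c : Cnf ι K} (h : S.Ok c) {v : V} (hn : v ∈ S.near) (g : Fin K) :
    ∑ x, wR S (S.mv c v) g x ≤ ∑ x, wR S c g x + b₁ * (3 * ∑ x ∈ S.Z v, wR S c g x) := by
  have hr := r_pos' S
  have hM : 0 ≤ 3 * ∑ x ∈ S.Z v, wR S c g x :=
    mul_nonneg (by norm_num) (Finset.sum_nonneg fun x _ => wR_nonneg S c g x)
  refine sum_new _ _ _ hM (S.size v hn) fun x => ?_
  by_cases hb : Crs (S.Z v) (c g).2 ∧ Disjoint (S.Z v) (S.fin g).2
  · have e : (S.mv c v g).2 = (c g).2 \ S.Z v := by unfold Scn.mv; rw [if_pos hb]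
    by_cases hx : x ∈ S.Z v
    · obtain ⟨⟨x1, h1, h1'⟩, -⟩ := crs_iff.1 hb.1
      obtain ⟨-, -, hall⟩ := lvR h hn hb.1
      have a0 : wR S c g x1 = Real.exp (((S.b g : ℝ) - S.lv x1) / r) := by
        unfold wR; rw [if_pos ⟨h1', (hall x1 h1).2⟩]
      have a1 : wR S c g x1 ≤ ∑ x ∈ S.Z v, wR S c g x :=
        Finset.single_le_sum (f := fun x => wR S c g x) (fun x _ => wR_nonneg S c g x) h1
      have a2 : wR S (S.mv c v) g x ≤ 3 * wR S c g x1 := by
        rw [a0]
        unfold wR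
        split_ifs
        · have : (S.lv x1 : ℝ) ≤ S.lv x + r := by exact_mod_cast S.spread v hn x1 h1 x hx
          exact exp_step hr (by linarith)
        · positivity
      rw [if_pos hx]
      have := wR_nonneg S c g x
      linarith
    · rw [if_neg hx, add_zero]
      unfold wR
      rw [e]
      simp [hx]
  · have e : (S.mv c v g).2 = (c g).2 := by unfold Scn.mv; rw [if_neg hb]
    have : wR S (S.mv c v) g x = wR S c g x := by unfold wR; rw [e]
    rw [this]
    split_ifs <;> linarith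

open Classical in
lemma Psi_mv {c : Cnf ι K} (h : S.Ok c) (v : V) :
    Psi S (S.mv c v) ≤ Psi S c + 3 * b₁ * ∑ g, ∑ x,
      (if v ∈ S.near ∧ x ∈ S.Z v then wP S c g x + wR S c g x else 0) := by
  by_cases hn : v ∈ S.near
  · unfold Psi
    rw [Finset.mul_sum, ← Finset.sum_add_distrib]
    refine Finset.sum_le_sum fun g _ => ?_
    have a1 := wP_mv h hn g
    have a2 := wR_mv h hn g
    simp only [hn, true_and]
    rw [Finset.sum_ite_mem, Finset.univ_inter, Finset.sum_add_distrib, Finset.sum_add_distrib,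
      Finset.sum_add_distrib]
    linarith
  · rw [mv_eq h fun hh => hn hh.1.1]
    simp [hn]

lemma avg_Psi [Nonempty V] {c : Cnf ι K} (h : S.Ok c) :
    avg S.mv (Psi S) c ≤ (1 + 3 * b₁ * b₂ / Fintype.card V) * Psi S c := by
  classical
  have hN := card_pos' (X := V)
  have h1 : ∑ v, ∑ g, ∑ x, (if v ∈ S.near ∧ x ∈ S.Z v then wP S c g x + wR S c g x else 0) ≤
      b₂ * Psi S c := by
    unfold Psi
    rw [Finset.sum_comm, Finset.mul_sum]
    refine Finset.sum_le_sum fun g _ => ?_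
    rw [Finset.sum_comm, Finset.mul_sum]
    refine Finset.sum_le_sum fun x _ => ?_
    rw [← Finset.sum_filter, Finset.sum_const, nsmul_eq_mul]
    refine mul_le_mul_of_nonneg_right ?_ (add_nonneg (wP_nonneg S c g x) (wR_nonneg S c g x))
    have e : (univ.filter fun v => v ∈ S.near ∧ x ∈ S.Z v) = S.near.filter fun v => x ∈ S.Z v := by
      ext v; simp
    rw [e]
    exact_mod_cast S.deg x
  have h2 : ∑ v, Psi S (S.mv c v) ≤ Fintype.card V * Psi S c + 3 * b₁ * (b₂ * Psi S c) := by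
    refine (Finset.sum_le_sum fun v _ => Psi_mv h v).trans ?_
    rw [Finset.sum_add_distrib, ← Finset.mul_sum, Finset.sum_const, Finset.card_univ,
      nsmul_eq_mul]
    have : (0 : ℝ) ≤ 3 * b₁ := by positivity
    exact add_le_add le_rfl (mul_le_mul_of_nonneg_left (by convert h1) this)
  unfold avg
  rw [div_le_iff₀ hN]
  refine h2.trans (le_of_eq ?_)
  field_simp

open Classical in
lemma iter_inact [Nonempty V] {v : V} (ha : ¬ S.act v) (T₁ i : ℕ)
    (hi : i ≤ 2 * (Fintype.card V * T₁)) :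
    (avg S.mv)^[i] (fun c => if S.cr c v then (1 : ℝ) else 0) S.ini ≤ pin K w r b₁ b₂ N₀ T₁ := by
  have hN := card_pos' (X := V)
  have hI : ∀ c x, S.Ok c → S.Ok (S.mv c x) := fun c x h => ok_mv c x h
  obtain ⟨κ, hκ⟩ : ∃ κ : ℝ, κ = 3 * b₁ * b₂ / Fintype.card V := ⟨_, rfl⟩
  have hκ0 : 0 ≤ κ := by rw [hκ]; positivity
  have a1 := iter_le S.mv S.Ok hI (fun c => if S.cr c v then (1 : ℝ) else 0) (Psi S) (Psi S)
    (Real.exp (1 - (w : ℝ) / r)) 0 (fun c hc => by
      rw [zero_mul, add_zero]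
      split_ifs with hcr
      · have := mul_le_mul_of_nonneg_left (Psi_big hc hcr ha) (Real.exp_pos (1 - (w : ℝ) / r)).le
        rw [← Real.exp_add] at this
        simpa using this
      · exact mul_nonneg (Real.exp_pos _).le (Psi_nonneg S c)) i _ ok_ini
  have a2 := iter_le_pow S.mv S.Ok hI (Psi S) (1 + κ) (by linarith)
    (fun c hc => hκ ▸ avg_Psi hc) i _ ok_ini
  have a3 : (1 + κ) ^ i ≤ Real.exp (6 * b₁ * b₂ * T₁) := by
    have b1 : (1 + κ) ^ i ≤ Real.exp κ ^ i :=
      pow_le_pow_left₀ (by linarith) (by linarith [Real.add_one_le_exp κ]) i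
    refine b1.trans ?_
    rw [← Real.exp_nat_mul, Real.exp_le_exp]
    have b2 : (i : ℝ) ≤ 2 * (Fintype.card V * T₁) := by exact_mod_cast hi
    refine (mul_le_mul_of_nonneg_right b2 hκ0).trans (le_of_eq ?_)
    rw [hκ]
    field_simp
    ring
  have a4 : (1 + κ) ^ i * Psi S S.ini ≤ Real.exp (6 * b₁ * b₂ * T₁) * (2 * K * N₀) :=
    mul_le_mul a3 (Psi_ini S) (Psi_nonneg S _) (Real.exp_pos _).le
  rw [zero_mul, add_zero] at a1
  refine a1.trans ((mul_le_mul_of_nonneg_left (a2.trans a4) (Real.exp_pos _).le).trans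
    (le_of_eq ?_))
  unfold pin
  rw [show (6 * b₁ * b₂ * T₁ + 1 - (w : ℝ) / r) = (1 - (w : ℝ) / r) + 6 * b₁ * b₂ * T₁ by ring,
    Real.exp_add]
  ring

end geo

end Cb

open Cb in
theorem comb : CombStmt := by
  intro ι V _ _ _ _ K w r b₁ b₂ N₀ Na S
  refine ⟨ok_ini, ok_fin, fun c v h => ok_mv c v h,
    fun c h g => ⟨ok_sub h g, ok_disj h g, fun g' hg => ok_sub' h hg⟩,
    fun c v h hc => cr_cases h hc, fun c v h hv => mv_eq h hv, card_act, ?_⟩
  intro T₁ hT v t ht
  have hN := card_pos' (X := V)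
  have hT' : (0 : ℝ) < T₁ := by exact_mod_cast hT
  have hT0 : (0 : ℝ) < ((Fintype.card V * T₁ : ℕ) : ℝ) := by push_cast; positivity
  unfold ex
  rw [div_le_iff₀ hT0]
  split_ifs with ha
  · refine (sum_act ha _ t).trans (le_of_eq ?_)
    push_cast
    field_simp
  · refine (Finset.sum_le_sum fun o ho => iter_inact ha T₁ (o + t) ?_).trans (le_of_eq ?_)
    · have := Finset.mem_range.1 ho
      omega
    · rw [Finset.sum_const, Finset.card_range, nsmul_eq_mul, mul_comm]

end Crest.Agent.N336.C
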