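import Crest.Agent.N336.C.RigE

/-!
# Row 336, CORE: the rigidity theorem (helper50)
-/

set_option autoImplicit false
set_option linter.unusedSectionVars false

open Matrix Finset Filter
open scoped ComplexOrder MatrixOrder Matrix.Norms.L2Operator InnerProductSpace Topology

namespace Crest.Agent.N336.C

open Crest.Agent.N336.Q Crest.Agent.N336.Eng Crest.Agent.N336.R

/-- the energy bound with slack `δ` -/
noncomputable def Efun (a : ℕ) (Ce c l s lam e τ B E₀ p c₁ Na N T₁ δ : ℝ) : ℝ :=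
  4 * (E₀ + N * δ) + Ce * (1 / T₁ * (xi1 a c lam s (e + 3 * δ) δ * (Na / T₁) +
    c * lam ^ ((1 : ℝ) / a - 1) * N * δ / (2 * s) +
    c * lam ^ ((1 : ℝ) / a - 1) * (2 * s * B + c₁ * δ) / (2 * s * T₁ * τ)) +
    (3 * c * l + δ) * (τ * (Na / T₁ ^ 2 + N * p ^ 2) + N * p ^ 2)) + δ

lemma Efun_zero_le {a : ℕ} (ha : 1 ≤ a) {Ce C J l s lam τ B E₀ p : ℝ} {Na N T₁ : ℕ} (c₁ : ℝ)
    (hCe : 0 < Ce) (hC : 1 ≤ C) (hJ : 0 ≤ J) (hl : 1 ≤ l) (hs : 0 < s) (hlam : 0 < lam)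
    (hτ : 0 < τ) (hτ1 : τ ≤ 1 / 4) (hB : 0 ≤ B) (hT : 1 ≤ T₁) :
    Efun a Ce (C * J * s ^ 2 * l ^ a) l s lam (C * s ^ (1 + (1 : ℝ) / a) * l ^ a) τ B E₀ p c₁ Na N
      T₁ 0 ≤ enB a (Ce * (C ^ 2 + 6 * C) + C) J l s lam τ B E₀ p Na N T₁ := by
  have hT' : (1 : ℝ) ≤ T₁ := by exact_mod_cast hT
  set L := l ^ a with hL
  set u := lam ^ ((1 : ℝ) / a)
  set v := lam ^ ((1 : ℝ) / a - 1)
  set σ := s ^ ((1 : ℝ) / a)
  have hu : 0 < u := by positivity
  have hv : 0 < v := by positivity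
  have hσ : 0 < σ := by positivity
  have h1 : l ≤ L := by rw [hL]; exact le_self_pow₀ hl (by omega)
  have h2 : 1 ≤ L := hl.trans h1
  have e1 : s ^ (1 + (1 : ℝ) / a) = s * σ := by rw [Real.rpow_add hs, Real.rpow_one]
  have e2 : l ^ (2 * a) = L * L := by rw [hL, two_mul, pow_add]
  rw [Efun, enB, xi1, e1, e2]
  set X := (Na : ℝ) / (T₁ : ℝ) ^ 2 with hX
  set Y := B / ((T₁ : ℝ) ^ 2 * τ) with hY
  set Z := (N : ℝ) * p ^ 2 with hZ
  have hX0 : 0 ≤ X := by positivity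
  have hY0 : 0 ≤ Y := by positivity
  have hZ0 : 0 ≤ Z := by positivity
  have e3 : 1 / (T₁ : ℝ) * ((C * J * s ^ 2 * L * u + C * J * s ^ 2 * L * v *
      (0 + (C * (s * σ) * L + 3 * 0) / (2 * s)) + 0) * (Na / T₁) +
      C * J * s ^ 2 * L * v * N * 0 / (2 * s) +
      C * J * s ^ 2 * L * v * (2 * s * B + c₁ * 0) / (2 * s * T₁ * τ)) +
      (3 * (C * J * s ^ 2 * L) * l + 0) * (τ * (X + Z) + Z) =
      J * s ^ 2 * L * (C * (X * u) + C * C * L / 2 * (X * (v * σ)) + C * (v * Y) +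
        3 * C * l * (X * τ) + 3 * C * l * (1 + τ) * Z) := by
    rw [hX, hY]; field_simp; ring
  have e4 : v * B / ((T₁ : ℝ) ^ 2 * τ) = v * Y := by rw [hY]; ring
  rw [e3, e4]
  have hD : C ≤ (C ^ 2 + 6 * C) * L := by nlinarith
  have k1 : C * (X * u) ≤ (C ^ 2 + 6 * C) * L * (X * u) := by gcongr
  have k2 : C * C * L / 2 * (X * (v * σ)) ≤ (C ^ 2 + 6 * C) * L * (X * (v * σ)) := by
    gcongr; nlinarith
  have k3 : C * (v * Y) ≤ (C ^ 2 + 6 * C) * L * (v * Y) := by gcongr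
  have hD2 : 6 * C * l ≤ (C ^ 2 + 6 * C) * L := by nlinarith
  have k4 : 3 * C * l * (X * τ) ≤ (C ^ 2 + 6 * C) * L * (X * τ) := by
    gcongr; nlinarith
  have k5 : 3 * C * l * (1 + τ) * Z ≤ (C ^ 2 + 6 * C) * L * Z := by
    have := mul_le_mul_of_nonneg_left (by linarith : 1 + τ ≤ 2) (by positivity : 0 ≤ 3 * C * l)
    exact mul_le_mul_of_nonneg_right (by linarith) hZ0
  have k6 : 0 ≤ X * (u + v * σ + τ) + v * Y + Z := by positivity
  have k7 : 0 ≤ J * s ^ 2 * L := by positivity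
  have k8 := mul_le_mul_of_nonneg_left (mul_le_mul_of_nonneg_left
    (add_le_add (add_le_add (add_le_add (add_le_add k1 k2) k3) k4) k5) k7) hCe.le
  have k9 : 0 ≤ C * (J * s ^ 2 * L) * L * (X * (u + v * σ + τ) + v * Y + Z) := by positivity
  nlinarith

lemma sum_p_sq {V : Type} [Fintype V] (act : V → Prop) [DecidablePred act] {Na : ℕ} {T p : ℝ}
    (h : (univ.filter act).card ≤ Na) :
    ∑ v, (if act v then 1 / T else p) ^ 2 ≤ Na / T ^ 2 + Fintype.card V * p ^ 2 ∧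
    ∑ v ∈ univ.filter (fun v => ¬ act v), (if act v then 1 / T else p) ^ 2 ≤
      Fintype.card V * p ^ 2 := by
  have h2 : ∑ v ∈ univ.filter (fun v => ¬ act v), (if act v then 1 / T else p) ^ 2 ≤
      Fintype.card V * p ^ 2 := by
    rw [Finset.sum_congr rfl fun v hv => by rw [if_neg (mem_filter.1 hv).2], Finset.sum_const,
      nsmul_eq_mul]
    gcongr
    exact card_le_univ _
  refine ⟨?_, h2⟩
  rw [← Finset.sum_filter_add_sum_filter_not univ act]
  refine add_le_add ?_ h2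
  rw [Finset.sum_congr rfl fun v hv => by rw [if_pos (mem_filter.1 hv).2], Finset.sum_const,
    nsmul_eq_mul, div_pow, one_pow, mul_one_div]
  gcongr

theorem rig (hE : EngStmt) (hR : RepStmt) (hC : CombStmt) : RigStmt := by
  classical
  obtain ⟨Ce, hCe, hE⟩ := hE
  obtain ⟨a, C, ha, hC1, hR⟩ := hR
  refine ⟨a, Ce * (C ^ 2 + 6 * C) + C, ha, by nlinarith, ?_⟩
  intro ι _ _ d _ _ _ V _ _ K w r b₁ b₂ N₀ Na T₁ S h J l s lam τ B E₀ α β Ω O ZO hh hnear hJ hl hs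
    hsm hlam hτ hτ1 hT hΩ hE₀ hβ hB hU hlow hfin hO hOO hZO hZ1 hZ2 h0
  obtain ⟨ok0, ok1, okm, hL, hcr, hmv, hNa, hp⟩ := hC ι V K w r b₁ b₂ N₀ Na S
  have hsm' : C * l ^ a * s ≤ 1 := by
    refine le_trans ?_ hsm
    gcongr
    nlinarith
  set c' := C * J * s ^ 2 * l ^ a with hc'
  set e := C * s ^ (1 + (1 : ℝ) / a) * l ^ a with he
  set p := pin K w r b₁ b₂ N₀ T₁ with hpd
  set N := Fintype.card V with hN
  set c₁ : ℝ := 10 * K + 3 * K * Fintype.card ι with hc₁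
  set rhs := fn S.A₁ S.fin (((‖ap O Ω‖⁻¹ : ℝ) : ℂ) • ap O Ω) - Real.log (‖ap O Ω‖ ^ 2) / s
  have hc'0 : 0 ≤ c' := by positivity
  have he0 : 0 ≤ e := by positivity
  have hN1 : 1 ≤ N := Fintype.card_pos
  have hT' : (0 : ℝ) < T₁ := by exact_mod_cast hT
  have hN' : (0 : ℝ) < N := by exact_mod_cast hN1
  have key : ∀ δ : ℝ, 0 < δ → δ ≤ 1 →
      α - β * (Efun a Ce c' l s lam e τ B E₀ p c₁ Na N T₁ δ + δ) - c₁ * δ / s ≤ rhs := by
    intro δ hδ hδ1
    obtain ⟨I, _, _, R, hA, hS⟩ := hR ι d V h S.Z J l s δ hh hJ hl hs hsm' hδ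
    have hk : (0 : ℝ) < R.k := by exact_mod_cast hA.k_pos
    have p1 : (δ • (1 : Matrix I I ℂ)).PosDef := PosDef.one.smul hδ
    have pG : ∀ v, (R.hh (h v) + δ • (1 : Matrix I I ℂ)).PosDef := fun v =>
      PosDef.posSemidef_add (hA.hh_pos _ (hh v).1) p1
    have hq : ∀ (c : {c // S.Ok c}) (v : V), S.cr c.1 v →
        ∃ q : Finset ι × Finset ι × Finset ι × Finset ι,
          Loc R S h s (e + 3 * δ) c.1 v q.1 q.2.1 q.2.2.1 q.2.2.2 := fun c v hc =>
      exists_loc hA hS hδ.le (hL _ c.2) (hh v).2 (hnear v (hcr _ _ c.2 hc).1).2 (hcr _ _ c.2 hc).2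
    choose! q hq using hq
    have hAt := fun (c : {c // S.Ok c}) (v : V) (hc : S.cr c.1 v) =>
      exists_defect hA hS hδ (hq c v hc) (hh v).1 (hnear v (hcr _ _ c.2 hc).1).1
        (hnear v (hcr _ _ c.2 hc).1).2
    choose! At hAt using hAt
    have gg : ∑ v, (pw (R.hh (h v) + δ • (1 : Matrix I I ℂ)) (1 / 2))ᴴ *
        pw (R.hh (h v) + δ • (1 : Matrix I I ℂ)) (1 / 2) =
        R.hh (∑ v, h v) + (N * δ) • (1 : Matrix I I ℂ) := by
      simp only [pw_conjTranspose, pw_mul_pw (pG _), add_halves, pw_one (pG _).1]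
      rw [Finset.sum_add_distrib, map_sum, Finset.sum_const, card_univ,
        ← Nat.cast_smul_eq_nsmul ℝ, smul_smul]
    have hcv := hA.cv_norm Ω hΩ
    have hγ : 0 ≤ c' * lam ^ ((1 : ℝ) / a - 1) := by positivity
    have hx1 : 0 ≤ xi1 a c' lam s (e + 3 * δ) δ := by unfold xi1; positivity
    have lo' : ∀ c : {c // S.Ok c}, R.Am S.A₁ δ S.fin ≤ R.Am S.A₁ δ c.1 := fun c =>
      Am_mono hA hS hδ.le hL c.2 ok1 fun g => ⟨(c.2 g).2.1, (c.2 g).2.2.1⟩
    have mono' : ∀ (c : {c // S.Ok c}) (x : V), R.Am S.A₁ δ (S.mv c.1 x) ≤ R.Am S.A₁ δ c.1 :=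
      fun c x => Am_mono hA hS hδ.le hL c.2 (okm _ _ c.2) (mv_le (S := S) c.1 x)
    obtain ⟨M, hM, lo, hi, en⟩ := hE I {c // S.Ok c} V V
      (fun c x => ⟨S.mv c.1 x, okm _ _ c.2⟩) ⟨S.ini, ok0⟩ (fun c => R.Am S.A₁ δ c.1)
      (fun v => pw (R.hh (h v) + δ • 1) (1 / 2)) At
      (fun c v => R.T (dfC d c' δ a (q c v).1 (q c v).2.1 (q c v).2.2.1) + δ • 1)
      (fun c v => S.cr c.1 v) S.act
      (fun c => xi1 a c' lam s (e + 3 * δ) δ *
        ∑ v ∈ univ.filter S.act, (if S.cr c.1 v then 1 else 0) +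
          c' * lam ^ ((1 : ℝ) / a - 1) * N * δ / (2 * s))
      (fun v => if S.act v then 1 / (T₁ : ℝ) else p) (R.cv Ω) (R.Am S.A₁ δ S.fin) (E₀ + N * δ)
      (c' * lam ^ ((1 : ℝ) / a - 1) * N / (2 * s * R.k)) (3 * c' * l + δ)
      (xi1 a c' lam s (e + 3 * δ) δ * (Na / T₁) + c' * lam ^ ((1 : ℝ) / a - 1) * N * δ / (2 * s))
      (1 / T₁) τ (R.k * (2 * s * B + c₁ * δ)) δ (N * T₁) (N * T₁)
      (fun c => ee_posDef _)
      mono' (ee_posDef _)
      (fun _ _ => lo' _)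
      hcv (by
        rw [gg, ap_add, hA.hh_cv _ _ _ hE₀, Complex.ofReal_add, add_smul]
        congr 1
        exact (ap_smul ((N * δ : ℝ) : ℂ) 1 _).trans (by rw [ap_one]))
      (fun c v hc => by
        have hc1 : Commute (R.hh (h v)) (R.Lg S.A₁ c.1) :=
          Rp.Alg.comm_Lg_of (fun b A hA' => hA.comm_hh b A _ _ (hh v).2 hA') (S.disj v)
            fun g => ⟨fun x => hc ⟨g, .inl x⟩, fun x => hc ⟨g, .inr x⟩⟩
        have hc2 : Commute (R.hh (h v) + δ • (1 : Matrix I I ℂ)) ((2 : ℝ) • R.Lf S.A₁ δ c.1) :=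
          ((hc1.add_right ((Commute.one_right _).smul_right _)).add_left
            ((Commute.one_left _).smul_left _)).smul_right _
        rw [Rp.Am]
        exact (commute_fc_fc (f := fun x => ((x ^ (1 / 2 : ℝ) : ℝ) : ℂ))
          (g := fun x => (Real.exp x : ℂ)) (pG v).1 (herm_rsmul (Lf_herm hA c.1) _) hc2).eq)
      (fun c v hc => by
        have hb := dfC_bounds (d := d) hδ hδ1 ha hl hc'0 (hq c v hc).d1 (hq c v hc).d2
          (hq c v hc).d3 ((log_dim_mono (hq c v hc).s1).trans (hnear v (hcr _ _ c.2 hc).1).2)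
        refine ⟨(hAt c v hc).1, PosSemidef.add ?_ p1.posSemidef, ?_, (hAt c v hc).2⟩
        · have := le_T hA fun χ => (hb χ).1
          rw [zero_smul] at this
          exact this.posSemidef
        · rw [add_smul]; exact add_le_add_left (T_le hA fun χ => (hb χ).2) _)
      (fun c G hG _ H => by
        rw [pw_Am_neg_half hA]
        refine (h3 hA hS hδ hs ha hc'0 hlam (fun v => hmv c.1 v c.2) (q c) (hq c) hG H).trans
          (le_of_eq ?_)
        rw [Finset.sum_boole, Finset.filter_filter])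
      (Nat.mul_pos hN1 hT) (Nat.mul_pos hN1 hT) hτ hτ1 (by positivity) (by positivity)
      (by positivity) (by positivity) hδ
      (fun v t ht => (ex_subtype S.mv okm ⟨S.ini, ok0⟩ _ t
        fun c => if S.cr c v then 1 else 0).trans_le (hp T₁ hT v t ht))
      (fun v hv => by simp only [if_pos hv, le_refl])
      (fun t ht => by
        rw [ex_aff _ _ (fun v (c : {c // S.Ok c}) => if S.cr c.1 v then (1 : ℝ) else 0) _ _ _
          (Nat.mul_pos hN1 hT)]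
        refine add_le_add_left (mul_le_mul_of_nonneg_left ?_ hx1) _
        refine (Finset.sum_le_card_nsmul _ _ (1 / (T₁ : ℝ)) fun v hv => ?_).trans ?_
        · have := hp T₁ hT v t ht.le
          rw [if_pos (mem_filter.1 hv).2] at this
          exact (ex_subtype S.mv okm ⟨S.ini, ok0⟩ _ t
            fun c => if S.cr c v then 1 else 0).trans_le this
        · rw [nsmul_eq_mul, mul_one_div]; gcongr)
      (by
        have k1 := log_ini_le hA hS hδ.le hs.le S.ini hlow hcv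
        have k2 := Real.log_le_log (Real.exp_pos _) (le_qf_Lf hA hS hδ.le S.fin hΩ)
        rw [Real.log_exp] at k2
        have k3 := mul_le_mul_of_nonneg_left hfin (by positivity : 0 ≤ s * R.k)
        dsimp only
        rw [hc₁]; linarith)
    obtain ⟨Φ, hΦ, eΦ, n0, hlog⟩ := log_qf_le hM hcv
    obtain ⟨s1, s2⟩ := sum_p_sq S.act (T := T₁) (p := p) hNa
    have en1 : qf Φ (R.hh (∑ v, h v)) ≤ Efun a Ce c' l s lam e τ B E₀ p c₁ Na N T₁ δ := by
      have k1 : ∑ v, ‖ap (pw (R.hh (h v) + δ • (1 : Matrix I I ℂ)) (1 / 2))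
          (ap (pw M (1 / 4)) (R.cv Ω))‖ ^ 2 =
          (qf Φ (R.hh (∑ v, h v)) + N * δ) * ‖ap (pw M (1 / 4)) (R.cv Ω)‖ ^ 2 := by
        simp only [norm_ap_sq (pw (R.hh (h _) + _) _)]
        rw [← re_inner_sum, gg]
        change qf _ _ = _
        conv_lhs => rw [eΦ]
        rw [qf_vsmul, qf_add, qf_rsmul, qf_one, hΦ]; ring
      rw [k1] at en
      have k2 := le_of_mul_le_mul_right en (by positivity)
      have k3 : c' * lam ^ ((1 : ℝ) / a - 1) * N / (2 * s * R.k) * (R.k * (2 * s * B + c₁ * δ)) /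
          ((N * T₁ : ℕ) * τ) =
          c' * lam ^ ((1 : ℝ) / a - 1) * (2 * s * B + c₁ * δ) / (2 * s * T₁ * τ) := by
        push_cast; field_simp
      rw [k3] at k2
      have k4 : 0 ≤ (N : ℝ) * δ := by positivity
      refine le_trans (by linarith) (k2.trans ?_)
      rw [Efun]
      gcongr
    have u1 := lg_le_of_le hA hS hδ.le hs.le S.ini hβ hU hM hi hΦ
    have u2 := le_log_fin hA hS hδ.le (Ω := Ω) hO hOO hZO (c := S.fin)
      (fun g => (hZ1 g).trans (ok1 g).1) (fun g => (hL _ ok1 g).1) hZ2 h0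
    have u3 := Real.log_le_log (qf_pos' (pw_posDef (ee_posDef _) _)
      (norm_ne_zero_iff.1 (by rw [hcv]; norm_num)))
      (qf_mono (R.cv Ω) (pw_mono (ee_posDef _).posSemidef lo (s := 1 / 2) (by norm_num)
        (by norm_num)))
    have u4 := mul_le_mul_of_nonneg_left (mul_le_mul_of_nonneg_left en1 hβ)
      (by positivity : 0 ≤ s * R.k)
    refine le_of_mul_le_mul_left (a := s * R.k) ?_ (by positivity)
    have u5 : s * R.k * rhs = s * R.k * fn S.A₁ S.fin (((‖ap O Ω‖⁻¹ : ℝ) : ℂ) • ap O Ω) -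
        R.k * Real.log (‖ap O Ω‖ ^ 2) := by
      simp only [rhs]; field_simp
    have u6 : s * R.k * (c₁ * δ / s) = c₁ * (δ * R.k) := by field_simp
    have u7 := (u2.trans u3).trans (hlog.trans u1)
    rw [u5, mul_sub, u6, hc₁]
    linarith
  have cont : Continuous fun δ : ℝ =>
      α - β * (Efun a Ce c' l s lam e τ B E₀ p c₁ Na N T₁ δ + δ) - c₁ * δ / s := by
    unfold Efun xi1; fun_prop
  have lim : α - β * (Efun a Ce c' l s lam e τ B E₀ p c₁ Na N T₁ 0 + 0) - c₁ * 0 / s ≤ rhs :=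
    le_of_tendsto ((cont.tendsto 0).mono_left (nhdsWithin_le_nhds (s := Set.Ioi 0)))
      (by filter_upwards [Ioc_mem_nhdsGT (zero_lt_one' ℝ)] with δ hδ using key δ hδ.1 hδ.2)
  have fin := mul_le_mul_of_nonneg_left (Efun_zero_le (E₀ := E₀) (p := p) (Na := Na) (N := N) ha
    c₁ hCe hC1 hJ hl hs hlam hτ hτ1 hB hT) hβ
  simp only [add_zero, mul_zero, zero_div, sub_zero] at lim
  linarith

end Crest.Agent.N336.C
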