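import Crest.Agent.N336.C.Defs

/-!
# Row 336, CORE: entropies of pure states (helper82)

Basic facts on `SV`, `mi`, `eta`; Fannes type continuity bounds; `continuous_SV`, `SC`.
-/

set_option autoImplicit false
set_option linter.unusedSectionVars false

open Matrix Finset
open scoped ComplexOrder MatrixOrder Matrix.Norms.L2Operator InnerProductSpace

namespace Crest.Agent.N336.C

open Crest.Agent.N336.Q Crest.Agent.N336.Eng

variable {ι : Type} [Fintype ι] [DecidableEq ι] {d : ι → Type} [∀ x, Fintype (d x)]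
  [∀ x, DecidableEq (d x)] [∀ x, Nonempty (d x)]

lemma SV_eq (χ : Q.Vec (Cfg d)) (X : Finset ι) : SV χ X = SX X (pj χ) := rfl

lemma SV_compl (χ : Q.Vec (Cfg d)) (X : Finset ι) : SV χ Xᶜ = SV χ X := SX_compl X χ

lemma SV_nonneg {χ : Q.Vec (Cfg d)} (h : ‖χ‖ = 1) (X : Finset ι) : 0 ≤ SV χ X :=
  (dens_pj h).SX_nonneg X

lemma SV_le_log_dim {χ : Q.Vec (Cfg d)} (h : ‖χ‖ = 1) (X : Finset ι) :
    SV χ X ≤ Real.log (dim d X) :=
  (dens_pj h).SX_le X

lemma SV_empty {χ : Q.Vec (Cfg d)} (h : ‖χ‖ = 1) : SV χ ∅ = 0 := (dens_pj h).SX_empty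

lemma SV_univ {χ : Q.Vec (Cfg d)} (h : ‖χ‖ = 1) : SV χ univ = 0 := by
  rw [← compl_empty, SV_compl, SV_empty h]

lemma SV_submod (χ : Q.Vec (Cfg d)) (X Y : Finset ι) :
    SV χ (X ∪ Y) + SV χ (X ∩ Y) ≤ SV χ X + SV χ Y :=
  SX_submod X Y (pj_posSemidef χ)

lemma SV_union_le {χ : Q.Vec (Cfg d)} (h : ‖χ‖ = 1) (X Y : Finset ι) :
    SV χ (X ∪ Y) ≤ SV χ X + SV χ Y :=
  (dens_pj h).SX_union_le X Y

/-- Araki-Lieb -/
lemma SV_araki {χ : Q.Vec (Cfg d)} (h : ‖χ‖ = 1) {X Y : Finset ι} (hd : Disjoint X Y) :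
    SV χ Y ≤ SV χ (X ∪ Y) + SV χ X :=
  araki_lieb_pure h hd

lemma log_dim_nonneg (X : Finset ι) : 0 ≤ Real.log (dim d X) :=
  Real.log_nonneg (by exact_mod_cast dim_pos (d := d) X)

lemma log_dim_mono {X Y : Finset ι} (h : X ⊆ Y) : Real.log (dim d X) ≤ Real.log (dim d Y) := by
  have e : Y = X ∪ (Y \ X) := (union_sdiff_of_subset h).symm
  rw [e, dim_union disjoint_sdiff, Nat.cast_mul,
    Real.log_mul (dim_pos_real _).ne' (dim_pos_real _).ne']
  linarith [log_dim_nonneg (d := d) (Y \ X)]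

/-- rank bound -/
lemma SV_le_of_proj {X : Finset ι} {P : Q.Op (sub (sb X) d)} (hP : P.IsHermitian) (h : P * P = P)
    {ρ : ℝ} (hr : (trace P).re ≤ Real.exp ρ) {χ : Q.Vec (Cfg d)} (hχ : ‖χ‖ = 1)
    (h1 : ap (lift X P) χ = χ) : SV χ X ≤ ρ := by
  have := SX_le_of_proj hP h hr (dens_pj hχ) (by rw [pj, mul_kb, h1])
  rwa [Real.log_exp] at this

/-- invariance under unitaries outside -/
lemma SV_ap_out {X : Finset ι} {U : Q.Op d} (h : Supp Xᶜ U) (hU : Uᴴ * U = 1)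
    (χ : Q.Vec (Cfg d)) : SV (ap U χ) X = SV χ X := by
  rw [SV_eq, pj_ap, SX_conj h hU, SV_eq]

/-- invariance under unitaries inside -/
lemma SV_ap_in {X : Finset ι} {U : Q.Op d} (h : Supp X U) (hU : Uᴴ * U = 1)
    (χ : Q.Vec (Cfg d)) : SV (ap U χ) X = SV χ X := by
  rw [← SV_compl, SV_ap_out (by rwa [compl_compl]) hU, SV_compl]

lemma SV_congr {X : Finset ι} {χ χ' : Q.Vec (Cfg d)}
    (h : ∀ O, Supp X O → ⟪χ, ap O χ⟫_ℂ = ⟪χ', ap O χ'⟫_ℂ) : SV χ X = SV χ' X :=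
  SX_congr fun O hO => by rw [trace_mul_kb, trace_mul_kb, h O hO]

lemma pj_smul {n : Type} [Fintype n] [DecidableEq n] (c : ℂ) (v : Q.Vec n) :
    pj (c • v) = ((‖c‖ ^ 2 : ℝ) : ℂ) • pj v := by
  rw [pj, kb_smul_left, kb_smul_right, smul_smul, Complex.star_def, Complex.mul_conj,
    Complex.normSq_eq_norm_sq]

lemma SV_smul_unit {c : ℂ} (hc : ‖c‖ = 1) (χ : Q.Vec (Cfg d)) (X : Finset ι) :
    SV (c • χ) X = SV χ X := by
  rw [SV_eq, pj_smul, hc, SV_eq]; simp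

lemma mi_comm (χ : Q.Vec (Cfg d)) (A F : Finset ι) : mi χ A F = mi χ F A := by
  unfold mi; rw [union_comm]; ring

lemma mi_nonneg {χ : Q.Vec (Cfg d)} (h : ‖χ‖ = 1) (A F : Finset ι) : 0 ≤ mi χ A F := by
  have := SV_union_le h A F
  unfold mi; linarith

lemma mi_le {χ : Q.Vec (Cfg d)} (h : ‖χ‖ = 1) {A F : Finset ι} (hd : Disjoint A F) :
    mi χ A F ≤ 2 * SV χ A := by
  have := SV_araki h hd
  unfold mi; linarith

lemma mi_le' {χ : Q.Vec (Cfg d)} (h : ‖χ‖ = 1) {A F : Finset ι} (hd : Disjoint A F) :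
    mi χ A F ≤ 2 * SV χ F := by
  rw [mi_comm]; exact mi_le h hd.symm

lemma mi_mono_right (χ : Q.Vec (Cfg d)) {A F F' : Finset ι} (hF : F ⊆ F') (hd : Disjoint A F') :
    mi χ A F ≤ mi χ A F' := by
  have h := SV_submod χ (A ∪ F) F'
  have e1 : A ∪ F ∪ F' = A ∪ F' := by rw [union_assoc, union_eq_right.2 hF]
  have e2 : (A ∪ F) ∩ F' = F := by
    rw [union_inter_distrib_right, disjoint_iff_inter_eq_empty.1 hd, empty_union,
      inter_eq_left.2 hF]
  rw [e1, e2] at h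
  unfold mi; linarith

lemma mi_mono (χ : Q.Vec (Cfg d)) {A A' F F' : Finset ι} (hA : A ⊆ A') (hF : F ⊆ F')
    (hd : Disjoint A' F') : mi χ A F ≤ mi χ A' F' := by
  refine (mi_mono_right χ hF (hd.mono_left hA)).trans ?_
  rw [mi_comm, mi_comm χ A']
  exact mi_mono_right χ hA hd.symm

/-- the mutual information with the whole complement -/
lemma mi_compl {χ : Q.Vec (Cfg d)} (h : ‖χ‖ = 1) (A : Finset ι) : mi χ A Aᶜ = 2 * SV χ A := by
  unfold mi; rw [union_compl, SV_univ h, SV_compl]; ring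

/-- the mutual information across a shell -/
lemma mi_shell (χ : Q.Vec (Cfg d)) {P R : Finset ι} (h : P ⊆ R) :
    mi χ P Rᶜ = SV χ P + SV χ R - SV χ (R \ P) := by
  have e : P ∪ Rᶜ = (R \ P)ᶜ := by
    ext x
    have : x ∈ P → x ∈ R := fun hx => h hx
    simp only [mem_union, mem_compl, mem_sdiff]; tauto
  unfold mi; rw [e, SV_compl, SV_compl]

lemma eta_nonneg (χ : Q.Vec (Cfg d)) {P y Y : Finset ι} (h1 : Disjoint P y) (h2 : Disjoint P Y)
    (h3 : Disjoint y Y) : 0 ≤ eta χ P y Y := by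
  have h := SV_submod χ (P ∪ y) (Y ∪ y)ᶜ
  have k1 : ∀ x, x ∈ P → x ∉ y := fun x hx => disjoint_left.1 h1 hx
  have k2 : ∀ x, x ∈ P → x ∉ Y := fun x hx => disjoint_left.1 h2 hx
  have k3 : ∀ x, x ∈ y → x ∉ Y := fun x hx => disjoint_left.1 h3 hx
  have e1 : P ∪ y ∪ (Y ∪ y)ᶜ = Yᶜ := by
    ext x
    have := k1 x; have := k2 x; have := k3 x
    simp only [mem_union, mem_compl]; tauto
  have e2 : (P ∪ y) ∩ (Y ∪ y)ᶜ = P := by
    ext x
    have := k1 x; have := k2 x; have := k3 x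
    simp only [mem_union, mem_compl, mem_inter]; tauto
  rw [e1, e2, SV_compl, SV_compl] at h
  unfold eta; linarith

lemma eta_le {χ : Q.Vec (Cfg d)} (h : ‖χ‖ = 1) (P y Y : Finset ι) :
    eta χ P y Y ≤ 2 * Real.log (dim d y) := by
  have h1 := SV_union_le h P y
  have h2 := SV_union_le h Y y
  have h3 := SV_le_log_dim h y
  unfold eta; linarith

/-- trace distance of pure states -/
lemma td_pure {χ χ' : Q.Vec (Cfg d)} (h : ‖χ‖ = 1) (h' : ‖χ'‖ = 1) {e : ℝ} (he : ‖χ - χ'‖ ≤ e)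
    (O : Q.Op d) (hO : ‖O‖ ≤ 1) : (trace (O * pj χ)).re - (trace (O * pj χ')).re ≤ 2 * e :=
  (re_inner_sub_le h.le h'.le hO).trans (by linarith)

/-- continuity of conditional entropies, rank version -/
lemma fannes_rank {X Y : Finset ι} (hd : Disjoint X Y) {P : Q.Op (sub (sb X) d)}
    (hP : P.IsHermitian) (hPP : P * P = P) {ρ : ℝ} (hr : (trace P).re ≤ Real.exp ρ)
    {χ χ' : Q.Vec (Cfg d)} (h : ‖χ‖ = 1) (h' : ‖χ'‖ = 1) (k : ap (lift X P) χ = χ)
    (k' : ap (lift X P) χ' = χ') {e : ℝ} (he : ‖χ - χ'‖ ≤ e) (he1 : e ≤ 1) :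
    |(SV χ (X ∪ Y) - SV χ Y) - (SV χ' (X ∪ Y) - SV χ' Y)| ≤ 2 * e * ρ + 4 * Real.sqrt e := by
  have hb := bin_le ((norm_nonneg _).trans he) he1
  have p : lift X P * pj χ = pj χ := by rw [pj, mul_kb, k]
  have p' : lift X P * pj χ' = pj χ' := by rw [pj, mul_kb, k']
  have h1 := afw hd hP hPP hr (dens_pj h) (dens_pj h') p p' (ε := e)
    fun O _ _ hO => td_pure h h' he O hO
  have h2 := afw hd hP hPP hr (dens_pj h') (dens_pj h) p' p (ε := e)
    fun O _ _ hO => td_pure h' h (by rwa [norm_sub_rev]) O hO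
  rw [Real.log_exp] at h1 h2
  simp only [SV_eq]
  rw [abs_le]; constructor <;> linarith

lemma fannes_cond_bin {X Y : Finset ι} (hd : Disjoint X Y) {χ χ' : Q.Vec (Cfg d)} (h : ‖χ‖ = 1)
    (h' : ‖χ'‖ = 1) {e : ℝ} (he : ‖χ - χ'‖ ≤ e) :
    |(SV χ (X ∪ Y) - SV χ Y) - (SV χ' (X ∪ Y) - SV χ' Y)| ≤
      2 * e * Real.log (dim d X) + bin e := by
  have h1 := afw_dim hd (dens_pj h) (dens_pj h') (ε := e) fun O _ _ hO => td_pure h h' he O hO
  have h2 := afw_dim hd (dens_pj h') (dens_pj h) (ε := e)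
    fun O _ _ hO => td_pure h' h (by rwa [norm_sub_rev]) O hO
  simp only [SV_eq]
  rw [abs_le]; constructor <;> linarith

/-- continuity of conditional entropies -/
lemma fannes_cond {X Y : Finset ι} (hd : Disjoint X Y) {χ χ' : Q.Vec (Cfg d)} (h : ‖χ‖ = 1)
    (h' : ‖χ'‖ = 1) {e : ℝ} (he : ‖χ - χ'‖ ≤ e) (he1 : e ≤ 1) :
    |(SV χ (X ∪ Y) - SV χ Y) - (SV χ' (X ∪ Y) - SV χ' Y)| ≤
      2 * e * Real.log (dim d X) + 4 * Real.sqrt e :=
  (fannes_cond_bin hd h h' he).trans (by linarith [bin_le ((norm_nonneg _).trans he) he1])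

lemma fannes_bin {χ χ' : Q.Vec (Cfg d)} (h : ‖χ‖ = 1) (h' : ‖χ'‖ = 1) {e : ℝ}
    (he : ‖χ - χ'‖ ≤ e) (X : Finset ι) :
    |SV χ X - SV χ' X| ≤ 2 * e * Real.log (dim d X) + bin e := by
  have := fannes_cond_bin (disjoint_empty_right X) h h' he
  rwa [union_empty, SV_empty h, SV_empty h', sub_zero, sub_zero] at this

/-- **Fannes** -/
lemma fannes {χ χ' : Q.Vec (Cfg d)} (h : ‖χ‖ = 1) (h' : ‖χ'‖ = 1) {e : ℝ} (he : ‖χ - χ'‖ ≤ e)
    (he1 : e ≤ 1) (X : Finset ι) :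
    |SV χ X - SV χ' X| ≤ 2 * e * Real.log (dim d X) + 4 * Real.sqrt e :=
  (fannes_bin h h' he X).trans (by linarith [bin_le ((norm_nonneg _).trans he) he1])

/-- Fannes, rank version -/
lemma fannes_proj {X : Finset ι} {P : Q.Op (sub (sb X) d)}
    (hP : P.IsHermitian) (hPP : P * P = P) {ρ : ℝ} (hr : (trace P).re ≤ Real.exp ρ)
    {χ χ' : Q.Vec (Cfg d)} (h : ‖χ‖ = 1) (h' : ‖χ'‖ = 1) (k : ap (lift X P) χ = χ)
    (k' : ap (lift X P) χ' = χ') {e : ℝ} (he : ‖χ - χ'‖ ≤ e) (he1 : e ≤ 1) :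
    |SV χ X - SV χ' X| ≤ 2 * e * ρ + 4 * Real.sqrt e := by
  have := fannes_rank (disjoint_empty_right X) hP hPP hr h h' k k' he he1
  rwa [union_empty, SV_empty h, SV_empty h', sub_zero, sub_zero] at this

lemma Sph.norm {n : Type} [Fintype n] (χ : Sph n) : ‖χ.1‖ = 1 := by simp

lemma continuous_bin : Continuous bin := by
  unfold bin
  exact (Real.continuous_mul_log.comp (continuous_const.add continuous_id)).sub
    Real.continuous_mul_log

lemma continuous_SV (X : Finset ι) : Continuous fun χ : Sph (Cfg d) => SV χ.1 X := by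
  refine continuous_iff_continuousAt.2 fun χ₀ => ?_
  rw [ContinuousAt, tendsto_iff_norm_sub_tendsto_zero]
  have hc : Continuous fun χ : Sph (Cfg d) => ‖χ.1 - χ₀.1‖ := by fun_prop
  have hg : Continuous fun χ : Sph (Cfg d) =>
      2 * ‖χ.1 - χ₀.1‖ * Real.log (dim d X) + bin ‖χ.1 - χ₀.1‖ :=
    ((continuous_const.mul hc).mul continuous_const).add (continuous_bin.comp hc)
  refine squeeze_zero (fun _ => norm_nonneg _)
    (fun χ => fannes_bin (Sph.norm χ) (Sph.norm χ₀) le_rfl X) ?_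
  simpa [bin] using hg.tendsto χ₀

/-- the entropy as a continuous function on the sphere -/
noncomputable def SC (X : Finset ι) : C(Sph (Cfg d), ℝ) := ⟨fun χ => SV χ.1 X, continuous_SV X⟩

@[simp] lemma SC_apply (X : Finset ι) (χ : Sph (Cfg d)) : SC X χ = SV χ.1 X := rfl

lemma continuous_eta (P y Y : Finset ι) : Continuous fun χ : Sph (Cfg d) => eta χ.1 P y Y :=
  (((continuous_SV _).sub (continuous_SV _)).add (continuous_SV _)).sub (continuous_SV _)

lemma continuous_mi (A F : Finset ι) : Continuous fun χ : Sph (Cfg d) => mi χ.1 A F :=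
  ((continuous_SV _).add (continuous_SV _)).sub (continuous_SV _)

lemma continuous_fn {K : ℕ} (A₁ : Finset ι) (c : Cnf ι K) :
    Continuous fun χ : Sph (Cfg d) => fn A₁ c χ.1 :=
  continuous_finsetSum _ fun _ _ => (((continuous_SV _).add (continuous_SV _)).sub
    (continuous_SV _)).sub (continuous_const.mul (continuous_SV _))

lemma continuous_qf {n : Type} [Fintype n] [DecidableEq n] (M : Matrix n n ℂ) :
    Continuous fun χ : Sph n => qf χ.1 M :=
  Complex.continuous_re.comp (continuous_subtype_val.inner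
    ((ap M).continuous.comp continuous_subtype_val))

end Crest.Agent.N336.C
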