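import Crest.Agent.N336.C.Anc3

/-!
# Row 336, CORE: `anc : RigStmt → LscStmt → AncStmt` (helper44)
-/

set_option autoImplicit false
set_option linter.unusedSectionVars false

open Matrix Finset
open scoped ComplexOrder MatrixOrder Matrix.Norms.L2Operator InnerProductSpace

namespace Crest.Agent.N336.C

open Crest.Agent.N336.Q Crest.Agent.N336.Eng

namespace An

/-- the body of `RigStmt` -/
def RigAt (a : ℕ) (C : ℝ) : Prop :=
  ∀ (ι : Type) [Fintype ι] [DecidableEq ι] (d : ι → Type)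
    [∀ x, Fintype (d x)] [∀ x, DecidableEq (d x)] [∀ x, Nonempty (d x)] (V : Type) [Fintype V]
    [Nonempty V] (K w r b₁ b₂ N₀ Na T₁ : ℕ) (S : Scn ι V K w r b₁ b₂ N₀ Na) (h : V → Q.Op d)
    (J l s lam τ B E₀ α β : ℝ) (Ω : Q.Vec (Cfg d)) (O : Q.Op d) (ZO : Finset ι),
    (∀ v, (h v).PosSemidef ∧ Supp (S.Z v) (h v)) →
    (∀ v ∈ S.near, ‖h v‖ ≤ J ∧ Real.log (dim d (S.Z v)) ≤ l) →
    0 ≤ J → 1 ≤ l → 0 < s → C * l ^ a * s ≤ 1 → 0 < lam → 0 < τ → τ ≤ 1 / 4 → 1 ≤ T₁ →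
    ‖Ω‖ = 1 → ap (∑ v, h v) Ω = (E₀ : ℂ) • Ω → 0 ≤ β → 0 ≤ B →
    (∀ χ : Q.Vec (Cfg d), ‖χ‖ = 1 → α - β * qf χ (∑ v, h v) ≤ fn S.A₁ S.ini χ) →
    (∀ χ : Q.Vec (Cfg d), ‖χ‖ = 1 → -B ≤ fn S.A₁ S.ini χ) → fn S.A₁ S.fin Ω ≤ B →
    O.IsHermitian → O * O = O → Supp ZO O → (∀ g, ZO ⊆ (S.ini g).1) → Disjoint ZO S.A₁ →
    ap O Ω ≠ 0 →
    α - β * enB a C J l s lam τ B E₀ (pin K w r b₁ b₂ N₀ T₁) Na (Fintype.card V) T₁ ≤
      fn S.A₁ S.fin (((‖ap O Ω‖⁻¹ : ℝ) : ℂ) • ap O Ω) - Real.log (‖ap O Ω‖ ^ 2) / s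

lemma enB_mono {a : ℕ} {C C' J l s lam τ B E₀ p : ℝ} {Na NV T₁ : ℕ} (h : C ≤ C') (hJ : 0 ≤ J)
    (hl : 1 ≤ l) (hs : 0 < s) (hlam : 0 < lam) (hτ : 0 < τ) (hB : 0 ≤ B) :
    enB a C J l s lam τ B E₀ p Na NV T₁ ≤ enB a C' J l s lam τ B E₀ p Na NV T₁ := by
  unfold enB
  gcongr

/-- matrix units from a projector -/
lemma exists_mu {ι : Type} [Fintype ι] [DecidableEq ι] {d : ι → Type} [∀ x, Fintype (d x)]
    [∀ x, DecidableEq (d x)] [∀ x, Nonempty (d x)] {Ω : Q.Vec (Cfg d)} {X : Finset ι} {ρ ε : ℝ}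
    (h : Low Ω X ρ ε) : ∃ (T : Type) (_ : Fintype T) (_ : DecidableEq T) (A : T → T → Q.Op d),
      MU X A ∧ (Fintype.card T : ℝ) ≤ Real.exp ρ ∧ ‖ap (∑ α, A α α) Ω - Ω‖ ≤ ε := by
  classical
  obtain ⟨P, h1, h2, h3, h4⟩ := h
  have e1 : ∑ α : {i // ev P i = 1}, pj (evec P α) = P := by
    conv_rhs => rw [← sum_ev_smul_pj h1]
    rw [← Finset.sum_subtype (univ.filter fun i => ev P i = 1) (by simp) fun i => pj (evec P i),
      Finset.sum_filter]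
    refine Finset.sum_congr rfl fun i _ => ?_
    rcases ev_proj h1 h2 i with h | h <;> simp [h]
  refine ⟨{i // ev P i = 1}, inferInstance, inferInstance,
    fun α β => lift X (kb (evec P α) (evec P β)),
    ⟨fun α β => supp_lift _ _, fun α β γ δ => ?_, fun α β => ?_, fun α => ?_⟩, ?_, ?_⟩
  · rw [← map_mul, mul_kb, ap_kb, inner_evec, kb_smul_left]
    by_cases h : β = γ
    · simp [h]
    · simp [h, mt Subtype.ext h]
  · rw [← emb_conjTranspose, kb_conjTranspose]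
  · rw [trace_lift, trace_pj, norm_evec]; simp
  · refine le_trans (le_of_eq ?_) h3
    conv_rhs => rw [← e1]
    simp [trace_sum, trace_pj, norm_evec]
  · rw [← map_sum, e1]; exact h4

theorem core {a : ℕ} {C : ℝ} (hR : RigAt a C) (hC : 1 ≤ C) (hL : LscStmt) {ι : Type} [Fintype ι]
    [DecidableEq ι] {d : ι ⊕ Bool → Type} [∀ x, Fintype (d x)] [∀ x, DecidableEq (d x)]
    [∀ x, Nonempty (d x)] {V : Type} [Fintype V] [Nonempty V] {K w r b₁ b₂ N₀ Na T₁ : ℕ}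
    (S : Scn ι V K w r b₁ b₂ N₀ Na) (h : V → Q.Op (sub (eL ι) d))
    {J l s lam τ E₀ Δ ε ρ z : ℝ} {Ω Ω' : Q.Vec (Cfg (sub (eL ι) d))} {P₀ : Finset ι}
    (hh : ∀ v, (h v).PosSemidef ∧ Supp (S.Z v) (h v))
    (hn : ∀ v ∈ S.near, ‖h v‖ ≤ J ∧ Real.log (dim (sub (eL ι) d) (S.Z v)) ≤ l)
    (hJ : 0 ≤ J) (hl : 1 ≤ l) (hs : 0 < s) (hCs : (C + 300) * l ^ a * s ≤ 1) (hlam : 0 < lam)
    (hτ : 0 < τ) (hτ' : τ ≤ 1 / 4) (hT₁ : 1 ≤ T₁) (hgap : A.Gap (∑ v, h v) Ω' E₀ Δ)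
    (hE : 0 ≤ E₀) (hΔ : 0 < Δ) (hΩ : ‖Ω‖ = 1) (hΩ' : ‖Ω' - Ω‖ ≤ ε) (hε : ε ≤ 1 / 10)
    (hρ : 1 ≤ ρ) (hερ : ε * ρ ≤ 1) (hz : 0 < z) (hP₀ : ∀ g, P₀ ⊆ (S.ini g).1)
    (hg : ∀ g, Low Ω (S.ini g).1 ρ ε ∧ ε * Real.log (dim (sub (eL ι) d) (S.ini g).2) ≤ 1 ∧
      SV Ω (S.fin g).1 ≤ ρ)
    {T : Type} [Fintype T] [DecidableEq T] [Nonempty T] {A : T → T → Q.Op (sub (eL ι) d)}
    (hA : MU P₀ A) (hT : (Fintype.card T : ℝ) ≤ Real.exp ρ) (hAΩ : ‖ap (∑ α, A α α) Ω - Ω‖ ≤ ε)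
    (X : Anc T (sub (eR ι) d)) :
    ∑ g, mi Ω P₀ (S.fin g).2ᶜ ≤
      ∑ g, (mi Ω (S.fin g).1 (S.fin g).2ᶜ - mi Ω (S.ini g).1 (S.ini g).2ᶜ) +
        (C + 300) * K * (z * ρ + 1) + (C + 300) * ρ / s + (C + 300) * K * ρ / (Δ * z) *
          enB a (C + 300) J l s lam τ ((C + 300) * K * ρ) E₀ (pin K w r b₁ b₂ N₀ T₁) Na
            (Fintype.card V) T₁ := by
  obtain ⟨lo, hi, hlo, hhi⟩ := exists_lohi S
  have hε0 : 0 ≤ ε := (norm_nonneg _).trans hΩ'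
  have hK : (0 : ℝ) ≤ K := Nat.cast_nonneg _
  have hT' : ∀ b, (dim (sub (eR ι) d) {b} : ℝ) ≤ Real.exp ρ := fun b => by rwa [X.dim]
  have hH : ∑ v, emb (eL ι) (h v) = emb (d := d) (eL ι) (∑ v, h v) := (map_sum _ _ _).symm
  have hv : ‖ap (∑ α, A α α) Ω' - Ω‖ ≤ 2 * ε := by
    have k1 := norm_sub_le_norm_sub_add_norm_sub (ap (∑ α, A α α) Ω') (ap (∑ α, A α α) Ω) Ω
    have k2 := norm_ap_proj_le hA.proj.1 hA.proj.2 (Ω' - Ω)
    rw [map_sub] at k2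
    linarith
  have hv0 := ne_zero_of_close hΩ hv (by linarith)
  have hn0 := norm_tst hA X Ω'
  have hc : (0 : ℝ) < Fintype.card T := by exact_mod_cast Fintype.card_pos
  have hB : 0 ≤ (C + 300) * K * ρ := by positivity
  have hβ : 0 ≤ (C + 300) * K * ρ / (Δ * z) := by positivity
  have hLf : ∀ g, Real.log (dim (sub (eL ι) d) (S.fin g).2) ≤
      Real.log (dim (sub (eL ι) d) (S.ini g).2) := fun g => log_dim_mono (chain S g).2.2
  have main := hR _ d V K w r b₁ b₂ N₀ Na T₁ (ext S lo hi hlo hhi) (fun v => emb (eL ι) (h v))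
    J l s lam τ ((C + 300) * K * ρ) E₀
    (∑ g, mi Ω (S.ini g).1 (S.ini g).2ᶜ - 200 * K * (z * ρ + 1)) ((C + 300) * K * ρ / (Δ * z))
    (pr (eL ι) (eR ι) Ω' X.ξ) (tst A X) (un P₀ {false})
    (fun v => ⟨emb_posSemidef _ (hh v).1, (hh v).2.emb _⟩)
    (fun v hv => ⟨(norm_emb_le _ _).trans (hn v hv).1, by
      rw [show (ext S lo hi hlo hhi).Z v = (S.Z v).map (eL ι) from rfl, dim_map]
      exact (hn v hv).2⟩)
    hJ hl hs (le_trans (by gcongr; linarith) hCs) hlam hτ hτ' hT₁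
    (by rw [norm_pr rg_eR, hgap.norm, X.norm, one_mul])
    (by rw [hH, ap_emb_pr rg_eR _ _ X.norm, hgap.eig, pr_smul_left]) hβ hB ?_ ?_ ?_
    (rk_tst hA X).herm (rk_tst hA X).idem (rk_tst hA X).supp
    (fun g => by
      rw [ext_ini]; exact union_subset_union_left (map_subset_map.2 (hP₀ g)))
    (by
      refine disjoint_compl_right.mono_right ?_
      rw [un_compl]
      exact union_subset_union_left (map_subset_map.2 (empty_subset _)))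
    (by rw [← norm_pos_iff, hn0]; have := norm_pos_iff.2 hv0; positivity)
  · have k1 := enB_mono (a := a) (E₀ := E₀) (p := pin K w r b₁ b₂ N₀ T₁) (Na := Na)
      (NV := Fintype.card V) (T₁ := T₁) (by linarith : C ≤ C + 300) hJ hl hs hlam hτ hB
    have k2 := mul_le_mul_of_nonneg_left k1 hβ
    have k3 : fn (ext S lo hi hlo hhi).A₁ (ext S lo hi hlo hhi).fin
        (nz (ap (tst A X) (pr (eL ι) (eR ι) Ω' X.ξ))) ≤
        ∑ g, (mi Ω (S.fin g).1 (S.fin g).2ᶜ - mi Ω P₀ (S.fin g).2ᶜ + 60) := by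
      refine (fn_un (ext_fin S hlo hhi) _).trans_le (Finset.sum_le_sum fun g _ => ?_)
      have k4 := tm_tst hA X hv0 hΩ ((hP₀ g).trans (chain S g).1) (chain S g).2.1
        ((norm_nz_sub hv0 hΩ).trans (by linarith : _ ≤ 4 * ε)) (hLf g)
      have k5 := (hg g).2.1
      linarith
    have k4 : -(3 * ρ) ≤ Real.log (‖ap (tst A X) (pr (eL ι) (eR ι) Ω' X.ξ)‖ ^ 2) := by
      have k5 : 4 / 5 ≤ ‖ap (∑ α, A α α) Ω'‖ := by
        have := norm_sub_norm_le Ω (ap (∑ α, A α α) Ω')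
        rw [norm_sub_rev, hΩ] at this
        linarith
      have k6 := Real.one_sub_inv_le_log_of_pos (norm_pos_iff.2 hv0)
      have k7 : ‖ap (∑ α, A α α) Ω'‖⁻¹ ≤ 5 / 4 := by
        rw [inv_le_comm₀ (norm_pos_iff.2 hv0) (by norm_num)]; linarith
      have k8 := (Real.log_le_iff_le_exp hc).2 hT
      rw [hn0, Real.log_pow, Real.log_mul (by positivity) (norm_ne_zero_iff.2 hv0), Real.log_inv]
      push_cast
      linarith
    have k5 : -(Real.log (‖ap (tst A X) (pr (eL ι) (eR ι) Ω' X.ξ)‖ ^ 2) / s) ≤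
        (C + 300) * ρ / s := by
      rw [← neg_div]; gcongr; nlinarith
    have k6 : 200 * K * (z * ρ + 1) + 60 * K ≤ (C + 300) * K * (z * ρ + 1) := by
      have : 0 ≤ K * (z * ρ) := by positivity
      have : 0 ≤ C * (K * (z * ρ + 1)) := by positivity
      nlinarith
    simp only [Finset.sum_add_distrib, Finset.sum_sub_distrib, Finset.sum_const, card_univ,
      Fintype.card_fin, nsmul_eq_mul] at k3 ⊢
    unfold nz at k3
    linarith
  · intro χ hχ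
    obtain ⟨ζ, hζ, k1⟩ := close hgap hE hΔ hz hχ X.norm
    rw [hH]
    set e := qf χ (emb (eL ι) (∑ v, h v)) with he
    have he0 : 0 ≤ e := re_inner_ap_nonneg
      (emb_posSemidef _ (posSemidef_sum _ fun v _ => (hh v).1)) χ
    have k2 : ‖χ - pr (eL ι) (eR ι) Ω ζ‖ ≤ z + e / (Δ * z) + ε := by
      have := norm_sub_le_norm_sub_add_norm_sub χ (pr (eL ι) (eR ι) Ω' ζ) (pr (eL ι) (eR ι) Ω ζ)
      rw [pr_sub_left, norm_pr rg_eR, hζ, mul_one] at this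
      linarith
    refine le_trans ?_ (fn_un (ext_ini S hlo hhi) _).ge
    have k3 : ∑ g, (mi Ω (S.ini g).1 (S.ini g).2ᶜ - (44 * (z + e / (Δ * z) + ε) * ρ + 150)) ≤
        ∑ g, tm χ (S.ini g).1 (S.ini g).2 := Finset.sum_le_sum fun g _ => by
      have := tm_lower hL hΩ (hg g).1 ((chain S g).1.trans ((chain S g).2.1.trans (chain S g).2.2))
        (hg g).2.1 hε hρ hερ hT' hχ hζ k2
      linarith
    refine le_trans ?_ k3
    simp only [Finset.sum_sub_distrib, Finset.sum_const, card_univ, Fintype.card_fin,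
      nsmul_eq_mul]
    have k4 : (C + 300) * K * ρ / (Δ * z) * e = (C + 300) * (K * (ρ * (e / (Δ * z)))) := by ring
    have k5 : 0 ≤ K * (ρ * (e / (Δ * z))) := by positivity
    have k6 : 0 ≤ K * (z * ρ) := by positivity
    have k7 : K * (ε * ρ) ≤ K * 1 := by gcongr
    have k8 : 0 ≤ C * (K * (ρ * (e / (Δ * z)))) := by positivity
    rw [k4]
    linarith
  · intro χ hχ
    refine le_trans ?_ (fn_un (ext_ini S hlo hhi) _).ge
    refine le_trans ?_ (Finset.sum_le_sum fun g _ => tm_ge hT' hχ (S.ini g).1 (S.ini g).2)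
    simp only [Finset.sum_const, card_univ, Fintype.card_fin, nsmul_eq_mul]
    have k2 : 0 ≤ K * ρ := by positivity
    have k3 : 0 ≤ C * (K * ρ) := by positivity
    linarith
  · refine (fn_un (ext_fin S hlo hhi) _).trans_le ?_
    have k1 : ∀ g, tm (pr (eL ι) (eR ι) Ω' X.ξ) (S.fin g).1 (S.fin g).2 ≤ 20 * ρ := fun g => by
      rw [tm_pr hgap.norm X.norm]
      have k2 := mi_cont hgap.norm hΩ (chain S g).2.1 hΩ' (hLf g)
      have k3 := mi_le hΩ (disjoint_compl_right.mono_left (chain S g).2.1)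
      have k4 := (hg g).2
      linarith [k4.1, k4.2]
    refine (Finset.sum_le_sum fun g _ => k1 g).trans ?_
    simp only [Finset.sum_const, card_univ, Fintype.card_fin, nsmul_eq_mul]
    have k2 : 0 ≤ K * ρ := by positivity
    have k3 : 0 ≤ C * (K * ρ) := by positivity
    linarith

end An

/-- the ancillas are eliminated -/
theorem anc (hR : RigStmt) (hL : LscStmt) : AncStmt := by
  obtain ⟨a, C, ha, hC, hR⟩ := hR
  refine ⟨a, C + 300, ha, by linarith, ?_⟩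
  intro ι _ _ d i1 i2 i3 V _ _ K w r b₁ b₂ N₀ Na T₁ S h J l s lam τ E₀ Δ ε ρ z Ω Ω' P₀ hh hn hJ hl
    hs hCs hlam hτ hτ' hT₁ hgap hE hΔ hΩ hΩ' hε hρ hερ hz hP₀ hlow hg
  obtain ⟨T, j1, j2, A, hA, hT, hAΩ⟩ := An.exists_mu hlow
  have j3 : Nonempty T := by
    by_contra h0
    rw [not_nonempty_iff] at h0
    rw [Finset.sum_of_isEmpty, ap_zero, zero_sub, norm_neg, hΩ] at hAΩ
    linarith
  obtain ⟨X⟩ := An.exists_anc T
  exact @An.core a C hR hC hL ι _ _ (Sum.elim d fun _ => T)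
    (fun x => match x with | .inl x => i1 x | .inr _ => j1)
    (fun x => match x with | .inl x => i2 x | .inr _ => j2)
    (fun x => match x with | .inl x => i3 x | .inr _ => j3)
    V _ _ K w r b₁ b₂ N₀ Na T₁ S h J l s lam τ E₀ Δ ε ρ z Ω Ω' P₀ hh hn hJ hl hs hCs hlam hτ hτ'
    hT₁ hgap hE hΔ hΩ hΩ' hε hρ hερ hz hP₀ hg T j1 j2 j3 A hA hT hAΩ X

end Crest.Agent.N336.C
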