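import Crest.Agent.N336.C.Defs
import Crest.Agent.N336.Q.Swp

/-!
# Row 336, CORE, `AncStmt` part 1: product vectors, rank projectors, Fannes (helper44)
-/

set_option autoImplicit false
set_option linter.unusedSectionVars false

open Matrix Finset
open scoped ComplexOrder MatrixOrder Matrix.Norms.L2Operator InnerProductSpace

namespace Crest.Agent.N336.C.An

open Crest.Agent.N336.Q Crest.Agent.N336.Eng

section one

variable {ι : Type} [Fintype ι] [DecidableEq ι] {d : ι → Type} [∀ x, Fintype (d x)]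
  [∀ x, DecidableEq (d x)] [∀ x, Nonempty (d x)]

lemma SV_eq (χ : Q.Vec (Cfg d)) (X : Finset ι) : SV χ X = SX X (pj χ) := rfl

lemma SV_compl (χ : Q.Vec (Cfg d)) (X : Finset ι) : SV χ Xᶜ = SV χ X := SX_compl X χ

lemma SV_le {χ : Q.Vec (Cfg d)} (h : ‖χ‖ = 1) (X : Finset ι) : SV χ X ≤ Real.log (dim d X) :=
  (dens_pj h).SX_le X

lemma SV_nonneg {χ : Q.Vec (Cfg d)} (h : ‖χ‖ = 1) (X : Finset ι) : 0 ≤ SV χ X :=
  (dens_pj h).SX_nonneg X

lemma SV_empty {χ : Q.Vec (Cfg d)} (h : ‖χ‖ = 1) : SV χ ∅ = 0 := (dens_pj h).SX_empty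

lemma SV_univ {χ : Q.Vec (Cfg d)} (h : ‖χ‖ = 1) : SV χ univ = 0 := by
  rw [← compl_empty, SV_compl, SV_empty h]

lemma dim_mono {X Y : Finset ι} (h : X ⊆ Y) : dim d X ≤ dim d Y := by
  rw [← union_sdiff_of_subset h, dim_union disjoint_sdiff]
  exact Nat.le_mul_of_pos_right _ (dim_pos _)

lemma log_dim_nonneg (X : Finset ι) : 0 ≤ Real.log (dim d X) :=
  Real.log_nonneg (by exact_mod_cast dim_pos (d := d) X)

lemma log_dim_mono {X Y : Finset ι} (h : X ⊆ Y) : Real.log (dim d X) ≤ Real.log (dim d Y) :=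
  Real.log_le_log (dim_pos_real X) (by exact_mod_cast dim_mono h)

/-- Fannes' inequality for pure states -/
lemma fannes {ψ φ : Q.Vec (Cfg d)} (h1 : ‖ψ‖ = 1) (h2 : ‖φ‖ = 1) (X : Finset ι) {δ L : ℝ}
    (h : ‖ψ - φ‖ ≤ δ) (hL : Real.log (dim d X) ≤ L) : SV ψ X ≤ SV φ X + 2 * δ * L + 4 := by
  have h0 := log_dim_nonneg (d := d) X
  have hδ : 0 ≤ δ := (norm_nonneg _).trans h
  have hm : δ * Real.log (dim d X) ≤ δ * L := mul_le_mul_of_nonneg_left hL hδ
  rcases le_total δ 1 with hd | hd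
  · have h3 := afw_dim (disjoint_empty_right X) (dens_pj h1) (dens_pj h2) (ε := δ)
      fun O _ _ hO => (re_inner_sub_le h1.le h2.le hO).trans (by linarith)
    rw [union_empty, (dens_pj h1).SX_empty, (dens_pj h2).SX_empty] at h3
    have h4 := bin_le hδ hd
    have h5 : Real.sqrt δ ≤ 1 := Real.sqrt_le_one.2 hd
    rw [SV_eq, SV_eq]
    linarith
  · have h3 := SV_le h1 X
    have h4 := SV_nonneg h2 X
    nlinarith

/-- the mutual information across a shell, by purity -/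
lemma mi_shell (χ : Q.Vec (Cfg d)) (P R : Finset ι) :
    mi χ P Rᶜ = SV χ P + SV χ R - SV χ (R \ P) := by
  have : P ∪ Rᶜ = (R \ P)ᶜ := by ext x; simp; tauto
  rw [mi, this, SV_compl, SV_compl]

lemma mi_nonneg {χ : Q.Vec (Cfg d)} (h : ‖χ‖ = 1) (A F : Finset ι) : 0 ≤ mi χ A F := by
  have := (dens_pj h).SX_union_le A F
  simp only [mi, SV_eq]; linarith

lemma mi_le {χ : Q.Vec (Cfg d)} (h : ‖χ‖ = 1) {A F : Finset ι} (hd : Disjoint A F) :
    mi χ A F ≤ 2 * SV χ A := by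
  have := araki_lieb_pure h hd
  simp only [mi, SV_eq]; linarith

/-- continuity of the mutual information across a shell -/
lemma mi_cont {ψ φ : Q.Vec (Cfg d)} (h1 : ‖ψ‖ = 1) (h2 : ‖φ‖ = 1) {P R : Finset ι} (hP : P ⊆ R)
    {δ L : ℝ} (h : ‖ψ - φ‖ ≤ δ) (hL : Real.log (dim d R) ≤ L) :
    mi ψ P Rᶜ ≤ mi φ P Rᶜ + 6 * δ * L + 12 := by
  have k1 := fannes h1 h2 P h ((log_dim_mono hP).trans hL)
  have k2 := fannes h1 h2 R h hL
  have k3 := fannes h2 h1 (R \ P) ((norm_sub_rev _ _).trans_le h)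
    ((log_dim_mono sdiff_subset).trans hL)
  rw [mi_shell, mi_shell]; linarith

/-- a projector on `X` of rank at most `r` -/
structure Rk (X : Finset ι) (M : Q.Op d) (r : ℝ) : Prop where
  supp : Supp X M
  herm : M.IsHermitian
  idem : M * M = M
  tr : (trace M).re ≤ r * dim d Xᶜ

lemma Rk.exists {X : Finset ι} {M : Q.Op d} {r : ℝ} (h : Rk X M r) :
    ∃ P : Q.Op (sub (sb X) d), lift X P = M ∧ P.IsHermitian ∧ P * P = P ∧ (trace P).re ≤ r := by
  obtain ⟨P, rfl⟩ := h.supp.exists_lift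
  refine ⟨P, rfl, isHermitian_of_emb h.herm, emb_injective _ (by rw [map_mul]; exact h.idem), ?_⟩
  have h1 := h.tr
  rw [trace_lift, ← Complex.ofReal_natCast, Complex.re_ofReal_mul, mul_comm] at h1
  exact le_of_mul_le_mul_right h1 (dim_pos_real _)

lemma rk_lift {X : Finset ι} {P : Q.Op (sub (sb X) d)} {r : ℝ} (h1 : P.IsHermitian)
    (h2 : P * P = P) (h3 : (trace P).re ≤ r) : Rk X (lift X P) r where
  supp := supp_lift X P
  herm := emb_isHermitian _ h1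
  idem := by rw [← map_mul, h2]
  tr := by
    rw [trace_lift, ← Complex.ofReal_natCast, Complex.re_ofReal_mul, mul_comm]
    exact mul_le_mul_of_nonneg_right h3 (Nat.cast_nonneg _)

lemma rk_one (X : Finset ι) : Rk X (1 : Q.Op d) (dim d X) where
  supp := Supp.one X
  herm := isHermitian_one
  idem := Matrix.mul_one 1
  tr := by rw [trace_one, card_cfg, ← dim_mul_compl X]; simp

/-- a state fixed by a rank one projector on `X` is a product across `X` -/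
lemma Rk.SV_union {X Y : Finset ι} {M : Q.Op d} (h : Rk X M 1) (hd : Disjoint X Y)
    {χ : Q.Vec (Cfg d)} (h1 : ‖χ‖ = 1) (h2 : ap M χ = χ) : SV χ (X ∪ Y) = SV χ Y := by
  obtain ⟨P, rfl, k1, k2, k3⟩ := h.exists
  have := abs_cond_le hd k1 k2 k3 (dens_pj h1) (by rw [pj, mul_kb, h2])
  rw [Real.log_one] at this
  exact sub_eq_zero.1 (abs_nonpos_iff.1 this)

end one

section vec

variable {n : Type} [Fintype n] [DecidableEq n]

/-- normalisation -/
noncomputable def nz (v : Q.Vec n) : Q.Vec n := ((‖v‖⁻¹ : ℝ) : ℂ) • v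

lemma norm_nz {v : Q.Vec n} (h : v ≠ 0) : ‖nz v‖ = 1 := by
  rw [nz, norm_smul, Complex.norm_real, norm_inv, norm_norm,
    inv_mul_cancel₀ (norm_ne_zero_iff.2 h)]

lemma norm_nz_sub {v w : Q.Vec n} (h : v ≠ 0) (hw : ‖w‖ = 1) : ‖nz v - w‖ ≤ 2 * ‖v - w‖ := by
  have h0 : 0 < ‖v‖ := norm_pos_iff.2 h
  have h1 : ‖nz v - v‖ = |1 - ‖v‖| := by
    have : nz v - v = (((‖v‖⁻¹ - 1 : ℝ)) : ℂ) • v := by
      rw [nz]; push_cast; rw [sub_smul, one_smul]
    rw [this, norm_smul, Complex.norm_real, Real.norm_eq_abs, ← abs_of_pos h0, ← abs_mul,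
      abs_of_pos h0, sub_mul, inv_mul_cancel₀ h0.ne', one_mul]
  have h2 : |1 - ‖v‖| ≤ ‖v - w‖ := by
    rw [← hw, abs_sub_comm]; exact abs_norm_sub_norm_le _ _
  have h3 := norm_add_le (nz v - v) (v - w)
  rw [sub_add_sub_cancel] at h3
  linarith

lemma norm_ap_proj_le {M : Matrix n n ℂ} (h1 : M.IsHermitian) (h2 : M * M = M) (v : Q.Vec n) :
    ‖ap M v‖ ≤ ‖v‖ := by
  have h3 : ‖ap M v‖ ^ 2 ≤ ‖v‖ * ‖ap M v‖ := by
    rw [norm_ap_sq, h1.eq, h2]
    exact (Complex.re_le_norm _).trans (norm_inner_le_norm _ _)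
  rcases (norm_nonneg (ap M v)).eq_or_lt with h | h
  · rw [← h]; exact norm_nonneg _
  · nlinarith

lemma norm_sub_proj_sq {M : Matrix n n ℂ} (h1 : M.IsHermitian) (h2 : M * M = M) (v : Q.Vec n) :
    ‖ap M v - v‖ ^ 2 = qf v (1 - M) := by
  have : ap M v - v = ap (M - 1) v := by rw [ap_sub, ap_one]
  rw [this, norm_ap_sq, conjTranspose_sub, h1.eq, conjTranspose_one]
  congr 4
  rw [Matrix.sub_mul, Matrix.mul_sub, Matrix.mul_sub, h2]; simp

/-- the gap as an operator inequality -/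
lemma gap_le {H : Matrix n n ℂ} {Ω : Q.Vec n} {E Δ : ℝ} (h : A.Gap H Ω E Δ) (hE : 0 ≤ E) :
    (Δ : ℂ) • (1 - pj Ω) ≤ H := by
  rw [Matrix.le_iff]
  refine posSemidef_of_re_inner (h.herm.sub ?_) fun v => ?_
  · unfold Matrix.IsHermitian
    rw [conjTranspose_smul, conjTranspose_sub, conjTranspose_one, (pj_isHermitian Ω).eq]; simp
  · have h1 := h.gap v
    have h2 : (⟪v, ap ((Δ : ℂ) • (1 - pj Ω)) v⟫_ℂ).re = Δ * (‖v‖ ^ 2 - ‖⟪Ω, v⟫_ℂ‖ ^ 2) := by
      rw [ap_smul, ap_sub, ap_one, ap_kb, inner_smul_right, inner_sub_right, inner_smul_right,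
        ← inner_conj_symm v Ω, Complex.mul_conj', inner_self_eq_norm_sq_to_K,
        Complex.re_ofReal_mul]
      norm_cast
    rw [ap_sub, inner_sub_right, Complex.sub_re, h2]
    nlinarith [sq_nonneg ‖v‖]

end vec

section two

variable {ι κ κ' : Type} [Fintype ι] [DecidableEq ι] [Fintype κ] [DecidableEq κ]
  [Fintype κ'] [DecidableEq κ']
  {d : ι → Type} [∀ x, Fintype (d x)] [∀ x, DecidableEq (d x)] [∀ x, Nonempty (d x)]
  {e : κ ↪ ι} {e' : κ' ↪ ι}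

/-- product vectors -/
noncomputable def pr (e : κ ↪ ι) (e' : κ' ↪ ι) (u : Q.Vec (Cfg (sub e d)))
    (ξ : Q.Vec (Cfg (sub e' d))) : Q.Vec (Cfg d) :=
  WithLp.toLp 2 fun σ => u (res e σ) * ξ (res e' σ)

lemma pr_comm (u : Q.Vec (Cfg (sub e d))) (ξ : Q.Vec (Cfg (sub e' d))) :
    pr e e' u ξ = pr e' e ξ u := by
  ext σ; simp [pr, mul_comm]

lemma pr_smul_left (c : ℂ) (u : Q.Vec (Cfg (sub e d))) (ξ : Q.Vec (Cfg (sub e' d))) :
    pr e e' (c • u) ξ = c • pr e e' u ξ := by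
  ext σ; simp [pr, mul_assoc]

lemma pr_smul_right (c : ℂ) (u : Q.Vec (Cfg (sub e d))) (ξ : Q.Vec (Cfg (sub e' d))) :
    pr e e' u (c • ξ) = c • pr e e' u ξ := by
  rw [pr_comm, pr_smul_left, pr_comm]

lemma pr_sub_left (u u' : Q.Vec (Cfg (sub e d))) (ξ : Q.Vec (Cfg (sub e' d))) :
    pr e e' u ξ - pr e e' u' ξ = pr e e' (u - u') ξ := by
  ext σ; simp [pr, sub_mul]

lemma disj_of (h : rg e' = (rg e)ᶜ) : Disjoint (rg e) (rg e') := h ▸ disjoint_compl_right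

lemma tr_ee (h : rg e' = (rg e)ᶜ) (a : Q.Op (sub e d)) (b : Q.Op (sub e' d)) :
    trace (emb e a * emb e' b) = trace a * trace b := by
  rw [trace_emb_mul_emb (disj_of h), h, union_compl, compl_univ, dim_empty]; simp

lemma comm_ee (h : rg e' = (rg e)ᶜ) (a : Q.Op (sub e d)) (b : Q.Op (sub e' d)) :
    emb e' b * emb e a = emb e a * emb e' b :=
  ((supp_emb e a).commute (supp_emb e' b) (disj_of h)).eq.symm

lemma ee_mul (h : rg e' = (rg e)ᶜ) (a a' : Q.Op (sub e d)) (b b' : Q.Op (sub e' d)) :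
    emb e a * emb e' b * (emb e a' * emb e' b') = emb e (a * a') * emb e' (b * b') := by
  rw [map_mul, map_mul, Matrix.mul_assoc, ← Matrix.mul_assoc (emb e' b), comm_ee h]
  simp only [Matrix.mul_assoc]

lemma kb_pr (h : rg e' = (rg e)ᶜ) (u u' : Q.Vec (Cfg (sub e d)))
    (ξ ξ' : Q.Vec (Cfg (sub e' d))) :
    kb (pr e e' u ξ) (pr e e' u' ξ') = emb e (kb u u') * emb e' (kb ξ ξ') := by
  ext σ τ
  rw [emb_mul_emb_apply h]
  simp only [kb_apply, pr, star_mul']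
  ring

lemma inner_ee (h : rg e' = (rg e)ᶜ) (a : Q.Op (sub e d)) (b : Q.Op (sub e' d))
    (u u' : Q.Vec (Cfg (sub e d))) (ξ ξ' : Q.Vec (Cfg (sub e' d))) :
    ⟪pr e e' u ξ, ap (emb e a * emb e' b) (pr e e' u' ξ')⟫_ℂ =
      ⟪u, ap a u'⟫_ℂ * ⟪ξ, ap b ξ'⟫_ℂ := by
  rw [← trace_mul_kb, kb_pr h, ee_mul h, tr_ee h, trace_mul_kb, trace_mul_kb]

lemma norm_pr (h : rg e' = (rg e)ᶜ) (u : Q.Vec (Cfg (sub e d))) (ξ : Q.Vec (Cfg (sub e' d))) :
    ‖pr e e' u ξ‖ = ‖u‖ * ‖ξ‖ := by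
  have h1 := trace_pj (pr e e' u ξ)
  rw [pj, kb_pr h, tr_ee h, trace_pj, trace_pj, ← Complex.ofReal_mul, Complex.ofReal_inj,
    ← mul_pow] at h1
  exact ((pow_left_inj₀ (by positivity) (norm_nonneg _) two_ne_zero).1 h1).symm

lemma ap_emb_pr (h : rg e' = (rg e)ᶜ) (a : Q.Op (sub e d)) (u : Q.Vec (Cfg (sub e d)))
    {ξ : Q.Vec (Cfg (sub e' d))} (hξ : ‖ξ‖ = 1) :
    ap (emb e a) (pr e e' u ξ) = pr e e' (ap a u) ξ := by
  obtain ⟨σ₀⟩ : Nonempty (Cfg (sub e d)) := inferInstance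
  set w : Q.Vec (Cfg (sub e d)) := EuclideanSpace.single σ₀ 1 with hw
  have h1 : ‖pr e e' w ξ‖ = 1 := by rw [norm_pr h, hξ, hw]; simp
  have h2 : emb e a * kb (pr e e' u ξ) (pr e e' w ξ) = kb (pr e e' (ap a u) ξ) (pr e e' w ξ) := by
    rw [kb_pr h, kb_pr h, ← Matrix.mul_assoc, ← map_mul, mul_kb]
  have h3 := congrArg (fun M => ap M (pr e e' w ξ)) h2
  simpa only [ap_mul, ap_kb, inner_self_eq_norm_sq_to_K, h1, RCLike.ofReal_one, one_pow,
    one_smul] using h3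

/-- the partial inner product -/
lemma exists_partial (h : rg e' = (rg e)ᶜ) (u : Q.Vec (Cfg (sub e d))) (χ : Q.Vec (Cfg d)) :
    ∃ ζ, ap (emb e (pj u)) χ = pr e e' u ζ := by
  refine ⟨WithLp.toLp 2 fun b => ∑ τ, star (u (res e τ)) * (if b = res e' τ then 1 else 0) * χ τ,
    ?_⟩
  have : emb e (pj u) = emb e (pj u) * emb e' 1 := by simp
  ext σ
  rw [this, ap_apply]
  simp only [emb_mul_emb_apply h, kb_apply, one_apply, pr, Finset.mul_sum]
  exact Finset.sum_congr rfl fun τ _ => by ring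

lemma red_pr (h : rg e' = (rg e)ᶜ) (u : Q.Vec (Cfg (sub e d))) {ξ : Q.Vec (Cfg (sub e' d))}
    (hξ : ‖ξ‖ = 1) : red e (pj (pr e e' u ξ)) = pj u :=
  (eq_red fun m => by
    rw [pj, pj, kb_pr h, ← Matrix.mul_assoc, ← map_mul, tr_ee h, trace_pj, hξ]; simp).symm

lemma map_subset_rg (e : κ ↪ ι) (X : Finset κ) : X.map e ⊆ rg e := map_subset_map.2 (subset_univ X)

/-- additivity of the entropy for product vectors -/
lemma SV_pr (h : rg e' = (rg e)ᶜ) {u : Q.Vec (Cfg (sub e d))} {ξ : Q.Vec (Cfg (sub e' d))}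
    (hu : ‖u‖ = 1) (hξ : ‖ξ‖ = 1) (X : Finset κ) (Y : Finset κ') :
    SV (pr e e' u ξ) (X.map e ∪ Y.map e') = SV u X + SV ξ Y := by
  have h' : rg e = (rg e')ᶜ := by rw [h, compl_compl]
  have h1 : ‖pr e e' u ξ‖ = 1 := by rw [norm_pr h, hu, hξ, one_mul]
  have r1 := red_pr h u hξ
  have r2 : red e' (pj (pr e e' u ξ)) = pj ξ := by rw [pr_comm]; exact red_pr h' ξ hu
  have h2 : piZ (rg e) (pj (pr e e' u ξ)) = pj (pr e e' u ξ) := by
    rw [piZ, ← h, ← emb_red_eq_mg, ← emb_red_eq_mg, r1, r2, ← kb_pr h]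
  have h3 := SX_piZ (map_subset_rg e X) (h ▸ map_subset_rg e' Y) (dens_pj h1)
  rw [h2, SX_map e X (pj_isHermitian _), SX_map e' Y (pj_isHermitian _), r1, r2] at h3
  exact h3

lemma dim_map (e : κ ↪ ι) (X : Finset κ) : dim d (X.map e) = dim (sub e d) X := by
  rw [dim, dim, Finset.prod_map]

lemma compl_un (h : rg e' = (rg e)ᶜ) (X : Finset κ) (Y : Finset κ') :
    (X.map e ∪ Y.map e')ᶜ = Xᶜ.map e ∪ Yᶜ.map e' := by
  have hd := Finset.disjoint_left.1 (disj_of h)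
  ext x
  by_cases hx : x ∈ rg e
  · obtain ⟨k, rfl⟩ := mem_rg.1 hx
    have : ∀ Y : Finset κ', e k ∉ Y.map e' := fun Y hY => hd hx (map_subset_rg e' Y hY)
    simp [-mem_map, this, mem_map']
  · have hx' : x ∈ rg e' := by rwa [h, mem_compl]
    obtain ⟨k, rfl⟩ := mem_rg.1 hx'
    have : ∀ X : Finset κ, e' k ∉ X.map e := fun X hX => hx (map_subset_rg e X hX)
    simp [-mem_map, this, mem_map']

lemma dim_un (h : rg e' = (rg e)ᶜ) (X : Finset κ) (Y : Finset κ') :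
    dim d (X.map e ∪ Y.map e') = dim (sub e d) X * dim (sub e' d) Y := by
  rw [dim_union ((disj_of h).mono (map_subset_rg e X) (map_subset_rg e' Y)), dim_map, dim_map]

lemma Rk.ee (h : rg e' = (rg e)ᶜ) {X : Finset κ} {Y : Finset κ'} {a : Q.Op (sub e d)}
    {b : Q.Op (sub e' d)} {r r' : ℝ} (ha : Rk X a r) (hb : Rk Y b r') :
    Rk (X.map e ∪ Y.map e') (emb e a * emb e' b) (r * r') where
  supp := (ha.supp.emb e).mul_union (hb.supp.emb e')
  herm := by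
    unfold Matrix.IsHermitian
    rw [conjTranspose_mul, ← emb_conjTranspose, ← emb_conjTranspose, ha.herm.eq, hb.herm.eq,
      comm_ee h]
  idem := by rw [ee_mul h, ha.idem, hb.idem]
  tr := by
    have p1 := (proj_posSemidef ha.herm ha.idem).trace_nonneg
    have p2 := (proj_posSemidef hb.herm hb.idem).trace_nonneg
    rw [Complex.le_def] at p1 p2
    rw [tr_ee h, compl_un h, dim_un h, Complex.mul_re, ← p1.2, Complex.zero_im, zero_mul,
      sub_zero, Nat.cast_mul]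
    calc _ ≤ (r * dim (sub e d) Xᶜ) * (r' * dim (sub e' d) Yᶜ) :=
          mul_le_mul ha.tr hb.tr p2.1 (p1.1.trans ha.tr)
      _ = _ := by ring

end two

end Crest.Agent.N336.C.An
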