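import Crest.Agent.N336.C.Anc1

/-!
# Row 336, CORE, `AncStmt` part 2: the two ancillas and the extended scanner (helper44)
-/

set_option autoImplicit false
set_option linter.unusedSectionVars false

open Matrix Finset
open scoped Kronecker ComplexOrder MatrixOrder Matrix.Norms.L2Operator InnerProductSpace

namespace Crest.Agent.N336.C.An

open Crest.Agent.N336.Q Crest.Agent.N336.Eng

/-- a maximally entangled pair of ancillas with matrix units on the first one -/
structure Anc (T : Type) [Fintype T] [DecidableEq T] (d : Bool → Type) [∀ x, Fintype (d x)]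
    [∀ x, DecidableEq (d x)] where
  ξ : Q.Vec (Cfg d)
  u : T → T → Q.Op d
  norm : ‖ξ‖ = 1
  supp : ∀ α β, Supp {false} (u α β)
  mul : ∀ α β γ δ, u α β * u γ δ = if β = γ then u α δ else 0
  adj : ∀ α β, (u α β)ᴴ = u β α
  ex : ∀ α β, ⟪ξ, ap (u α β) ξ⟫_ℂ = if α = β then (Fintype.card T : ℂ)⁻¹ else 0
  tr : ∀ α β, trace (u α β) = if α = β then (Fintype.card T : ℂ) else 0
  dim : ∀ b, dim d {b} = Fintype.card T

lemma exists_anc (T : Type) [Fintype T] [DecidableEq T] [Nonempty T] :
    Nonempty (Anc T fun _ => T) := by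
  let f : (Bool → T) ≃ T × T := Equiv.boolArrowEquivProd T
  have hf : ∀ σ, f σ = (σ false, σ true) := fun _ => rfl
  have hc : (0 : ℝ) < Fintype.card T := by exact_mod_cast Fintype.card_pos
  set c : ℝ := (Real.sqrt (Fintype.card T))⁻¹ with hcd
  have hcc : (c : ℂ) * c = (Fintype.card T : ℂ)⁻¹ := by
    rw [← Complex.ofReal_mul, hcd, ← mul_inv, Real.mul_self_sqrt hc.le]; simp
  let ξ : Q.Vec (Bool → T) := WithLp.toLp 2 fun σ => if σ false = σ true then (c : ℂ) else 0
  let u : T → T → Matrix (Bool → T) (Bool → T) ℂ := fun α β =>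
    (Matrix.single α β (1 : ℂ) ⊗ₖ (1 : Matrix T T ℂ)).submatrix f f
  have key : ∀ M : Matrix T T ℂ, ⟪ξ, ap ((M ⊗ₖ (1 : Matrix T T ℂ)).submatrix f f) ξ⟫_ℂ =
      (Fintype.card T : ℂ)⁻¹ * trace M := by
    intro M
    rw [inner_eq_sum]
    simp only [ap_apply]
    rw [← f.symm.sum_comp]
    simp only [← f.symm.sum_comp (fun j => _ * ξ j)]
    have e1 : ∀ p : T × T, ξ (f.symm p) = if p.1 = p.2 then (c : ℂ) else 0 := fun p => rfl
    simp only [e1, submatrix_apply, Equiv.apply_symm_apply, kroneckerMap_apply, one_apply,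
      Fintype.sum_prod_type, mul_ite, ite_mul, mul_one, mul_zero, zero_mul, Finset.sum_ite_eq,
      mem_univ, if_true, apply_ite star, star_zero, trace, Matrix.diag, Finset.mul_sum]
    refine Finset.sum_congr rfl fun a _ => ?_
    rw [← hcc]
    simp [mul_comm, mul_left_comm]
  refine ⟨⟨ξ, u, ?_, fun α β => ⟨fun σ τ h => ?_, fun σ τ σ' τ' h h' h1 h2 => ?_⟩,
    fun α β γ δ => ?_, fun α β => ?_, fun α β => ?_, fun α β => ?_, fun b => by simp [Q.dim]⟩⟩
  · have h1 := key 1
    rw [one_kronecker_one, submatrix_one_equiv, ap_one, trace_one, inv_mul_cancel₀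
      (by exact_mod_cast hc.ne'), inner_self_eq_norm_sq_to_K] at h1
    have h2 : ‖ξ‖ ^ 2 = 1 := by
      have h3 : ((‖ξ‖ ^ 2 : ℝ) : ℂ) = 1 := by rw [← h1]; norm_cast
      exact_mod_cast h3
    exact (pow_eq_one_iff_of_nonneg (norm_nonneg _) two_ne_zero).1 h2
  · have : σ true ≠ τ true := fun h' => h fun x hx => by cases x <;> simp_all
    simp [u, hf, this]
  · simp [u, hf, h true (by simp), h' true (by simp), h1 false (by simp), h2 false (by simp)]
  · simp only [u]
    rw [submatrix_mul_equiv, ← mul_kronecker_mul, Matrix.mul_one]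
    split_ifs with h
    · subst h; simp
    · rw [single_mul_single_of_ne _ _ _ _ h]; simp
  · simp only [u, conjTranspose_submatrix, conjTranspose_kronecker, conjTranspose_single,
      star_one, conjTranspose_one]
  · refine (key _).trans ?_
    split_ifs with h
    · subst h; simp
    · simp [trace_single_eq_of_ne _ _ _ h]
  · simp only [u]
    rw [trace_submatrix_equiv, trace_kronecker, trace_one]
    split_ifs with h
    · subst h; simp
    · simp [trace_single_eq_of_ne _ _ _ h]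

section ext

variable {ι V : Type} [Fintype ι] [DecidableEq ι] [Fintype V] {K w r b₁ b₂ N₀ Na : ℕ}

/-- the system inside the extended system -/
abbrev eL (ι : Type) : ι ↪ ι ⊕ Bool := Function.Embedding.inl

/-- the ancillas inside the extended system -/
abbrev eR (ι : Type) : Bool ↪ ι ⊕ Bool := Function.Embedding.inr

lemma rg_eR : rg (eR ι) = (rg (eL ι))ᶜ := by
  ext x; cases x <;> simp

/-- regions of the extended system -/
abbrev un (X : Finset ι) (Y : Finset Bool) : Finset (ι ⊕ Bool) := X.map (eL ι) ∪ Y.map (eR ι)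

lemma un_compl (X : Finset ι) : (un X {false})ᶜ = un Xᶜ {true} := by
  rw [compl_un rg_eR]; congr

lemma card_filter_inl {p : ι ⊕ Bool → Prop} [DecidablePred p] (h : ∀ b, ¬ p (Sum.inr b)) :
    (univ.filter p).card = (univ.filter fun x => p (Sum.inl x)).card := by
  rw [← card_map (eL ι)]
  congr 1
  ext x; cases x <;> simp [h]

/-- the extended scanner -/
def ext (S : Scn ι V K w r b₁ b₂ N₀ Na) (lo hi : ℤ) (hlo : ∀ g, lo ≤ S.a g - r)
    (hhi : ∀ g, S.b g + r < hi) : Scn (ι ⊕ Bool) V K w r b₁ b₂ N₀ Na where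
  lv := Sum.elim S.lv fun b => cond b hi lo
  A₁ := un ∅ {true}
  Z v := (S.Z v).map (eL ι)
  near := S.near
  a := S.a
  b := S.b
  r_pos := S.r_pos
  sep := S.sep
  sep' := S.sep'
  far v hv x hx g := by
    obtain ⟨y, hy, rfl⟩ := mem_map.1 hx
    exact S.far v hv y hy g
  top x hx g := by
    have : x = Sum.inr true := by simpa [eq_comm] using hx
    subst this
    have := hhi g
    simp only [Sum.elim_inr, cond_true]
    omega
  disj v := by
    rw [Finset.disjoint_left]
    intro x hx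
    obtain ⟨y, -, rfl⟩ := mem_map.1 hx
    simp
  spread v hv x hx y hy := by
    obtain ⟨x, hx', rfl⟩ := mem_map.1 hx
    obtain ⟨y, hy', rfl⟩ := mem_map.1 hy
    exact S.spread v hv x hx' y hy'
  size v hv := by rw [card_map]; exact S.size v hv
  deg x := by
    cases x with
    | inl x => simpa using S.deg x
    | inr b => simp
  lay g := by
    have h1 := hlo g
    have h2 := hhi g
    have h3 := S.sep g
    rw [card_filter_inl, card_filter_inl]
    · exact S.lay g
    · intro b; cases b <;> simp <;> omega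
    · intro b; cases b <;> simp <;> omega
  cnt := by simpa using S.cnt

variable (S : Scn ι V K w r b₁ b₂ N₀ Na) {lo hi : ℤ} (hlo : ∀ g, lo ≤ S.a g - r)
  (hhi : ∀ g, S.b g + r < hi)

lemma ext_sl {k : ℤ} (h1 : lo ≤ k) (h2 : k < hi) :
    (ext S lo hi hlo hhi).sl k = un (S.sl k) {false} := by
  ext x
  rw [Scn.sl, mem_filter]
  rcases x with x | b
  · simp [Scn.sl, ext]
  · cases b <;> simp [ext, h1, h2]

lemma ext_ini (g : Fin K) :
    (ext S lo hi hlo hhi).ini g = (un (S.ini g).1 {false}, un (S.ini g).2 {false}) := by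
  have h1 := hlo g
  have h2 := hhi g
  have h3 := S.sep g
  refine Prod.ext (ext_sl S hlo hhi ?_ ?_) (ext_sl S hlo hhi ?_ ?_) <;> simp only [ext] <;> omega

lemma ext_fin (g : Fin K) :
    (ext S lo hi hlo hhi).fin g = (un (S.fin g).1 {false}, un (S.fin g).2 {false}) := by
  have h1 := hlo g
  have h2 := hhi g
  have h3 := S.sep g
  refine Prod.ext (ext_sl S hlo hhi ?_ ?_) (ext_sl S hlo hhi ?_ ?_) <;> simp only [ext] <;> omega

lemma sl_mono {k k' : ℤ} (h : k ≤ k') : S.sl k ⊆ S.sl k' := by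
  intro x hx
  simp only [Scn.sl, mem_filter, mem_univ, true_and] at hx ⊢
  omega

lemma chain (g : Fin K) : (S.ini g).1 ⊆ (S.fin g).1 ∧ (S.fin g).1 ⊆ (S.fin g).2 ∧
    (S.fin g).2 ⊆ (S.ini g).2 := by
  have h3 := S.sep g
  exact ⟨sl_mono S (by omega), sl_mono S (by omega), sl_mono S (by omega)⟩

lemma exists_lohi : ∃ lo hi : ℤ, (∀ g, lo ≤ S.a g - r) ∧ ∀ g, S.b g + r < hi := by
  obtain ⟨lo, h1⟩ := Finite.exists_ge fun g => S.a g - r
  obtain ⟨hi, h2⟩ := Finite.exists_le fun g => S.b g + r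
  exact ⟨lo, hi + 1, h1, fun g => Int.lt_add_one_iff.2 (h2 g)⟩

variable {d : ι ⊕ Bool → Type} [∀ x, Fintype (d x)] [∀ x, DecidableEq (d x)]
  [∀ x, Nonempty (d x)]

/-- one term of the entropy functional of the extended system -/
noncomputable def tm (χ : Q.Vec (Cfg d)) (P R : Finset ι) : ℝ :=
  mi χ (un P {false}) (un Rᶜ {true}) - 2 * SV χ (un ∅ {true})

lemma fn_un {c : Cnf (ι ⊕ Bool) K} {c₀ : Cnf ι K}
    (h : ∀ g, c g = (un (c₀ g).1 {false}, un (c₀ g).2 {false})) (χ : Q.Vec (Cfg d)) :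
    fn (un ∅ {true}) c χ = ∑ g, tm χ (c₀ g).1 (c₀ g).2 := by
  refine Finset.sum_congr rfl fun g _ => ?_
  rw [h g, tm, ← un_compl, mi_shell]

lemma un_union (P F : Finset ι) (Y Y' : Finset Bool) :
    un P Y ∪ un F Y' = un (P ∪ F) (Y ∪ Y') := by
  ext x; cases x <;> simp

/-- the functional at a product vector -/
lemma tm_pr {u : Q.Vec (Cfg (sub (eL ι) d))} {ζ : Q.Vec (Cfg (sub (eR ι) d))} (hu : ‖u‖ = 1)
    (hζ : ‖ζ‖ = 1) (P R : Finset ι) : tm (pr (eL ι) (eR ι) u ζ) P R = mi u P Rᶜ := by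
  have h1 : ({false} : Finset Bool) ∪ {true} = univ := by decide
  have h2 : ({true} : Finset Bool) = {false}ᶜ := by decide
  rw [tm, mi, un_union, SV_pr rg_eR hu hζ, SV_pr rg_eR hu hζ, SV_pr rg_eR hu hζ,
    SV_pr rg_eR hu hζ, h1, SV_univ hζ, SV_empty hu, h2, SV_compl ζ, mi]
  ring

end ext

end Crest.Agent.N336.C.An
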