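import Crest.Agent.N336.C.Anc2

/-!
# Row 336, CORE, `AncStmt` part 3: the lower bound at low energy and the test (helper44)
-/

set_option autoImplicit false
set_option linter.unusedSectionVars false

open Matrix Finset
open scoped ComplexOrder MatrixOrder Matrix.Norms.L2Operator InnerProductSpace

namespace Crest.Agent.N336.C.An

open Crest.Agent.N336.Q Crest.Agent.N336.Eng

variable {ι : Type} [Fintype ι] [DecidableEq ι] {d : ι ⊕ Bool → Type} [∀ x, Fintype (d x)]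
  [∀ x, DecidableEq (d x)] [∀ x, Nonempty (d x)]

/-- a state of low energy is close to a product with the ground state -/
lemma close {H : Q.Op (sub (eL ι) d)} {Ω : Q.Vec (Cfg (sub (eL ι) d))} {E Δ z : ℝ}
    (h : A.Gap H Ω E Δ) (hE : 0 ≤ E) (hΔ : 0 < Δ) (hz : 0 < z) {χ : Q.Vec (Cfg d)} (hχ : ‖χ‖ = 1)
    {ξ : Q.Vec (Cfg (sub (eR ι) d))} (hξ : ‖ξ‖ = 1) :
    ∃ ζ, ‖ζ‖ = 1 ∧ ‖χ - pr (eL ι) (eR ι) Ω ζ‖ ≤ z + qf χ (emb (eL ι) H) / (Δ * z) := by
  obtain ⟨ζ, hζ⟩ := exists_partial rg_eR Ω χ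
  have hp : pj Ω * pj Ω = pj Ω := by
    rw [pj, mul_kb, ap_kb, inner_self_eq_norm_sq_to_K, h.norm]; simp
  have h1 := norm_sub_proj_sq (emb_isHermitian (eL ι) (pj_isHermitian Ω))
    (by rw [← map_mul, hp]) χ
  have h2 := re_inner_ap_mono (emb_mono (eL ι) (gap_le h hE)) χ
  rw [map_smul, map_sub, map_one, ap_smul, inner_smul_right, Complex.re_ofReal_mul] at h2
  set x := ‖ap (emb (eL ι) (pj Ω)) χ - χ‖ with hx
  have h3 : Δ * x ^ 2 ≤ qf χ (emb (eL ι) H) := by rw [h1]; exact h2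
  have h4 : 2 * x ≤ z + qf χ (emb (eL ι) H) / (Δ * z) := by
    have : x ^ 2 / z ≤ qf χ (emb (eL ι) H) / (Δ * z) := by
      rw [div_le_div_iff₀ hz (by positivity)]; nlinarith
    have h5 : 2 * x ≤ z + x ^ 2 / z := by
      rw [add_div' _ _ _ hz.ne', le_div_iff₀ hz]; nlinarith [sq_nonneg (x - z)]
    linarith
  by_cases h0 : ζ = 0
  · refine ⟨ξ, hξ, le_trans ?_ h4⟩
    have h5 : x = 1 := by
      rw [hx, hζ, h0, ← zero_smul ℂ (0 : Q.Vec _), pr_smul_right, zero_smul, zero_sub, norm_neg,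
        hχ]
    have h6 := norm_sub_le χ (pr (eL ι) (eR ι) Ω ξ)
    rw [norm_pr rg_eR, h.norm, hξ, hχ] at h6
    linarith
  · refine ⟨nz ζ, norm_nz h0, le_trans ?_ h4⟩
    have h5 : ‖pr (eL ι) (eR ι) Ω ζ‖ = ‖ζ‖ := by rw [norm_pr rg_eR, h.norm, one_mul]
    have h6 : pr (eL ι) (eR ι) Ω (nz ζ) = nz (pr (eL ι) (eR ι) Ω ζ) := by
      rw [nz, nz, pr_smul_right, h5]
    rw [h6, norm_sub_rev, hx, hζ]
    exact norm_nz_sub (by rw [← norm_ne_zero_iff, h5, norm_ne_zero_iff]; exact h0) hχ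

lemma ne_zero_of_close {n : Type} [Fintype n] {v w : Q.Vec n} (hw : ‖w‖ = 1) {ε : ℝ}
    (h : ‖v - w‖ ≤ ε) (hε : ε < 1) : v ≠ 0 := by
  rintro rfl
  rw [zero_sub, norm_neg, hw] at h
  linarith

/-- lower bound for one term of the functional near a product with `Ω` -/
lemma tm_lower (hL : LscStmt) {Ω : Q.Vec (Cfg (sub (eL ι) d))} {P R : Finset ι} {ρ ε δ : ℝ}
    (hΩ : ‖Ω‖ = 1) (hlow : Low Ω P ρ ε) (hPR : P ⊆ R)
    (hd : ε * Real.log (dim (sub (eL ι) d) R) ≤ 1) (hε : ε ≤ 1 / 10) (hρ : 1 ≤ ρ)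
    (hερ : ε * ρ ≤ 1) (hT : ∀ b, (dim (sub (eR ι) d) {b} : ℝ) ≤ Real.exp ρ)
    {χ : Q.Vec (Cfg d)} (hχ : ‖χ‖ = 1) {ζ : Q.Vec (Cfg (sub (eR ι) d))} (hζ : ‖ζ‖ = 1)
    (hδ : ‖χ - pr (eL ι) (eR ι) Ω ζ‖ ≤ δ) : mi Ω P Rᶜ - 44 * δ * ρ - 150 ≤ tm χ P R := by
  obtain ⟨M, h1, h2, h3, h4⟩ := hlow
  have hv := ne_zero_of_close hΩ h4 (by linarith)
  have k1 := norm_nz hv
  have k2 : ‖nz (ap (lift P M) Ω) - Ω‖ ≤ 2 * ε := (norm_nz_sub hv hΩ).trans (by linarith)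
  have hrk := rk_lift h1 h2 h3
  have k3 : ap (lift P M) (nz (ap (lift P M) Ω)) = nz (ap (lift P M) Ω) := by
    rw [nz, map_smul, ← ap_mul, hrk.idem]
  set u := nz (ap (lift P M) Ω)
  have k4 : ‖pr (eL ι) (eR ι) u ζ‖ = 1 := by rw [norm_pr rg_eR, k1, hζ, one_mul]
  have k5 : ‖χ - pr (eL ι) (eR ι) u ζ‖ ≤ δ + 2 * ε := by
    have := norm_sub_le_norm_sub_add_norm_sub χ (pr (eL ι) (eR ι) Ω ζ) (pr (eL ι) (eR ι) u ζ)
    rw [pr_sub_left, norm_pr rg_eR, hζ, mul_one, norm_sub_rev Ω] at this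
    linarith
  obtain ⟨M', e1, e2, e3, e4⟩ := (Rk.ee rg_eR hrk (rk_one (d := sub (eR ι) d) {false})).exists
  have k6 := hL _ d (un P {false}) (un Rᶜ {true}) M' (2 * ρ) (δ + 2 * ε) χ
    (pr (eL ι) (eR ι) u ζ) (by
      rw [← un_compl]
      exact disjoint_compl_right.mono_left (union_subset_union_left (map_subset_map.2 hPR)))
    e2 e3 (e4.trans (by rw [two_mul, Real.exp_add]; gcongr; exact hT _)) (by linarith) hχ k4
    (by rw [e1, map_one, Matrix.mul_one, ap_emb_pr rg_eR _ _ hζ, k3]) k5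
  have k7 := fannes hχ k4 (un ∅ {true}) k5 (L := ρ) (by
    rw [dim_un rg_eR, dim_empty, one_mul, Real.log_le_iff_le_exp (dim_pos_real _)]; exact hT _)
  have k8 := tm_pr k1 hζ P R
  have k9 := mi_cont hΩ k1 hPR ((norm_sub_rev _ _).trans_le k2) le_rfl
  unfold tm at k8 ⊢
  nlinarith

lemma tm_ge {ρ : ℝ} (hT : ∀ b, (dim (sub (eR ι) d) {b} : ℝ) ≤ Real.exp ρ) {χ : Q.Vec (Cfg d)}
    (hχ : ‖χ‖ = 1) (P R : Finset ι) : -(2 * ρ) ≤ tm χ P R := by
  have k1 := mi_nonneg hχ (un P {false}) (un Rᶜ {true})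
  have k2 := SV_le hχ (un ∅ {true})
  rw [dim_un rg_eR, dim_empty, one_mul] at k2
  have k3 := (Real.log_le_iff_le_exp (dim_pos_real _)).2 (hT true)
  unfold tm
  linarith

section test

variable {T : Type} [Fintype T] [DecidableEq T] [Nonempty T]

/-- rank one matrix units on `X` -/
structure MU {κ : Type} [Fintype κ] [DecidableEq κ] {d : κ → Type} [∀ x, Fintype (d x)]
    [∀ x, DecidableEq (d x)] (X : Finset κ) (A : T → T → Q.Op d) : Prop where
  supp : ∀ α β, Supp X (A α β)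
  mul : ∀ α β γ δ, A α β * A γ δ = if β = γ then A α δ else 0
  adj : ∀ α β, (A α β)ᴴ = A β α
  tr : ∀ α, trace (A α α) = dim d Xᶜ

/-- the test projector -/
noncomputable def tst (A : T → T → Q.Op (sub (eL ι) d)) (X : Anc T (sub (eR ι) d)) : Q.Op d :=
  (Fintype.card T : ℂ)⁻¹ • ∑ α, ∑ β, emb (eL ι) (A α β) * emb (eR ι) (X.u α β)

variable {P₀ : Finset ι} {A : T → T → Q.Op (sub (eL ι) d)} (hA : MU P₀ A)
  (X : Anc T (sub (eR ι) d))
include hA

lemma rk_tst : Rk (un P₀ {false}) (tst A X) 1 where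
  supp := Supp.smul _ (Supp.sum fun α _ => Supp.sum fun β _ =>
    ((hA.supp α β).emb _).mul_union ((X.supp α β).emb _))
  herm := by
    unfold Matrix.IsHermitian tst
    simp only [conjTranspose_smul, conjTranspose_sum, conjTranspose_mul, ← emb_conjTranspose,
      hA.adj, X.adj, comm_ee rg_eR]
    rw [Finset.sum_comm]; simp
  idem := by
    have hc : (Fintype.card T : ℂ) ≠ 0 := by exact_mod_cast Fintype.card_ne_zero
    unfold tst
    rw [Matrix.smul_mul, Matrix.mul_smul]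
    congr 1
    rw [inv_smul_eq_iff₀ hc]
    simp only [Matrix.sum_mul, Matrix.mul_sum, ee_mul rg_eR, hA.mul, X.mul]
    simp only [apply_ite (emb (d := d) (eL ι)), apply_ite (emb (d := d) (eR ι)), map_zero,
      ite_mul, zero_mul, Finset.sum_ite_eq', mem_univ, if_true]
    rw [Finset.sum_comm]
    simp only [Finset.sum_const, card_univ, Finset.smul_sum, Nat.cast_smul_eq_nsmul]
    exact Finset.sum_comm
  tr := by
    have hc : (Fintype.card T : ℂ) ≠ 0 := by exact_mod_cast Fintype.card_ne_zero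
    unfold tst
    simp only [trace_smul, trace_sum, tr_ee rg_eR, X.tr, mul_ite, mul_zero, Finset.sum_ite_eq,
      mem_univ, if_true, hA.tr, Finset.sum_const, card_univ, nsmul_eq_mul, smul_eq_mul]
    rw [inv_mul_cancel_left₀ hc, un_compl, dim_un rg_eR, X.dim]
    simp

lemma MU.proj : (∑ α, A α α).IsHermitian ∧ (∑ α, A α α) * (∑ α, A α α) = ∑ α, A α α := by
  constructor
  · unfold Matrix.IsHermitian; simp only [conjTranspose_sum, hA.adj]
  · simp only [Matrix.sum_mul, Matrix.mul_sum, hA.mul]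
    refine Finset.sum_congr rfl fun α _ => ?_
    rw [Finset.sum_eq_single α] <;> simp +contextual

lemma inner_tst (Ω : Q.Vec (Cfg (sub (eL ι) d))) {N : Q.Op (sub (eL ι) d)} (hN : Supp P₀ᶜ N) :
    ⟪ap (tst A X) (pr (eL ι) (eR ι) Ω X.ξ),
        ap (emb (eL ι) N) (ap (tst A X) (pr (eL ι) (eR ι) Ω X.ξ))⟫_ℂ =
      (Fintype.card T : ℂ)⁻¹ ^ 2 * ⟪ap (∑ α, A α α) Ω, ap N (ap (∑ α, A α α) Ω)⟫_ℂ := by
  have hO := rk_tst hA X
  have c1 : Commute (tst A X) (emb (eL ι) N) := hO.supp.commute (hN.emb _) (by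
    refine disjoint_compl_right.mono_right ?_
    rw [un_compl]; exact subset_union_left)
  have c2 : Commute (∑ α, A α α) N :=
    (Supp.sum fun α _ => hA.supp α α).commute hN disjoint_compl_right
  rw [inner_ap_left, inner_ap_left, hO.herm.eq, hA.proj.1.eq, ← ap_mul, ← ap_mul, ← ap_mul,
    ← ap_mul, Matrix.mul_assoc, ← c1.eq, ← Matrix.mul_assoc, hO.idem, Matrix.mul_assoc, ← c2.eq,
    ← Matrix.mul_assoc, hA.proj.2, c1.eq, c2.eq, tst]
  simp only [Matrix.mul_smul, Matrix.mul_sum, ← Matrix.mul_assoc, ← map_mul, ap_smul, ap_sum,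
    inner_smul_right, inner_sum, inner_ee rg_eR, X.ex, mul_ite, mul_zero, Finset.sum_ite_eq,
    mem_univ, if_true, ← Finset.sum_mul]
  ring

lemma norm_tst (Ω : Q.Vec (Cfg (sub (eL ι) d))) :
    ‖ap (tst A X) (pr (eL ι) (eR ι) Ω X.ξ)‖ = (Fintype.card T : ℝ)⁻¹ * ‖ap (∑ α, A α α) Ω‖ := by
  have h := inner_tst hA X Ω (Supp.one _)
  rw [map_one, ap_one, ap_one, inner_self_eq_norm_sq_to_K, inner_self_eq_norm_sq_to_K,
    ← mul_pow] at h
  have h2 : ((‖ap (tst A X) (pr (eL ι) (eR ι) Ω X.ξ)‖ ^ 2 : ℝ) : ℂ) =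
      (((Fintype.card T : ℝ)⁻¹ * ‖ap (∑ α, A α α) Ω‖) ^ 2 : ℝ) := by
    push_cast; exact h
  exact (pow_left_inj₀ (norm_nonneg _) (by positivity) two_ne_zero).1 (Complex.ofReal_inj.1 h2)

/-- the marginals of the tested state -/
lemma SV_tst {Ω : Q.Vec (Cfg (sub (eL ι) d))} (h0 : ap (∑ α, A α α) Ω ≠ 0) {Y : Finset ι}
    (hY : P₀ ⊆ Y) : SV (nz (ap (tst A X) (pr (eL ι) (eR ι) Ω X.ξ))) (un (Y \ P₀) ∅) =
        SV (nz (ap (∑ α, A α α) Ω)) (Y \ P₀) ∧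
      SV (nz (ap (tst A X) (pr (eL ι) (eR ι) Ω X.ξ))) (un Y {false}) =
        SV (nz (ap (∑ α, A α α) Ω)) (Y \ P₀) := by
  have hc : (Fintype.card T : ℂ) ≠ 0 := by exact_mod_cast Fintype.card_ne_zero
  have hc' : (0 : ℝ) < Fintype.card T := by exact_mod_cast Fintype.card_pos
  have hn := norm_tst hA X Ω
  have h1 : ap (tst A X) (pr (eL ι) (eR ι) Ω X.ξ) ≠ 0 := by
    rw [← norm_pos_iff, hn]; have := norm_pos_iff.2 h0; positivity
  have h2 : SV (nz (ap (tst A X) (pr (eL ι) (eR ι) Ω X.ξ))) (un (Y \ P₀) ∅) =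
      SV (nz (ap (∑ α, A α α) Ω)) (Y \ P₀) := by
    rw [un, map_empty, union_empty, SV_eq, SX_map _ _ (pj_isHermitian _), SV_eq]
    refine SX_congr fun N hN => ?_
    rw [← trace_emb_mul, trace_mul_kb, trace_mul_kb, nz, nz, map_smul, map_smul, inner_smul_left,
      inner_smul_right, inner_smul_left, inner_smul_right,
      inner_tst hA X Ω (hN.mono fun x hx => mem_compl.2 (mem_sdiff.1 hx).2), hn]
    simp only [mul_inv, inv_inv, Complex.ofReal_mul, Complex.ofReal_inv, Complex.ofReal_natCast,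
      map_mul, map_inv₀, Complex.conj_ofReal, map_natCast]
    field_simp
  refine ⟨h2, Eq.trans ?_ h2⟩
  have h3 : un Y {false} = un P₀ {false} ∪ un (Y \ P₀) ∅ := by
    rw [un_union, union_sdiff_of_subset hY, union_empty]
  rw [h3]
  refine (rk_tst hA X).SV_union ?_ (norm_nz h1) (by rw [nz, map_smul, ← ap_mul, (rk_tst hA X).idem])
  refine disjoint_compl_right.mono_right ?_
  rw [un_compl]
  exact union_subset_union (map_subset_map.2 fun x hx => mem_compl.2 (mem_sdiff.1 hx).2)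
    (by simp)

/-- upper bound for one term of the functional at the tested state -/
lemma tm_tst {Ω Ω' : Q.Vec (Cfg (sub (eL ι) d))} (h0 : ap (∑ α, A α α) Ω' ≠ 0) (hΩ : ‖Ω‖ = 1)
    {P R : Finset ι} (h1 : P₀ ⊆ P) (h2 : P ⊆ R) {δ L : ℝ}
    (hδ : ‖nz (ap (∑ α, A α α) Ω') - Ω‖ ≤ δ) (hL : Real.log (dim (sub (eL ι) d) R) ≤ L) :
    tm (nz (ap (tst A X) (pr (eL ι) (eR ι) Ω' X.ξ))) P R ≤
      mi Ω P Rᶜ - mi Ω P₀ Rᶜ + 10 * δ * L + 20 := by
  have e1 : un R {false} \ un P {false} = un (((R \ P) ∪ P₀) \ P₀) ∅ := by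
    ext x
    rcases x with x | b
    · have : x ∈ P₀ → x ∈ P := fun h => h1 h
      simp; tauto
    · simp
  have e2 : ((R \ P) ∪ P₀) \ P₀ = R \ P := by
    ext x
    have : x ∈ P₀ → x ∈ P := fun h => h1 h
    simp; tauto
  have e3 : (un ∅ {true} : Finset (ι ⊕ Bool)) = (un univ {false})ᶜ := by rw [un_compl, compl_univ]
  rw [tm, ← un_compl, mi_shell, e1, e3, SV_compl, (SV_tst hA X h0 h1).2,
    (SV_tst hA X h0 (h1.trans h2)).2, (SV_tst hA X h0 subset_union_right).1,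
    (SV_tst hA X h0 (subset_univ _)).2, e2, ← compl_eq_univ_sdiff, SV_compl, mi_shell, mi_shell]
  have hn := norm_nz h0
  have hδ' := (norm_sub_rev _ _).trans_le hδ
  have k1 := fannes hn hΩ (P \ P₀) hδ ((log_dim_mono (sdiff_subset.trans h2)).trans hL)
  have k2 := fannes hn hΩ (R \ P₀) hδ ((log_dim_mono sdiff_subset).trans hL)
  have k3 := fannes hΩ hn (R \ P) hδ' ((log_dim_mono sdiff_subset).trans hL)
  have k4 := fannes hΩ hn P₀ hδ' ((log_dim_mono (h1.trans h2)).trans hL)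
  have k5 := araki_lieb_pure hΩ (disjoint_sdiff : Disjoint P₀ (P \ P₀))
  rw [union_sdiff_of_subset h1, ← SV_eq, ← SV_eq, ← SV_eq] at k5
  linarith

end test

end Crest.Agent.N336.C.An
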