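import Crest.Agent.N336.C.Boot1

/-!
# Row 336, CORE bootstrap: `boot : EntStmt → SubStmt → StepStmt → CoreStmt` (helper51)
-/

set_option autoImplicit false

namespace Crest.Agent.N336.C.Boot

open Crest.Agent.N336.Area Crest.Agent.N336.A Filter

/-- The square bound with exponent `a`. -/
def Sq (q R : ℕ) (J Δ a : ℝ) : Prop :=
  ∃ C : ℝ, 0 ≤ C ∧ ∀ (Λ : Type) [Fintype Λ] [DecidableEq Λ] (s : Sys q R J Δ Λ), SqC s a C

/-- The conclusion of `StepStmt` with fixed constants. -/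
def St (q R : ℕ) (J Δ η c C : ℝ) : Prop :=
  ∀ (Λ : Type) [Fintype Λ] [DecidableEq Λ] (s : Sys q R J Δ Λ) (n m : ℕ) (ch : Chart s n m)
    (B : ℝ), 1 ≤ n → (n : ℝ) ^ (1 - c) ≤ m → (n : ℝ) ≤ B → B ≤ (n : ℝ) ^ (2 - η) →
    (∀ k : ℤ, 0 ≤ k → k ≤ m → S s.Ω (ch.P k) ≤ B) →
    MI s.Ω (ch.P 0) (ch.P m)ᶜ ≤ C * (n : ℝ) ^ (-c) * B

variable {q R : ℕ} {J Δ : ℝ}

theorem card_box' {Λ : Type} [Fintype Λ] [DecidableEq Λ] (s : Sys q R J Δ Λ) (U : Finset Λ)
    (x y : ℤ) (L : ℕ) : (U ∩ box s x y L).card ≤ L ^ 2 := by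
  have : (U ∩ box s x y L).card ≤ (Finset.Ico x (x + L) ×ˢ Finset.Ico y (y + L)).card := by
    refine Finset.card_le_card_of_injOn s.pos (fun u hu => ?_) s.inj.injOn
    simp only [Finset.coe_inter, box, Finset.coe_filter, Finset.mem_univ, true_and,
      Set.mem_inter_iff, Set.mem_ofPred_eq] at hu
    simp only [Finset.coe_product, Finset.coe_Ico, Set.mem_prod, Set.mem_Ico]
    omega
  simpa [Finset.card_product, sq] using this

/-- It is enough to prove the square bound for large squares. -/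
theorem sq_of_large (hE : EntStmt) {a C : ℝ} (ha : 1 ≤ a) (hC : 0 ≤ C) (L₀ : ℕ)
    (h : ∀ (Λ : Type) [Fintype Λ] [DecidableEq Λ] (s : Sys q R J Δ Λ) (U : Finset Λ) (x y : ℤ)
      (L : ℕ), L₀ ≤ L → 1 ≤ L →
      (∀ u v, s.G.Adj u v → u ∈ U → u ∈ box s (x - L) (y - L) (3 * L) → v ∈ U) →
      S s.Ω (U ∩ box s x y L) ≤ C * (L : ℝ) ^ a) : Sq q R J Δ a := by
  have hl : 0 ≤ Real.log q := Real.log_natCast_nonneg q
  refine ⟨C + L₀ * Real.log q, by positivity, fun Λ _ _ s U x y L hcl => ?_⟩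
  have p : 0 ≤ (L : ℝ) ^ a := by positivity
  by_cases hL : L₀ ≤ L ∧ 1 ≤ L
  · have := h Λ s U x y L hL.1 hL.2 hcl
    have : 0 ≤ L₀ * Real.log q * (L : ℝ) ^ a := by positivity
    nlinarith
  · have h1 := ((EF.of hE s).bd (U ∩ box s x y L)).2
    have h2 : ((U ∩ box s x y L).card : ℝ) ≤ L ^ 2 := by exact_mod_cast card_box' s U x y L
    have h3 : (L : ℝ) ^ 2 ≤ L₀ * (L : ℝ) ^ a := by
      rcases Nat.eq_zero_or_pos L with rfl | hL1
      · simp only [Nat.cast_zero]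
        rw [zero_pow two_ne_zero]; positivity
      · have a1 : (L : ℝ) ≤ L₀ := by exact_mod_cast (by omega : L ≤ L₀)
        have a2 : (L : ℝ) ≤ (L : ℝ) ^ a := by
          simpa using Real.rpow_le_rpow_of_exponent_le (by exact_mod_cast hL1 : (1 : ℝ) ≤ L) ha
        rw [sq]; gcongr
    nlinarith [mul_le_mul_of_nonneg_right (h2.trans h3) hl, mul_nonneg hC p]

theorem sq_start (hE : EntStmt) (hS : SubStmt) (hq : 1 ≤ q) (hJ : 0 < J) (hΔ : 0 < Δ) :
    ∃ η : ℝ, 0 < η ∧ η ≤ 1 / 2 ∧ Sq q R J Δ (2 - η) := by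
  obtain ⟨η, C, h0, h1, hC, H⟩ := hS q R J Δ hq hJ hΔ
  refine ⟨η / 2, by linarith, by linarith, sq_of_large hE (by linarith) hC.le R
    fun Λ _ _ s U x y L hR hL hcl => (H Λ s U x y L fun u v huv hu hb => hcl u v huv hu ?_).trans
      (mul_le_mul_of_nonneg_left (Real.rpow_le_rpow_of_exponent_le (by exact_mod_cast hL)
        (by linarith)) hC.le)⟩
  simp only [box, Finset.mem_filter, Finset.mem_univ, true_and] at hb ⊢
  omega

/-- One application of the step to a chart, the budget coming from the Whitney cover. -/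
theorem mi_bound (hE : EntStmt) {η c C a γ : ℝ} (hη : 0 < η) (hC : 0 ≤ C)
    (hs : St q R J Δ (η / 4) c C) (hq : Sq q R J Δ a) (ha : 1 < a) (ha2 : a ≤ 2) (hγ : 0 ≤ γ)
    (hγ1 : γ ≤ 1) (he : 2 - (1 - γ) * (2 - a) ≤ 2 - η / 2) :
    ∃ (K : ℝ) (n₀ : ℕ), 0 ≤ K ∧ ∀ (Λ : Type) [Fintype Λ] [DecidableEq Λ] (s : Sys q R J Δ Λ)
      (n M m : ℕ) (ch : Chart s n M), n₀ ≤ n → 1 ≤ n → 3 * m ≤ M → (n : ℝ) ^ (1 - c) ≤ m →
      (n : ℝ) ^ (1 - γ) ≤ 6 * m → m ≤ 2 * (n : ℝ) ^ (1 - γ) →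
      MI s.Ω (ch.P 0) (ch.P m)ᶜ ≤ K * (n : ℝ) ^ (2 - (1 - γ) * (2 - a) - c) ∧
      S s.Ω (ch.P m \ ch.P 0) ≤ K * (n : ℝ) ^ (1 + (1 - γ) * (a - 1)) := by
  obtain ⟨C₀, hC₀, H₀⟩ := hq
  obtain ⟨K, hK, HK⟩ := chart_bound (q := q) (R := R) (J := J) (Δ := Δ) ha ha2 hC₀
  obtain ⟨n₀, hn₀⟩ := eventually_atTop.1
    (ev_rpow_le (a := 2 - η / 2) (b := 2 - η / 4) (K := 8 * K) (by linarith) one_pos)
  refine ⟨(C + 1) * (8 * K), n₀, by positivity, fun Λ _ _ s n M m ch hn hn1 hM h1 h2 h3 => ?_⟩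
  set e := 2 - (1 - γ) * (2 - a) with he'
  have n1 : (1 : ℝ) ≤ n := by exact_mod_cast hn1
  have n0 : (0 : ℝ) < n := by linarith
  have p0 : (0 : ℝ) < (n : ℝ) ^ (1 - γ) := by positivity
  have m0 : (0 : ℝ) < m := by linarith
  have mono : ∀ {u v : ℝ}, u ≤ v → (n : ℝ) ^ u ≤ (n : ℝ) ^ v := fun h =>
    Real.rpow_le_rpow_of_exponent_le n1 h
  have b1 : n * (m : ℝ) ^ (a - 1) ≤ 2 * (n : ℝ) ^ (1 + (1 - γ) * (a - 1)) := by
    have c1 : (m : ℝ) ^ (a - 1) ≤ (2 * (n : ℝ) ^ (1 - γ)) ^ (a - 1) :=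
      Real.rpow_le_rpow m0.le h3 (by linarith)
    have c2 : (2 : ℝ) ^ (a - 1) ≤ 2 := by
      simpa using Real.rpow_le_rpow_of_exponent_le (by norm_num : (1 : ℝ) ≤ 2)
        (by linarith : a - 1 ≤ 1)
    rw [Real.mul_rpow (by norm_num) p0.le, ← Real.rpow_mul n0.le] at c1
    rw [Real.rpow_add n0, Real.rpow_one]
    have c3 : 0 ≤ (n : ℝ) ^ ((1 - γ) * (a - 1)) := by positivity
    nlinarith [mul_le_mul_of_nonneg_left (c1.trans (mul_le_mul_of_nonneg_right c2 c3)) n0.le]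
  have b2 : n ^ 2 * (m : ℝ) ^ (a - 2) ≤ 6 * (n : ℝ) ^ e := by
    have c1 : (6 * m : ℝ) ^ (a - 2) ≤ ((n : ℝ) ^ (1 - γ)) ^ (a - 2) :=
      Real.rpow_le_rpow_of_nonpos p0 h2 (by linarith)
    have c2 : (6 : ℝ) ^ (-1 : ℝ) ≤ 6 ^ (a - 2) :=
      Real.rpow_le_rpow_of_exponent_le (by norm_num) (by linarith)
    rw [Real.rpow_neg_one] at c2
    rw [Real.mul_rpow (by norm_num) m0.le, ← Real.rpow_mul n0.le] at c1
    rw [show e = 2 + (1 - γ) * (a - 2) by rw [he']; ring, Real.rpow_add n0, Real.rpow_two]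
    have c3 : 0 ≤ (m : ℝ) ^ (a - 2) := by positivity
    have c4 := (mul_le_mul_of_nonneg_right c2 c3).trans c1
    nlinarith [mul_le_mul_of_nonneg_left c4 (by positivity : (0 : ℝ) ≤ n ^ 2)]
  have e1 : 1 + (1 - γ) * (a - 1) ≤ e := by rw [he']; nlinarith
  have b3 := mono e1
  have b4 : (n : ℝ) ≤ (n : ℝ) ^ e := by
    simpa using mono (show 1 ≤ e by nlinarith)
  have hb := HK Λ s (EF.of hE s) (H₀ Λ s) n M m ch (by exact_mod_cast m0) hM
  have hP : ∀ k, (ch.shift 0 m (by omega)).P k = ch.P k := fun k => by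
    rw [Chart.shift_P]; simp
  have := hs Λ s n m (ch.shift 0 m (by omega)) (8 * K * (n : ℝ) ^ e) hn1 h1 (by nlinarith)
    (by
      have := hn₀ n hn
      nlinarith [mono he]) fun k k0 k1 => by
      rw [hP]
      nlinarith [(hb k k0 k1).2]
  rw [hP, hP] at this
  have p1 : 0 ≤ K * (n : ℝ) ^ (e - c) := by positivity
  have p2 : 0 ≤ K * (n : ℝ) ^ (1 + (1 - γ) * (a - 1)) := by positivity
  constructor
  · rw [show C * (n : ℝ) ^ (-c) * (8 * K * (n : ℝ) ^ e) = C * (8 * K) * (n : ℝ) ^ (e - c) by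
      rw [sub_eq_add_neg, Real.rpow_add n0]; ring] at this
    nlinarith
  · nlinarith [(hb 0 le_rfl (by positivity)).1, mul_nonneg hC p2]

/-- The chart of a square. -/
noncomputable def sqChart {Λ : Type} [Fintype Λ] [DecidableEq Λ] (s : Sys q R J Δ Λ) (U : Finset Λ) (x y : ℤ)
    (L : ℕ) (hL : 1 ≤ L)
    (hcl : ∀ u v, s.G.Adj u v → u ∈ U → u ∈ box s (x - L) (y - L) (3 * L) → v ∈ U) :
    Chart s (12 * L) L where
  U := U
  ψ z := sd L (0, 0) (z.1 - x, z.2 - y)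
  lip z w h1 h2 := by rw [abs_le] at h1 h2; unfold sd; simp only; omega
  lev k h0 hk T hT := by
    have h1 := card_ring L (0, 0) k (by omega) h0 hk
    have h2 : T.card ≤ ((tileBox L (0, 0) k).filter fun z => sd L (0, 0) z = k).card :=
      Finset.card_le_card_of_injOn (fun z => (z.1 - x, z.2 - y))
        (fun z hz => Finset.mem_coe.2 (Finset.mem_filter.2
          ⟨(mem_tileBox _ _ _ _).2 (hT z hz).le, hT z hz⟩))
        fun z _ w _ h => by
          simp only [Prod.mk.injEq] at h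
          exact Prod.ext (by omega) (by omega)
    omega
  tot T hT := by
    have h1 := card_tileBox L (0, 0) L (by omega)
    have h2 : T.card ≤ (tileBox L (0, 0) L).card :=
      Finset.card_le_card_of_injOn (fun z => (z.1 - x, z.2 - y))
        (fun z hz => Finset.mem_coe.2 ((mem_tileBox _ _ _ _).2 (hT z hz)))
        fun z _ w _ h => by
          simp only [Prod.mk.injEq] at h
          exact Prod.ext (by omega) (by omega)
    have h3 : (T.card : ℤ) ≤ (12 * L) ^ 2 := by nlinarith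
    exact_mod_cast h3
  closed u v huv hu hv := by
    by_contra h
    refine hv (hcl u v huv hu ?_)
    simp only [box, Finset.mem_filter, Finset.mem_univ, true_and]
    unfold sd at h
    simp only at h
    omega

theorem ceil_spec {x : ℝ} (hx : 1 ≤ x) : x ≤ (⌈x⌉₊ : ℝ) ∧ (⌈x⌉₊ : ℝ) ≤ 2 * x :=
  ⟨Nat.le_ceil x, by linarith [Nat.ceil_lt_add_one (by linarith : 0 ≤ x)]⟩

theorem sq_step (hE : EntStmt) {η c C a : ℝ} (hη : 0 < η) (hC : 0 ≤ C) (hc : 0 < c)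
    (hc2 : c ≤ 1 / 2) (hs : St q R J Δ (η / 4) c C) (hq : Sq q R J Δ a) (ha : 1 < a)
    (ha2 : a ≤ 2 - η) : Sq q R J Δ (1 + (1 - c) * (a - 1)) := by
  obtain ⟨K, n₀, hK, H⟩ := mi_bound hE hη hC hs hq ha (by linarith) hc.le (by linarith)
    (by nlinarith)
  obtain ⟨n₁, hn₁⟩ := eventually_atTop.1
    (ev_rpow_le (a := 1 - c) (b := 1) (K := 72) (by linarith) one_pos)
  set a' := 1 + (1 - c) * (a - 1) with ha'
  have a1 : 1 ≤ a' := by nlinarith
  refine sq_of_large hE (C := 2 * K * 12 ^ a') a1 (by positivity) (n₀ + n₁)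
    fun Λ _ _ s U x y L hL hL1 hcl => ?_
  have n1 : (1 : ℝ) ≤ ((12 * L : ℕ) : ℝ) := by exact_mod_cast (by omega : 1 ≤ 12 * L)
  obtain ⟨c1, c2⟩ := ceil_spec (Real.one_le_rpow n1 (by linarith : 0 ≤ 1 - c))
  have c3 := hn₁ (12 * L) (by omega)
  rw [Real.rpow_one, one_mul] at c3
  set m := ⌈((12 * L : ℕ) : ℝ) ^ (1 - c)⌉₊
  have c4 : 3 * m ≤ L := by
    have : (3 * m : ℝ) ≤ L := by push_cast at c2 c3; linarith
    exact_mod_cast this
  obtain ⟨h1, h2⟩ := H Λ s (12 * L) L m (sqChart s U x y L hL1 hcl) (by omega) (by omega) c4 c1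
    (by linarith [(Nat.cast_nonneg m : (0 : ℝ) ≤ m)]) c2
  have hS := EF.of hE s
  have hsub := (sqChart s U x y L hL1 hcl).P_mono (by positivity : (0 : ℤ) ≤ m)
  rw [hS.mi_eq hsub, show 2 - (1 - c) * (2 - a) - c = a' by rw [ha']; ring] at h1
  have h3 := hS.sub hsub
  have e : (sqChart s U x y L hL1 hcl).P 0 = U ∩ box s x y L := by
    ext u
    simp only [Chart.mem_P, sqChart, sd, box, Finset.mem_inter, Finset.mem_filter,
      Finset.mem_univ, true_and]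
    exact and_congr_right fun _ => by omega
  rw [← e]
  push_cast at h1 h2
  rw [Real.mul_rpow (by norm_num) (by positivity)] at h1 h2
  have : 0 ≤ K * (12 ^ a' * (L : ℝ) ^ a') := by positivity
  nlinarith

end Crest.Agent.N336.C.Boot

namespace Crest.Agent.N336.C

open Boot Filter Crest.Agent.N336.Area

/-- The bootstrap. -/
theorem boot (hE : EntStmt) (hS : A.SubStmt) (hT : StepStmt) : CoreStmt := by
  intro q R J Δ hq hJ hΔ
  obtain ⟨η, hη, hη2, h0⟩ := sq_start (R := R) hE hS hq hJ hΔ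
  obtain ⟨c, C, hc, hc2, hC, hs⟩ := hT q R J Δ (η / 4) hq hJ hΔ (by linarith) (by linarith)
  have it : ∀ j : ℕ, Sq q R J Δ (1 + (1 - c) ^ j * (1 - η)) := by
    intro j
    induction j with
    | zero => convert h0 using 1; ring
    | succ j ih =>
      have p1 : 0 < (1 - c) ^ j := pow_pos (by linarith) j
      have p2 : (1 - c) ^ j ≤ 1 := pow_le_one₀ (by linarith) (by linarith)
      convert sq_step hE hη hC.le hc hc2 hs ih (by nlinarith) (by nlinarith) using 1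
      ring
  obtain ⟨j, hj⟩ := exists_pow_lt_of_lt_one (by linarith : 0 < c / 8) (by linarith : 1 - c < 1)
  have p1 : 0 < (1 - c) ^ j := pow_pos (by linarith) j
  set a := 1 + (1 - c) ^ j * (1 - η) with ha
  have a1 : 1 < a := by nlinarith
  have a2 : a ≤ 1 + c / 8 := by nlinarith
  obtain ⟨K, n₀, hK, H⟩ := mi_bound (γ := c / 8) hE hη hC.le hs (it j) a1 (by linarith)
    (by linarith) (by linarith) (by nlinarith)
  obtain ⟨n₁, hn₁⟩ := eventually_atTop.1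
    ((ev_rpow_le (a := 1 - c) (b := 1 - c / 8) (K := 6) (by linarith) one_pos).and
      (ev_rpow_le (a := 0) (b := 1 - c / 8) (K := 6) (by linarith) one_pos))
  have hl : 0 ≤ Real.log q := Real.log_natCast_nonneg q
  refine ⟨c / 8, K + 2 * ((n₀ + n₁ : ℕ) : ℝ) ^ 2 * Real.log q + 1, by linarith, by linarith,
    by positivity, fun Λ _ _ s n M ch hn hM => ?_⟩
  have hS := EF.of hE s
  have n1 : (1 : ℝ) ≤ n := by exact_mod_cast hn
  have p2 : 1 ≤ (n : ℝ) ^ (1 - 2 * (c / 8)) := Real.one_le_rpow n1 (by linarith)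
  have p3 : 0 ≤ 2 * ((n₀ + n₁ : ℕ) : ℝ) ^ 2 * Real.log q := by positivity
  by_cases hlarge : n₀ + n₁ ≤ n
  · obtain ⟨b1, b2⟩ := hn₁ n (by omega)
    rw [Real.rpow_zero] at b2
    set x := (n : ℝ) ^ (1 - c / 8)
    have c1 := Nat.floor_le (by linarith : 0 ≤ x / 3)
    have c2 := Nat.lt_floor_add_one (x / 3)
    set m := ⌊x / 3⌋₊
    have c4 : 3 * m ≤ M := by
      have : (3 * m : ℝ) ≤ M := by linarith
      exact_mod_cast this
    have h1 := (H Λ s n M m ch (by omega) hn c4 (by linarith) (by linarith) (by linarith)).1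
    have h2 : MI s.Ω (ch.P 0) (ch.P M)ᶜ ≤ MI s.Ω (ch.P 0) (ch.P m)ᶜ :=
      MI_mono_right hS.sm (Finset.compl_subset_compl.2 (ch.P_mono (by omega)))
        (Finset.disjoint_left.2 fun u hu hu' =>
          Finset.mem_compl.1 hu' (ch.P_mono (by positivity) hu))
    have h3 : (n : ℝ) ^ (2 - (1 - c / 8) * (2 - a) - c) ≤ (n : ℝ) ^ (1 - 2 * (c / 8)) :=
      Real.rpow_le_rpow_of_exponent_le n1 (by nlinarith)
    nlinarith [mul_le_mul_of_nonneg_left h3 hK]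
  · have hsub := ch.P_mono (by positivity : (0 : ℤ) ≤ M)
    have h1 := hS.union (ch.P 0) (ch.P M \ ch.P 0)
    rw [Finset.union_sdiff_of_subset hsub] at h1
    have h2 := (hS.bd (ch.P 0)).2
    have h3 : ((ch.P 0).card : ℝ) ≤ ((n₀ + n₁ : ℕ) : ℝ) ^ 2 := by
      exact_mod_cast (ch.card_P (by positivity)).trans (Nat.pow_le_pow_left (by omega) 2)
    rw [hS.mi_eq hsub]
    nlinarith [mul_le_mul_of_nonneg_right h3 hl]

end Crest.Agent.N336.C
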