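import Crest.Agent.N336.C.Defs
import Crest.Agent.N336.TB
import Crest.Agent.N336.Area.Col

/-!
# Row 336, CORE bootstrap: Whitney covers of chart regions by squares (helper51)
-/

set_option autoImplicit false

namespace Crest.Agent.N336.C.Boot

open Crest.Agent.N336.Area Crest.Agent.N336.A

variable {q R : ℕ} {J Δ : ℝ} {Λ : Type} [Fintype Λ] [DecidableEq Λ]

/-- The square bound with exponent `a` and constant `C` for one system. -/
def SqC (s : Sys q R J Δ Λ) (a C : ℝ) : Prop :=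
  ∀ (U : Finset Λ) (x y : ℤ) (L : ℕ),
    (∀ u v, s.G.Adj u v → u ∈ U → u ∈ box s (x - L) (y - L) (3 * L) → v ∈ U) →
    S s.Ω (U ∩ box s x y L) ≤ C * (L : ℝ) ^ a

/-- The entropy facts that are used. -/
structure EF (Ω : Vec Λ q) : Prop where
  cm : ∀ A : Finset Λ, S Ω Aᶜ = S Ω A
  bd : ∀ A : Finset Λ, 0 ≤ S Ω A ∧ S Ω A ≤ A.card * Real.log q
  sm : ∀ A B : Finset Λ, S Ω (A ∪ B) + S Ω (A ∩ B) ≤ S Ω A + S Ω B

theorem EF.of (hE : EntStmt) (s : Sys q R J Δ Λ) : EF s.Ω := by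
  obtain ⟨h1, h2, h3, -⟩ := hE q Λ s.Ω s.gap.1
  exact ⟨h1, h2, h3⟩

theorem EF.union {Ω : Vec Λ q} (h : EF Ω) (A B : Finset Λ) : S Ω (A ∪ B) ≤ S Ω A + S Ω B := by
  have := h.sm A B
  have := (h.bd (A ∩ B)).1
  linarith

theorem EF.biUnion {Ω : Vec Λ q} (h : EF Ω) {ι : Type} [DecidableEq ι] (I : Finset ι)
    (f : ι → Finset Λ) : S Ω (I.biUnion f) ≤ ∑ i ∈ I, S Ω (f i) := by
  induction I using Finset.induction_on with
  | empty => simpa using (h.bd ∅).2
  | insert i I hi ih =>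
    rw [Finset.biUnion_insert, Finset.sum_insert hi]
    linarith [h.union (f i) (I.biUnion f)]

theorem EF.sub {Ω : Vec Λ q} (h : EF Ω) {X Y : Finset Λ} (hY : Y ⊆ X) :
    S Ω Y ≤ S Ω X + S Ω (X \ Y) := by
  have e : Yᶜ = Xᶜ ∪ X \ Y := by
    ext x
    have := @hY x
    simp only [Finset.mem_compl, Finset.mem_union, Finset.mem_sdiff]; tauto
  rw [← h.cm Y, e, ← h.cm X]
  exact h.union _ _

theorem EF.mi_eq {Ω : Vec Λ q} (h : EF Ω) {X Y : Finset Λ} (hY : Y ⊆ X) :
    MI Ω Y Xᶜ = S Ω Y + S Ω X - S Ω (X \ Y) := by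
  have e : Y ∪ Xᶜ = (X \ Y)ᶜ := by
    ext x
    have := @hY x
    simp only [Finset.mem_compl, Finset.mem_union, Finset.mem_sdiff]; tauto
  unfold MI
  rw [e, h.cm, h.cm]

theorem tile_eq {r : ℤ} (hr : 0 < r) {τ z : ℤ × ℤ} (h1 : r * τ.1 ≤ z.1) (h2 : z.1 < r * τ.1 + r)
    (h3 : r * τ.2 ≤ z.2) (h4 : z.2 < r * τ.2 + r) : tile r z = τ := by
  have key : ∀ a t : ℤ, r * t ≤ a → a < r * t + r → a / r = t := fun a t a1 a2 => by
    rw [show a = (a - r * t) + t * r by ring, Int.add_mul_ediv_right _ _ hr.ne',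
      Int.ediv_eq_zero_of_lt (by omega) (by omega), zero_add]
  exact Prod.ext (key _ _ h1 h2) (key _ _ h3 h4)

/-- A saturated set is covered by its tiles. -/
theorem tiles (s : Sys q R J Δ Λ) (hS : EF s.Ω) {a C : ℝ} (hC : 0 ≤ C) (h : SqC s a C)
    (U : Finset Λ) {r : ℕ} (hr : 1 ≤ r) (E : ℤ × ℤ → Prop)
    (hsat : ∀ z z', tile r z = tile r z' → E z → E z') {N : ℝ}
    (hN : ∀ T : Finset (ℤ × ℤ), (∀ z ∈ T, E z) → (T.card : ℝ) ≤ N)
    (hcl : ∀ u v, s.G.Adj u v → u ∈ U → ∀ z, E z → Near (2 * r) z (s.pos u) → v ∈ U)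
    (X : Finset Λ) (hX : ∀ x, x ∈ X ↔ x ∈ U ∧ E (s.pos x)) :
    S s.Ω X ≤ C * N * (r : ℝ) ^ (a - 2) := by
  have hr' : (0 : ℤ) < r := by exact_mod_cast hr
  set I := X.image fun x => tile r (s.pos x) with hI
  have hE : ∀ τ ∈ I, ∀ z, tile r z = τ → E z := fun τ hτ z hz => by
    obtain ⟨x, hx, rfl⟩ := Finset.mem_image.1 hτ
    exact hsat _ _ hz.symm ((hX x).1 hx).2
  have e : X = I.biUnion fun τ => U ∩ box s (r * τ.1) (r * τ.2) r := by
    ext x
    simp only [Finset.mem_biUnion, Finset.mem_inter, box, Finset.mem_filter, Finset.mem_univ,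
      true_and]
    constructor
    · intro hx
      exact ⟨_, Finset.mem_image_of_mem _ hx, ((hX x).1 hx).1, tile_spec hr' _⟩
    · rintro ⟨τ, hτ, hx, a1, a2, a3, a4⟩
      exact (hX x).2 ⟨hx, hE τ hτ _ (tile_eq hr' a1 a2 a3 a4)⟩
  have h1 : S s.Ω X ≤ I.card • (C * (r : ℝ) ^ a) := by
    rw [e]
    refine (hS.biUnion _ _).trans (Finset.sum_le_card_nsmul _ _ _ fun τ hτ => h U _ _ r ?_)
    intro u v huv hu hb
    refine hcl u v huv hu (r * τ.1, r * τ.2) (hE τ hτ _ (tile_eq hr' le_rfl (by simp only; omega)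
      le_rfl (by simp only; omega))) ?_
    simp only [box, Finset.mem_filter, Finset.mem_univ, true_and] at hb
    unfold Near; simp only; omega
  have h2 : (I.card : ℝ) * r ^ 2 ≤ N := by
    set f : (ℤ × ℤ) × ℕ × ℕ → ℤ × ℤ := fun p => (r * p.1.1 + p.2.1, r * p.1.2 + p.2.2)
    have ht : ∀ p ∈ I ×ˢ (Finset.range r ×ˢ Finset.range r), tile r (f p) = p.1 := fun p hp => by
      simp only [Finset.mem_product, Finset.mem_range] at hp
      exact tile_eq hr' (by simp only [f]; omega) (by simp only [f]; omega)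
        (by simp only [f]; omega) (by simp only [f]; omega)
    have := hN ((I ×ˢ (Finset.range r ×ˢ Finset.range r)).image f) fun z hz => by
      obtain ⟨p, hp, rfl⟩ := Finset.mem_image.1 hz
      exact hE _ (Finset.mem_product.1 hp).1 _ (ht p hp)
    rw [Finset.card_image_of_injOn fun p hp p' hp' e => by
      have e1 : p.1 = p'.1 := by rw [← ht p hp, ← ht p' hp', e]
      simp only [f, Prod.mk.injEq, e1] at e
      exact Prod.ext e1 (Prod.ext (by omega) (by omega))] at this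
    simpa [Finset.card_product, sq] using this
  have hr0 : (0 : ℝ) < r := by exact_mod_cast hr
  rw [nsmul_eq_mul, show (r : ℝ) ^ a = r ^ 2 * (r : ℝ) ^ (a - 2) by
    rw [← Real.rpow_two, ← Real.rpow_add hr0]; ring_nf] at h1
  have h3 : 0 ≤ C * (r : ℝ) ^ (a - 2) := by positivity
  nlinarith [mul_le_mul_of_nonneg_right h2 h3]

theorem near_of_tile {r : ℤ} (hr : 0 < r) {z z' : ℤ × ℤ} (h : tile r z = tile r z') :
    Near r z z' := by
  have h1 := tile_spec hr z
  have h2 := tile_spec hr z'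
  rw [h] at h1
  unfold Near; omega

/-- Whitney cover. -/
theorem whit (s : Sys q R J Δ Λ) (hS : EF s.Ω) {a C : ℝ} (hC : 0 ≤ C) (h : SqC s a C)
    (U : Finset Λ) (D : ℤ × ℤ → Prop) (T : ℕ) {N N' : ℝ}
    (hN : ∀ t < T, ∀ F : Finset (ℤ × ℤ),
      (∀ z ∈ F, D z ∧ ∃ z', ¬ D z' ∧ Near (2 ^ (t + 1)) z z') → (F.card : ℝ) ≤ N * 2 ^ t)
    (hN' : ∀ F : Finset (ℤ × ℤ), (∀ z ∈ F, D z) → (F.card : ℝ) ≤ N')
    (hcl : ∀ u v, s.G.Adj u v → u ∈ U → ∀ z, D z → Near (2 * 2 ^ T) z (s.pos u) → v ∈ U)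
    (X : Finset Λ) (hX : ∀ x, x ∈ X ↔ x ∈ U ∧ D (s.pos x)) :
    S s.Ω X ≤
      C * N * ∑ t ∈ Finset.range T, ((2 : ℝ) ^ (a - 1)) ^ t + C * N' * ((2 : ℝ) ^ T) ^ (a - 2) := by
  classical
  set Dt : ℕ → ℤ × ℤ → Prop := fun t z => ∀ z', tile (2 ^ t) z' = tile (2 ^ t) z → D z' with hDt
  have hD : ∀ t z, Dt t z → D z := fun t z hz => hz z rfl
  have hcl' : ∀ t ≤ T, ∀ u v, s.G.Adj u v → u ∈ U → ∀ z, D z →
      Near (2 * (2 ^ t : ℕ)) z (s.pos u) → v ∈ U := fun t ht u v huv hu z hz hn =>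
    hcl u v huv hu z hz (by
      have : (2 : ℤ) ^ t ≤ 2 ^ T := pow_le_pow_right₀ (by norm_num) ht
      push_cast at hn
      unfold Near at *; omega)
  have key : ∀ j ≤ T, S s.Ω X ≤
      C * N * ∑ t ∈ Finset.range j, ((2 : ℝ) ^ (a - 1)) ^ t +
        S s.Ω (U.filter fun x => Dt j (s.pos x)) := by
    intro j
    induction j with
    | zero =>
      intro _
      have : (U.filter fun x => Dt 0 (s.pos x)) = X := by
        ext x
        rw [hX, Finset.mem_filter]
        refine and_congr_right fun _ => ⟨hD 0 _, fun hx z' hz => ?_⟩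
        have : z' = s.pos x := Prod.ext (by simpa [tile] using congrArg Prod.fst hz)
          (by simpa [tile] using congrArg Prod.snd hz)
        rwa [this]
      rw [this]; simp
    | succ j ih =>
      intro hj
      have e : (U.filter fun x => Dt j (s.pos x)) =
          (U.filter fun x => Dt j (s.pos x) ∧ ¬ Dt (j + 1) (s.pos x)) ∪
            U.filter fun x => Dt (j + 1) (s.pos x) := by
        ext x
        have : Dt (j + 1) (s.pos x) → Dt j (s.pos x) := fun hx z' hz =>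
          hx z' (tile_pow (Nat.le_succ j) hz)
        simp only [Finset.mem_filter, Finset.mem_union]; tauto
      have h1 := tiles s hS hC h U (r := 2 ^ j) Nat.one_le_two_pow
        (fun z => Dt j z ∧ ¬ Dt (j + 1) z) (fun z z' hz hE => by
          push_cast at hz
          refine ⟨fun w hw => hE.1 w (hw.trans hz.symm), fun hx => hE.2 fun w hw => hx w ?_⟩
          exact hw.trans (tile_pow (Nat.le_succ j) hz)) (N := N * 2 ^ j)
        (fun F hF => hN j hj F fun z hz => by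
          obtain ⟨a1, a2⟩ := hF z hz
          simp only [hDt, not_forall] at a2
          obtain ⟨z', a3, a4⟩ := a2
          exact ⟨hD _ _ a1, z', a4, near_of_tile (by positivity) a3.symm⟩)
        (fun u v huv hu z hz hn => hcl' j (by omega) u v huv hu z (hD _ _ hz.1) hn)
        (U.filter fun x => Dt j (s.pos x) ∧ ¬ Dt (j + 1) (s.pos x)) (fun _ => Finset.mem_filter)
      have h2 : N * 2 ^ j * ((2 ^ j : ℕ) : ℝ) ^ (a - 2) = N * ((2 : ℝ) ^ (a - 1)) ^ j := by
        push_cast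
        rw [mul_assoc, mul_comm ((2 : ℝ) ^ j), ← Real.rpow_add_one (by positivity),
          ← Real.rpow_natCast, ← Real.rpow_natCast, ← Real.rpow_mul (by norm_num),
          ← Real.rpow_mul (by norm_num)]
        congr 2; ring
      have h3 := ih (by omega)
      rw [e] at h3
      have h4 := hS.union (U.filter fun x => Dt j (s.pos x) ∧ ¬ Dt (j + 1) (s.pos x))
        (U.filter fun x => Dt (j + 1) (s.pos x))
      rw [mul_assoc C, h2] at h1
      rw [Finset.sum_range_succ]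
      linarith
  have h1 := tiles s hS hC h U (r := 2 ^ T) Nat.one_le_two_pow (Dt T) (fun z z' hz hE w hw => by
    push_cast at hz
    exact hE w (hw.trans hz.symm)) (N := N') (fun F hF => hN' F fun z hz => hD _ _ (hF z hz))
    (fun u v huv hu z hz hn => hcl' T le_rfl u v huv hu z (hD _ _ hz) hn)
    (U.filter fun x => Dt T (s.pos x)) (fun _ => Finset.mem_filter)
  push_cast at h1
  linarith [key T le_rfl]

variable {s : Sys q R J Δ Λ} {n M : ℕ}

theorem chart_lip (c : Chart s n M) (d : ℕ) : ∀ z z' : ℤ × ℤ, Near d z z' → c.ψ z ≤ c.ψ z' + d := by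
  induction d with
  | zero =>
    intro z z' h
    have : z = z' := Prod.ext (by unfold Near at h; omega) (by unfold Near at h; omega)
    simp [this]
  | succ d ih =>
    intro z z' h
    have h1 := ih (max (z.1 - 1) (min (z.1 + 1) z'.1), max (z.2 - 1) (min (z.2 + 1) z'.2)) z'
      (by unfold Near at *; simp only; omega)
    have h2 := c.lip z (max (z.1 - 1) (min (z.1 + 1) z'.1), max (z.2 - 1) (min (z.2 + 1) z'.2))
      (by rw [abs_le]; simp only; omega) (by rw [abs_le]; simp only; omega)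
    omega

theorem card_lev (c : Chart s n M) (I : Finset ℤ) (hI : ∀ k ∈ I, 0 ≤ k ∧ k ≤ M)
    (F : Finset (ℤ × ℤ)) (hF : ∀ z ∈ F, c.ψ z ∈ I) : F.card ≤ n * I.card :=
  Finset.card_le_mul_card_image_of_maps_to hF n fun k hk =>
    c.lev k (hI k hk).1 (hI k hk).2 _ fun _ hz => (Finset.mem_filter.1 hz).2

/-- Bands and sublevel sets of a chart. -/
theorem chart_bound {a C : ℝ} (ha : 1 < a) (ha2 : a ≤ 2) (hC : 0 ≤ C) : ∃ K : ℝ, 1 ≤ K ∧
    ∀ (Λ : Type) [Fintype Λ] [DecidableEq Λ] (s : Sys q R J Δ Λ), EF s.Ω → SqC s a C →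
    ∀ (n M m : ℕ) (c : Chart s n M), 1 ≤ m → 3 * m ≤ M → ∀ k : ℤ, 0 ≤ k → k ≤ m →
      S s.Ω (c.P m \ c.P k) ≤ K * (n * (m : ℝ) ^ (a - 1)) ∧
      S s.Ω (c.P k) ≤ K * (n * (m : ℝ) ^ (a - 1) + n ^ 2 * (m : ℝ) ^ (a - 2)) := by
  classical
  set x : ℝ := 2 ^ (a - 1) with hx
  have hx1 : 1 < x := Real.one_lt_rpow (by norm_num) (by linarith)
  set K := 4 * C / (x - 1) + 2 * C with hK
  have hK0 : 0 ≤ 4 * C / (x - 1) := div_nonneg (by positivity) (by linarith)
  refine ⟨2 * K + 1, by linarith, fun Λ _ _ s hS h n M m c hm hM k hk0 hk => ?_⟩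
  obtain ⟨T, hT1, hT2⟩ : ∃ T, 2 ^ T ≤ m ∧ m < 2 ^ (T + 1) :=
    ⟨Nat.log 2 m, Nat.pow_log_le_self 2 (by omega), Nat.lt_pow_succ_log_self (by norm_num) m⟩
  have hm0 : (0 : ℝ) < m := by exact_mod_cast hm
  have hT1' : (2 : ℝ) ^ T ≤ m := by exact_mod_cast hT1
  have hT2' : (m : ℝ) ≤ 2 * 2 ^ T := by rw [← pow_succ']; exact_mod_cast hT2.le
  have hT3 : (2 : ℤ) ^ T ≤ m := by exact_mod_cast hT1
  have g1 : ∑ t ∈ Finset.range T, x ^ t ≤ (m : ℝ) ^ (a - 1) / (x - 1) := by
    rw [geom_sum_eq hx1.ne', div_le_div_iff_of_pos_right (by linarith)]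
    have : x ^ T ≤ (m : ℝ) ^ (a - 1) := by
      rw [hx, ← Real.rpow_natCast, ← Real.rpow_mul (by norm_num), mul_comm,
        Real.rpow_mul (by norm_num), Real.rpow_natCast]
      exact Real.rpow_le_rpow (by positivity) hT1' (by linarith)
    linarith
  have g2 : ((2 : ℝ) ^ T) ^ (a - 2) ≤ 2 * (m : ℝ) ^ (a - 2) := by
    calc ((2 : ℝ) ^ T) ^ (a - 2) ≤ (m / 2) ^ (a - 2) :=
          Real.rpow_le_rpow_of_nonpos (by positivity) (by linarith) (by linarith)
      _ = (m : ℝ) ^ (a - 2) * 2 ^ (2 - a) := by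
          rw [Real.div_rpow hm0.le (by norm_num), div_eq_mul_inv, ← Real.rpow_neg (by norm_num)]
          ring_nf
      _ ≤ (m : ℝ) ^ (a - 2) * 2 ^ (1 : ℝ) := mul_le_mul_of_nonneg_left
          (Real.rpow_le_rpow_of_exponent_le (by norm_num) (by linarith)) (by positivity)
      _ = _ := by rw [Real.rpow_one]; ring
  have gen : ∀ (σ : Prop) (N' : ℝ), 0 ≤ N' →
      (∀ F : Finset (ℤ × ℤ), (∀ z ∈ F, (σ ∨ k < c.ψ z) ∧ c.ψ z ≤ m) → (F.card : ℝ) ≤ N') →
      ∀ X : Finset Λ, (∀ u, u ∈ X ↔ u ∈ c.U ∧ (σ ∨ k < c.ψ (s.pos u)) ∧ c.ψ (s.pos u) ≤ m) →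
      S s.Ω X ≤ 4 * C / (x - 1) * (n * (m : ℝ) ^ (a - 1)) + 2 * C * (N' * (m : ℝ) ^ (a - 2)) := by
    intro σ N' hN0 hN' X hX
    have := whit s hS hC h c.U (fun z => (σ ∨ k < c.ψ z) ∧ c.ψ z ≤ m) T (N := 4 * n) (N' := N')
      (fun t ht F hF => by
        have p1 : (2 : ℤ) ^ (t + 1) ≤ 2 ^ T := pow_le_pow_right₀ (by norm_num) ht
        have p2 : (0 : ℤ) < 2 ^ (t + 1) := by positivity
        have b1 := card_lev c (Finset.Ioc k (k + 2 ^ (t + 1)) ∪ Finset.Ioc (m - 2 ^ (t + 1)) m)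
          (fun j hj => by simp only [Finset.mem_union, Finset.mem_Ioc] at hj; omega) F
          fun z hz => by
            obtain ⟨a1, z', a2, a3⟩ := hF z hz
            have l1 := chart_lip c (2 ^ (t + 1)) z z' (by exact_mod_cast a3)
            have l2 := chart_lip c (2 ^ (t + 1)) z' z (by
              push_cast; unfold Near at *; omega)
            push_cast at l1 l2
            simp only [Finset.mem_union, Finset.mem_Ioc]
            by_cases hσ : σ
            · simp only [hσ, true_or, true_and] at a1 a2; omega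
            · simp only [hσ, false_or] at a1 a2; omega
        have b2 := Finset.card_union_le (Finset.Ioc k (k + 2 ^ (t + 1)))
          (Finset.Ioc ((m : ℤ) - 2 ^ (t + 1)) m)
        rw [Int.card_Ioc, Int.card_Ioc, show k + 2 ^ (t + 1) - k = ((2 ^ (t + 1) : ℕ) : ℤ) by
          push_cast; ring, show (m : ℤ) - (m - 2 ^ (t + 1)) = ((2 ^ (t + 1) : ℕ) : ℤ) by
          push_cast; ring, Int.toNat_natCast] at b2
        have b3 : F.card ≤ 4 * n * 2 ^ t :=
          b1.trans ((Nat.mul_le_mul_left _ b2).trans (le_of_eq (by ring)))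
        exact_mod_cast b3) hN'
      (fun u v huv hu z hz hn => by
        by_contra hv
        have b1 := c.closed u v huv hu hv
        have b2 := chart_lip c (2 * 2 ^ T) (s.pos u) z (by push_cast; unfold Near at *; omega)
        push_cast at b2
        omega) X hX
    have b1 := mul_le_mul_of_nonneg_left g1 (by positivity : 0 ≤ C * (4 * n))
    have b2 := mul_le_mul_of_nonneg_left g2 (by positivity : 0 ≤ C * N')
    have b3 : C * (4 * n) * ((m : ℝ) ^ (a - 1) / (x - 1)) =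
      4 * C / (x - 1) * (n * (m : ℝ) ^ (a - 1)) := by ring
    linarith
  have p1 : 0 ≤ n * (m : ℝ) ^ (a - 1) := by positivity
  have p2 : 0 ≤ n ^ 2 * (m : ℝ) ^ (a - 2) := by positivity
  have h1 : S s.Ω (c.P m \ c.P k) ≤ K * (n * (m : ℝ) ^ (a - 1)) := by
    have := gen False (n * m) (by positivity) (fun F hF => by
      have b1 := card_lev c (Finset.Ioc 0 m) (fun j hj => by
        simp only [Finset.mem_Ioc] at hj; omega) F fun z hz => by
          have := hF z hz
          simp only [Finset.mem_Ioc, false_or] at this ⊢; omega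
      simp only [Int.card_Ioc, sub_zero, Int.toNat_natCast] at b1
      exact_mod_cast b1) (c.P m \ c.P k) fun u => by
        simp only [Finset.mem_sdiff, Chart.mem_P, false_or]
        constructor
        · rintro ⟨⟨a1, a2⟩, a3⟩
          exact ⟨a1, not_le.1 fun a4 => a3 ⟨a1, a4⟩, a2⟩
        · rintro ⟨a1, a2, a3⟩
          exact ⟨⟨a1, a3⟩, fun a4 => by omega⟩
    rw [mul_assoc (n : ℝ), ← Real.rpow_one_add' hm0.le (by linarith),
      show 1 + (a - 2) = a - 1 by ring] at this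
    rw [hK]; linarith
  have h2 : S s.Ω (c.P m) ≤ 4 * C / (x - 1) * (n * (m : ℝ) ^ (a - 1)) +
      2 * C * (n ^ 2 * (m : ℝ) ^ (a - 2)) := by
    exact gen True (n ^ 2) (by positivity) (fun F hF => by
      exact_mod_cast c.tot F fun z hz => by have := (hF z hz).2; omega) _ fun u => by
        simp only [Chart.mem_P, true_or, true_and]
  have h3 := hS.sub (c.P_mono hk)
  have hK1 : 0 ≤ K := by linarith
  constructor <;> nlinarith

end Crest.Agent.N336.C.Boot
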