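import Crest.Agent.N336.C.Defs

/-!
# Row 336, CORE: combinatorics of the scanner, part A (averages, geometry of crossings)
-/

set_option autoImplicit false
set_option linter.unusedSectionVars false

open Finset

namespace Crest.Agent.N336.C

open Crest.Agent.N336.Eng

namespace Cb

section avg

variable {Cf X : Type} [Fintype X] [Nonempty X]

lemma card_pos' : (0 : ℝ) < Fintype.card X := by exact_mod_cast Fintype.card_pos

/-- comparison of iterated averages on an invariant family of configurations -/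
lemma iter_le (mv : Cf → X → Cf) (Inv : Cf → Prop) (hI : ∀ c x, Inv c → Inv (mv c x))
    (f g h : Cf → ℝ) (α β : ℝ) (H : ∀ c, Inv c → f c ≤ α * g c + β * h c) (i : ℕ) :
    ∀ c, Inv c → (avg mv)^[i] f c ≤ α * (avg mv)^[i] g c + β * (avg mv)^[i] h c := by
  induction i with
  | zero => simpa using H
  | succ i ih =>
    intro c hc
    simp only [Function.iterate_succ_apply']
    have hs : ∑ x, (avg mv)^[i] f (mv c x) ≤
        α * ∑ x, (avg mv)^[i] g (mv c x) + β * ∑ x, (avg mv)^[i] h (mv c x) := by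
      rw [Finset.mul_sum, Finset.mul_sum, ← Finset.sum_add_distrib]
      exact Finset.sum_le_sum fun x _ => ih _ (hI c x hc)
    have hN := card_pos' (X := X)
    show (∑ x, (avg mv)^[i] f (mv c x)) / Fintype.card X ≤
      α * ((∑ x, (avg mv)^[i] g (mv c x)) / Fintype.card X) +
        β * ((∑ x, (avg mv)^[i] h (mv c x)) / Fintype.card X)
    rw [← mul_div_assoc, ← mul_div_assoc, ← add_div]
    exact div_le_div_of_nonneg_right hs hN.le

lemma iter_const (mv : Cf → X → Cf) (k : ℝ) (i : ℕ) :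
    ∀ c, (avg mv)^[i] (fun _ => k) c = k := by
  induction i with
  | zero => simp
  | succ i ih =>
    intro c
    rw [Function.iterate_succ_apply']
    show (∑ x, (avg mv)^[i] (fun _ => k) (mv c x)) / Fintype.card X = k
    have hN := card_pos' (X := X)
    simp only [ih, Finset.sum_const, Finset.card_univ, nsmul_eq_mul]
    field_simp

lemma iter_le_const (mv : Cf → X → Cf) (Inv : Cf → Prop) (hI : ∀ c x, Inv c → Inv (mv c x))
    (f : Cf → ℝ) (k : ℝ) (H : ∀ c, Inv c → f c ≤ k) (i : ℕ) (c : Cf) (hc : Inv c) :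
    (avg mv)^[i] f c ≤ k := by
  have := iter_le mv Inv hI f (fun _ => k) (fun _ => k) 1 0 (by simpa using H) i c hc
  simpa [iter_const] using this

lemma iter_nonneg (mv : Cf → X → Cf) (f : Cf → ℝ) (H : ∀ c, 0 ≤ f c) (i : ℕ) (c : Cf) :
    0 ≤ (avg mv)^[i] f c := by
  have := iter_le mv (fun _ => True) (fun _ _ _ => trivial) (fun _ => 0) f f 1 0
    (by simpa using H) i c trivial
  simpa [iter_const] using this

/-- telescoping: a function paid for by the decrease of a potential in `[0,1]` -/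
lemma sum_iter_le (mv : Cf → X → Cf) (Inv : Cf → Prop) (hI : ∀ c x, Inv c → Inv (mv c x))
    (f D : Cf → ℝ) (N : ℝ) (hN : 0 ≤ N) (h0 : ∀ c, 0 ≤ D c) (h1 : ∀ c, D c ≤ 1)
    (H : ∀ c, Inv c → f c ≤ N * D c + (-N) * avg mv D c) (T t : ℕ) (c : Cf) (hc : Inv c) :
    ∑ o ∈ range T, (avg mv)^[o + t] f c ≤ N := by
  have key : ∀ T, ∑ o ∈ range T, (avg mv)^[o + t] f c ≤
      N * ((avg mv)^[t] D c - (avg mv)^[T + t] D c) := by
    intro T
    induction T with
    | zero => simp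
    | succ T ih =>
      rw [Finset.sum_range_succ]
      have := iter_le mv Inv hI f D (avg mv D) N (-N) H (T + t) c hc
      rw [← Function.iterate_succ_apply] at this
      have e : T + 1 + t = (T + t).succ := by omega
      rw [e]
      linarith
  have a1 := iter_le_const mv Inv hI D 1 (fun c _ => h1 c) t c hc
  have a2 := iter_nonneg mv D h0 (T + t) c
  refine (key T).trans ?_
  nlinarith

/-- geometric growth of a potential -/
lemma iter_le_pow (mv : Cf → X → Cf) (Inv : Cf → Prop) (hI : ∀ c x, Inv c → Inv (mv c x))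
    (Ψ : Cf → ℝ) (κ : ℝ) (hκ : 0 ≤ κ) (H : ∀ c, Inv c → avg mv Ψ c ≤ κ * Ψ c) (i : ℕ) :
    ∀ c, Inv c → (avg mv)^[i] Ψ c ≤ κ ^ i * Ψ c := by
  induction i with
  | zero => simp
  | succ i ih =>
    intro c hc
    rw [Function.iterate_succ_apply]
    have := iter_le mv Inv hI (avg mv Ψ) Ψ Ψ κ 0 (by simpa using H) i c hc
    have h2 := mul_le_mul_of_nonneg_left (ih c hc) hκ
    rw [pow_succ]
    nlinarith

end avg

section geo

variable {ι V : Type} [Fintype ι] [DecidableEq ι] [Fintype V] {K w r b₁ b₂ N₀ Na : ℕ}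
  (S : Scn ι V K w r b₁ b₂ N₀ Na)

lemma mem_sl (k : ℤ) (x : ι) : x ∈ S.sl k ↔ S.lv x ≤ k := by simp [Scn.sl]

lemma ini1 (g : Fin K) (x : ι) : x ∈ (S.ini g).1 ↔ S.lv x ≤ S.a g := mem_sl S _ x
lemma ini2 (g : Fin K) (x : ι) : x ∈ (S.ini g).2 ↔ S.lv x ≤ S.b g := mem_sl S _ x
lemma fin1 (g : Fin K) (x : ι) : x ∈ (S.fin g).1 ↔ S.lv x ≤ S.a g + w := mem_sl S _ x
lemma fin2 (g : Fin K) (x : ι) : x ∈ (S.fin g).2 ↔ S.lv x ≤ S.b g - w := mem_sl S _ x

variable {S}

lemma ok1 {c : Cnf ι K} (h : S.Ok c) {g : Fin K} {x : ι} (hx : S.lv x ≤ S.a g) : x ∈ (c g).1 :=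
  (h g).1 ((ini1 S g x).2 hx)
lemma ok2 {c : Cnf ι K} (h : S.Ok c) {g : Fin K} {x : ι} (hx : x ∈ (c g).1) :
    S.lv x ≤ S.a g + w := (fin1 S g x).1 ((h g).2.1 hx)
lemma ok3 {c : Cnf ι K} (h : S.Ok c) {g : Fin K} {x : ι} (hx : S.lv x ≤ S.b g - w) :
    x ∈ (c g).2 := (h g).2.2.1 ((fin2 S g x).2 hx)
lemma ok4 {c : Cnf ι K} (h : S.Ok c) {g : Fin K} {x : ι} (hx : x ∈ (c g).2) :
    S.lv x ≤ S.b g := (ini2 S g x).1 ((h g).2.2.2 hx)

lemma crs_iff {Z A : Finset ι} : Crs Z A ↔ (∃ x ∈ Z, x ∉ A) ∧ ∃ x ∈ Z, x ∈ A := by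
  unfold Crs
  rw [Finset.not_subset, Finset.not_disjoint_iff]

lemma ok_ini : S.Ok S.ini := by
  intro g
  refine ⟨subset_rfl, fun x hx => ?_, fun x hx => ?_, subset_rfl⟩
  · rw [ini1] at hx; rw [fin1]; omega
  · rw [fin2] at hx; rw [ini2]; omega

lemma ok_fin : S.Ok S.fin := by
  intro g
  refine ⟨fun x hx => ?_, subset_rfl, subset_rfl, fun x hx => ?_⟩
  · rw [ini1] at hx; rw [fin1]; omega
  · rw [fin2] at hx; rw [ini2]; omega

lemma mv1_sup (c : Cnf ι K) (v : V) (g : Fin K) : (c g).1 ⊆ (S.mv c v g).1 := by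
  unfold Scn.mv
  dsimp only
  split_ifs
  · exact Finset.subset_union_left
  · exact subset_rfl

lemma mv2_sub (c : Cnf ι K) (v : V) (g : Fin K) : (S.mv c v g).2 ⊆ (c g).2 := by
  unfold Scn.mv
  dsimp only
  split_ifs
  · exact Finset.sdiff_subset
  · exact subset_rfl

lemma ok_mv (c : Cnf ι K) (v : V) (h : S.Ok c) : S.Ok (S.mv c v) := by
  intro g
  refine ⟨(h g).1.trans (mv1_sup c v g), ?_, ?_, (mv2_sub c v g).trans (h g).2.2.2⟩
  · unfold Scn.mv
    dsimp only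
    split_ifs with h1
    · exact Finset.union_subset (h g).2.1 h1.2
    · exact (h g).2.1
  · unfold Scn.mv
    dsimp only
    split_ifs with h1
    · exact Finset.subset_sdiff.2 ⟨(h g).2.2.1, h1.2.symm⟩
    · exact (h g).2.2.1

lemma ok_sub {c : Cnf ι K} (h : S.Ok c) (g : Fin K) : (c g).1 ⊆ (c g).2 := by
  intro x hx
  have := ok2 h hx
  have := S.sep g
  exact ok3 h (by omega)

lemma ok_sub' {c : Cnf ι K} (h : S.Ok c) {g g' : Fin K} (hg : g < g') : (c g).2 ⊆ (c g').1 := by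
  intro x hx
  have := ok4 h hx
  have := S.sep' g g' hg
  exact ok1 h (by omega)

lemma ok_disj {c : Cnf ι K} (h : S.Ok c) (g : Fin K) : Disjoint (c g).2 S.A₁ := by
  rw [Finset.disjoint_left]
  intro x hx hA
  have := ok4 h hx
  have := S.top x hA g
  omega

lemma near_of_cr {c : Cnf ι K} (h : S.Ok c) {v : V} (hc : S.cr c v) : v ∈ S.near := by
  by_contra hn
  obtain ⟨g, hg | hg⟩ := hc
  · obtain ⟨x, hx, hx'⟩ := (crs_iff.1 hg).2
    have := ok4 h (ok_sub h g hx')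
    have := S.far v hn x hx g
    omega
  · obtain ⟨x, hx, hx'⟩ := (crs_iff.1 hg).2
    have := ok4 h hx'
    have := S.far v hn x hx g
    omega

/-- levels of a term crossing the front `P g` -/
lemma lvP {c : Cnf ι K} (h : S.Ok c) {v : V} (hn : v ∈ S.near) {g : Fin K}
    (hc : Crs (S.Z v) (c g).1) :
    (∃ x ∈ S.Z v, S.a g < S.lv x) ∧ (∃ x ∈ S.Z v, S.lv x ≤ S.a g + w) ∧
      ∀ y ∈ S.Z v, S.a g - r < S.lv y ∧ S.lv y ≤ S.a g + w + r := by
  obtain ⟨⟨x1, h1, h1'⟩, ⟨x0, h0, h0'⟩⟩ := crs_iff.1 hc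
  have a1 : S.a g < S.lv x1 := by
    by_contra hh
    exact h1' (ok1 h (by omega))
  have a0 := ok2 h h0'
  refine ⟨⟨x1, h1, a1⟩, ⟨x0, h0, a0⟩, fun y hy => ?_⟩
  have := S.spread v hn x1 h1 y hy
  have := S.spread v hn y hy x0 h0
  omega

/-- levels of a term crossing the front `R g` -/
lemma lvR {c : Cnf ι K} (h : S.Ok c) {v : V} (hn : v ∈ S.near) {g : Fin K}
    (hc : Crs (S.Z v) (c g).2) :
    (∃ x ∈ S.Z v, S.b g - w < S.lv x) ∧ (∃ x ∈ S.Z v, S.lv x ≤ S.b g) ∧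
      ∀ y ∈ S.Z v, S.b g - w - r < S.lv y ∧ S.lv y ≤ S.b g + r := by
  obtain ⟨⟨x1, h1, h1'⟩, ⟨x0, h0, h0'⟩⟩ := crs_iff.1 hc
  have a1 : S.b g - w < S.lv x1 := by
    by_contra hh
    exact h1' (ok3 h (by omega))
  have a0 := ok4 h h0'
  refine ⟨⟨x1, h1, a1⟩, ⟨x0, h0, a0⟩, fun y hy => ?_⟩
  have := S.spread v hn x1 h1 y hy
  have := S.spread v hn y hy x0 h0
  omega

lemma mv_of_not {c : Cnf ι K} {v : V} {g : Fin K} (h1 : ¬ Crs (S.Z v) (c g).1)
    (h2 : ¬ Crs (S.Z v) (c g).2) : S.mv c v g = c g := by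
  unfold Scn.mv
  rw [if_neg (fun hh => h1 hh.1), if_neg (fun hh => h2 hh.1)]

lemma mv_other {c : Cnf ι K} (h : S.Ok c) {v : V} {g : Fin K}
    (hlt : ∀ g', g' < g → Disjoint (S.Z v) (c g').2) (hgt : ∀ g', g < g' → S.Z v ⊆ (c g').1)
    {g' : Fin K} (hne : g' ≠ g) : S.mv c v g' = c g' := by
  rcases lt_or_gt_of_ne hne with hl | hl
  · exact mv_of_not (fun hh => hh.2 ((hlt g' hl).mono_right (ok_sub h g')))
      (fun hh => hh.2 (hlt g' hl))
  · exact mv_of_not (fun hh => hh.1 (hgt g' hl))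
      (fun hh => hh.1 ((hgt g' hl).trans (ok_sub h g')))

/-- the two kinds of witnesses of activity, in levels -/
lemma act_lv {v : V} (ha : S.act v) : ∃ g,
    ((∀ y ∈ S.Z v, S.lv y ≤ S.a g + w) ∧ ∃ y ∈ S.Z v, S.a g < S.lv y) ∨
    ((∀ y ∈ S.Z v, S.b g - w < S.lv y) ∧ ∃ y ∈ S.Z v, S.lv y ≤ S.b g) := by
  obtain ⟨-, g, hg | hg⟩ := ha
  · refine ⟨g, Or.inl ⟨fun y hy => (fin1 S g y).1 (hg.1 hy), ?_⟩⟩
    obtain ⟨y, hy, hy'⟩ := Finset.not_subset.1 hg.2
    rw [ini1] at hy'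
    exact ⟨y, hy, by omega⟩
  · refine ⟨g, Or.inr ⟨fun y hy => ?_, ?_⟩⟩
    · have := Finset.disjoint_left.1 hg.1 hy
      rw [fin2] at this
      omega
    · obtain ⟨y, hy, hy'⟩ := Finset.not_disjoint_iff.1 hg.2
      exact ⟨y, hy, (ini2 S g y).1 hy'⟩

lemma actP {c : Cnf ι K} (h : S.Ok c) {v : V} {g : Fin K} (hc : Crs (S.Z v) (c g).1)
    (ha : S.act v) : S.Z v ⊆ (S.fin g).1 := by
  obtain ⟨⟨x1, h1, a1⟩, ⟨x0, h0, a0⟩, hall⟩ := lvP h ha.1 hc
  obtain ⟨g0, ⟨hA, y, hy, hy'⟩ | ⟨hA, y, hy, hy'⟩⟩ := act_lv ha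
  · rcases lt_trichotomy g0 g with hl | rfl | hl
    · have := S.sep' _ _ hl; have := S.sep g0; have := hA x1 h1; omega
    · exact fun z hz => (fin1 S _ z).2 (hA z hz)
    · have := S.sep' _ _ hl; have := S.sep g; have := hall y hy; omega
  · rcases lt_trichotomy g0 g with hl | rfl | hl
    · have := S.sep' _ _ hl; have := hall y hy; omega
    · have := S.sep g0; have := hA x0 h0; omega
    · have := S.sep' _ _ hl; have := S.sep g; have := S.sep g0; have := hA x0 h0; omega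

lemma actR {c : Cnf ι K} (h : S.Ok c) {v : V} {g : Fin K} (hc : Crs (S.Z v) (c g).2)
    (ha : S.act v) : Disjoint (S.Z v) (S.fin g).2 := by
  obtain ⟨⟨x1, h1, a1⟩, ⟨x0, h0, a0⟩, hall⟩ := lvR h ha.1 hc
  obtain ⟨g0, ⟨hA, y, hy, hy'⟩ | ⟨hA, y, hy, hy'⟩⟩ := act_lv ha
  · rcases lt_trichotomy g0 g with hl | rfl | hl
    · have := S.sep' _ _ hl; have := S.sep g0; have := S.sep g; have := hA x1 h1; omega
    · have := S.sep g0; have := hA x1 h1; omega
    · have := S.sep' _ _ hl; have := hall y hy; omega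
  · rcases lt_trichotomy g0 g with hl | rfl | hl
    · have := S.sep' _ _ hl; have := S.sep g; have := hall y hy; omega
    · rw [Finset.disjoint_left]
      intro z hz hz'
      rw [fin2] at hz'
      have := hA z hz
      omega
    · have := S.sep' _ _ hl; have := S.sep g0; have := hA x0 h0; omega

lemma crP {c : Cnf ι K} (h : S.Ok c) {v : V} (hn : v ∈ S.near) {g : Fin K}
    (hc : Crs (S.Z v) (c g).1) : S.CrP c v g := by
  obtain ⟨-, -, hall⟩ := lvP h hn hc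
  have hsub : S.Z v ⊆ (c g).2 := fun y hy => by
    have := hall y hy; have := S.sep g; exact ok3 h (by omega)
  have hlt : ∀ g', g' < g → Disjoint (S.Z v) (c g').2 := fun g' hg => by
    rw [Finset.disjoint_left]
    intro y hy hy'
    have := hall y hy; have := ok4 h hy'; have := S.sep' _ _ hg; omega
  have hgt : ∀ g', g < g' → S.Z v ⊆ (c g').1 := fun g' hg => hsub.trans (ok_sub' h hg)
  refine ⟨hc, hsub, hlt, hgt, fun ha => ?_⟩
  funext g'
  by_cases hne : g' = g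
  · subst hne
    rw [Function.update_self]
    unfold Scn.mv
    rw [if_pos ⟨hc, actP h hc ha⟩, if_neg (fun hh => hh.1.1 hsub)]
  · rw [Function.update_of_ne hne, mv_other h hlt hgt hne]

lemma crR {c : Cnf ι K} (h : S.Ok c) {v : V} (hn : v ∈ S.near) {g : Fin K}
    (hc : Crs (S.Z v) (c g).2) : S.CrR c v g := by
  obtain ⟨-, -, hall⟩ := lvR h hn hc
  have hdis : Disjoint (S.Z v) (c g).1 := by
    rw [Finset.disjoint_left]
    intro y hy hy'
    have := hall y hy; have := ok2 h hy'; have := S.sep g; omega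
  have hlt : ∀ g', g' < g → Disjoint (S.Z v) (c g').2 := fun g' hg =>
    hdis.mono_right (ok_sub' h hg)
  have hgt : ∀ g', g < g' → S.Z v ⊆ (c g').1 := fun g' hg y hy => by
    have := hall y hy; have := S.sep' _ _ hg; exact ok1 h (by omega)
  refine ⟨hc, hdis, hlt, hgt, fun ha => ?_⟩
  funext g'
  by_cases hne : g' = g
  · subst hne
    rw [Function.update_self]
    unfold Scn.mv
    rw [if_neg (fun hh => hh.1.2 hdis), if_pos ⟨hc, actR h hc ha⟩]
  · rw [Function.update_of_ne hne, mv_other h hlt hgt hne]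

lemma cr_cases {c : Cnf ι K} (h : S.Ok c) {v : V} (hc : S.cr c v) :
    v ∈ S.near ∧ ∃ g, S.CrP c v g ∨ S.CrR c v g := by
  have hn := near_of_cr h hc
  obtain ⟨g, hg | hg⟩ := hc
  · exact ⟨hn, g, Or.inl (crP h hn hg)⟩
  · exact ⟨hn, g, Or.inr (crR h hn hg)⟩

lemma mv_eq {c : Cnf ι K} (h : S.Ok c) {v : V} (hv : ¬ (S.act v ∧ S.cr c v)) : S.mv c v = c := by
  funext g
  unfold Scn.mv
  rw [if_neg, if_neg]
  · intro hh
    have hc : S.cr c v := ⟨g, Or.inr hh.1⟩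
    exact hv ⟨⟨near_of_cr h hc, g, Or.inr ⟨hh.2, fun hd => hh.1.2 (hd.mono_right (h g).2.2.2)⟩⟩,
      hc⟩
  · intro hh
    have hc : S.cr c v := ⟨g, Or.inl hh.1⟩
    exact hv ⟨⟨near_of_cr h hc, g, Or.inl ⟨hh.2, fun hd => hh.1.1 (hd.trans (h g).1)⟩⟩, hc⟩

open Classical in
lemma card_act : (univ.filter S.act).card ≤ Na := by
  refine le_trans (Finset.card_le_card fun v hv => ?_) S.cnt
  have ha : S.act v := (Finset.mem_filter.1 hv).2
  rw [Finset.mem_filter]
  refine ⟨ha.1, ?_⟩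
  obtain ⟨g, ⟨hA, y, hy, hy'⟩ | ⟨hA, y, hy, hy'⟩⟩ := act_lv ha
  · have := hA y hy; have := S.sep g
    exact ⟨g, y, hy, hy', by omega⟩
  · have := hA y hy; have := S.sep g
    exact ⟨g, y, hy, by omega, hy'⟩

end geo

end Cb

end Crest.Agent.N336.C
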