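import Crest.Agent.N336.Eng.Defs
import Crest.Agent.N336.A.Defs
import Crest.Agent.N336.Q.Ent

/-!
# Row 336, CORE: frozen interface (helper50)

DAG: `RepStmt` (replica package, from `KStmt`, `GStmt`) ; `CombStmt` (scanner combinatorics) ;
`RigStmt` (rigidity, from `EngStmt`, `RepStmt`, `CombStmt`) ; `LscStmt` ; `AncStmt` (from
`RigStmt`, `LscStmt`) ; `StepStmt` (from `AncStmt`, `FFStmt`, `PatchStmt`) ; `CoreStmt` (from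
`StepStmt`, `SubStmt`).
-/

set_option autoImplicit false
set_option linter.unusedSectionVars false

open Matrix Finset
open scoped ComplexOrder MatrixOrder Matrix.Norms.L2Operator InnerProductSpace

namespace Crest.Agent.N336.C

open Crest.Agent.N336.Q Crest.Agent.N336.Eng

/-- exponential of a Hermitian matrix -/
noncomputable abbrev ee {n : Type} [Fintype n] [DecidableEq n] (A : Matrix n n ℂ) :
    Matrix n n ℂ := fr Real.exp A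

/-- unit sphere -/
abbrev Sph (n : Type) [Fintype n] : Type := Metric.sphere (0 : Q.Vec n) 1

section rep

variable {ι : Type} [Fintype ι] [DecidableEq ι]

/-- Replica data on the symmetric space (index type `I`): logarithms `lw b Q` of the metrics
(`b = true` numerator, `b = false` denominator), one-body operators `hh`, tensor powers `tp`,
coherent vectors `cv`, Toeplitz quantisation `T`. -/
structure Rp (d : ι → Type) [∀ x, Fintype (d x)] [∀ x, DecidableEq (d x)] (I : Type) [Fintype I]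
    [DecidableEq I] where
  k : ℕ
  lw : Bool → Finset ι → Matrix I I ℂ
  hh : Q.Op d →ₗ[ℂ] Matrix I I ℂ
  tp : Q.Op d → Matrix I I ℂ
  cv : Q.Vec (Cfg d) → Q.Vec I
  T : C(Sph (Cfg d), ℝ) →ₗ[ℝ] Matrix I I ℂ

variable {d : ι → Type} [∀ x, Fintype (d x)] [∀ x, DecidableEq (d x)] {I : Type} [Fintype I]
  [DecidableEq I]

/-- the exact (algebraic) properties of replica data -/
structure Rp.Alg (R : Rp d I) : Prop where
  k_pos : 1 ≤ R.k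
  herm : ∀ b A, (R.lw b A).IsHermitian
  comm : ∀ b b' A A', A ⊆ A' ∨ Disjoint A A' → Commute (R.lw b A) (R.lw b' A')
  comm_hh : ∀ b A Z h, Supp Z h → Z ⊆ A ∨ Disjoint Z A → Commute (R.lw b A) (R.hh h)
  comm_tp : ∀ b A Z O, Supp Z O → O.PosSemidef → Z ⊆ A ∨ Disjoint Z A →
    Commute (R.lw b A) (R.tp O)
  hh_pos : ∀ h : Q.Op d, h.PosSemidef → (R.hh h).PosSemidef
  hh_cv : ∀ (H : Q.Op d) (Ω : Q.Vec (Cfg d)) (E : ℂ), ap H Ω = E • Ω →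
    ap (R.hh H) (R.cv Ω) = E • R.cv Ω
  tp_cv : ∀ O χ, ap (R.tp O) (R.cv χ) = R.cv (ap O χ)
  tp_proj : ∀ O : Q.Op d, O.IsHermitian → O * O = O →
    (R.tp O).IsHermitian ∧ R.tp O * R.tp O = R.tp O
  cv_norm : ∀ χ, ‖χ‖ = 1 → ‖R.cv χ‖ = 1
  cv_smul : ∀ (c : ℂ) χ, R.cv (c • χ) = c ^ R.k • R.cv χ
  T_one : R.T 1 = 1
  T_mono : ∀ f g, f ≤ g → R.T f ≤ R.T g

/-- the term `h` conjugated by the metrics of the side `A` and of the buffer `Y` -/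
noncomputable def Rp.X (R : Rp d I) (A Y : Finset ι) (h : Q.Op d) : Matrix I I ℂ :=
  ee (-R.lw true A) * ee (R.lw false Y) * R.hh h * ee (-R.lw false Y) * ee (R.lw true A)

/-- the asymptotic properties of replica data, with slack `δ` -/
structure Rp.Asy (R : Rp d I) {V : Type} [Fintype V] (h : V → Q.Op d) (Z : V → Finset ι)
    (a : ℕ) (C J l s δ : ℝ) : Prop where
  bl : ∀ (M : Matrix I I ℂ) (g : C(Sph (Cfg d), ℝ)), M.PosDef →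
    (∀ χ : Sph (Cfg d), Real.log (qf (R.cv χ) M) ≤ R.k * g χ) →
    lg M ≤ (R.k : ℝ) • R.T g + (δ * R.k) • (1 : Matrix I I ℂ)
  mono : ∀ P y Y : Finset ι, Disjoint P y → Disjoint P Y → Disjoint y Y →
    ee ((2 : ℝ) • (R.lw true (P ∪ y) - R.lw false Y)) ≤
      Real.exp (δ * R.k) • ee ((2 : ℝ) • (R.lw true P - R.lw false (Y ∪ y)))
  compl : ∀ A : Finset ι,
    ee ((2 : ℝ) • R.lw true A) ≤ Real.exp (δ * R.k) • ee ((2 : ℝ) • R.lw true Aᶜ)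
  gain : ∀ P y Y : Finset ι, Disjoint P y → Disjoint P Y → Disjoint y Y →
    Real.log (dim d y) ≤ l → ∀ χ : Q.Vec (Cfg d), ‖χ‖ = 1 →
    ‖ap (ee (R.lw true (P ∪ y) - R.lw true P - R.lw false Y) * ee (R.lw false (Y ∪ y)))
        (R.cv χ)‖ ^ 2 ≤
      Real.exp (R.k * (-(2 * s * eta χ P y Y) + C * s ^ (1 + (1 : ℝ) / a) * l ^ a + δ))
  dfc : ∀ (v : V) (P y Y A : Finset ι), Disjoint P y → Disjoint P Y → Disjoint y Y → y ⊆ Z v →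
    Z v ⊆ P ∪ y → A = P ∨ A = Pᶜ → ‖h v‖ ≤ J → Real.log (dim d (Z v)) ≤ l →
    ∀ g : C(Sph (Cfg d), ℝ),
      (∀ χ : Sph (Cfg d), C * J * s ^ 2 * l ^ a * (eta χ.1 P y Y + δ) ^ ((1 : ℝ) / a) ≤ g χ) →
      ∃ W : Matrix I I ℂ, W.PosDef ∧
        (R.X A (Y ∪ y) (h v) - W)ᴴ * W⁻¹ * (R.X A (Y ∪ y) (h v) - W) ≤
          R.T g + δ • (1 : Matrix I I ℂ)
  up : ∀ b A (g : C(Sph (Cfg d), ℝ)), (∀ χ : Sph (Cfg d), -(s * SV χ.1 A) ≤ g χ) →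
    R.lw b A ≤ (R.k : ℝ) • R.T g + (δ * R.k) • (1 : Matrix I I ℂ)
  up' : ∀ b A (g : C(Sph (Cfg d), ℝ)), (∀ χ : Sph (Cfg d), s * SV χ.1 A ≤ g χ) →
    -R.lw b A ≤ (R.k : ℝ) • R.T g + (δ * R.k) • (1 : Matrix I I ℂ)
  lo : ∀ b A (χ : Q.Vec (Cfg d)), ‖χ‖ = 1 →
    |qf (R.cv χ) (R.lw b A) + s * R.k * SV χ A| ≤ δ * R.k
  en : ∀ g : C(Sph (Cfg d), ℝ), (∀ χ : Sph (Cfg d), g χ ≤ qf χ.1 (∑ v, h v)) →
    R.T g ≤ R.hh (∑ v, h v) + δ • (1 : Matrix I I ℂ)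

end rep

/-- the replica package -/
def RepStmt : Prop :=
  ∃ (a : ℕ) (C : ℝ), 1 ≤ a ∧ 1 ≤ C ∧ ∀ (ι : Type) [Fintype ι] [DecidableEq ι] (d : ι → Type)
    [∀ x, Fintype (d x)] [∀ x, DecidableEq (d x)] [∀ x, Nonempty (d x)] (V : Type) [Fintype V]
    (h : V → Q.Op d) (Z : V → Finset ι) (J l s δ : ℝ),
    (∀ v, (h v).PosSemidef ∧ Supp (Z v) (h v)) → 0 ≤ J → 1 ≤ l → 0 < s → C * l ^ a * s ≤ 1 →
    0 < δ → ∃ (I : Type) (_ : Fintype I) (_ : DecidableEq I) (R : Rp d I),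
      R.Alg ∧ R.Asy h Z a C J l s δ

section scan

/-- Geometry of the scanner: a level function, `K` bands `(a g, b g]`, fronts moving by at most
`w`, near terms of level spread at most `r`, far terms and the set `A₁` above all bands. -/
structure Scn (ι V : Type) [Fintype ι] [DecidableEq ι] [Fintype V] (K w r b₁ b₂ N₀ Na : ℕ) where
  lv : ι → ℤ
  A₁ : Finset ι
  Z : V → Finset ι
  near : Finset V
  a : Fin K → ℤ
  b : Fin K → ℤ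
  r_pos : 1 ≤ r
  sep : ∀ g, a g + w + r ≤ b g - w
  sep' : ∀ g g', g < g' → b g + r ≤ a g'
  far : ∀ v, v ∉ near → ∀ x ∈ Z v, ∀ g, b g < lv x
  top : ∀ x ∈ A₁, ∀ g, b g < lv x
  disj : ∀ v, Disjoint (Z v) A₁
  spread : ∀ v ∈ near, ∀ x ∈ Z v, ∀ y ∈ Z v, lv x ≤ lv y + r
  size : ∀ v ∈ near, (Z v).card ≤ b₁
  deg : ∀ x, (near.filter fun v => x ∈ Z v).card ≤ b₂
  lay : ∀ g, (univ.filter fun x => a g - r < lv x ∧ lv x ≤ a g).card ≤ N₀ ∧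
    (univ.filter fun x => b g < lv x ∧ lv x ≤ b g + r).card ≤ N₀
  cnt : (near.filter fun v => ∃ g, ∃ x ∈ Z v, a g < lv x ∧ lv x ≤ b g).card ≤ Na

variable {ι V : Type} [Fintype ι] [DecidableEq ι] [Fintype V] {K w r b₁ b₂ N₀ Na : ℕ}

/-- sublevel set -/
def Scn.sl (S : Scn ι V K w r b₁ b₂ N₀ Na) (k : ℤ) : Finset ι := univ.filter fun x => S.lv x ≤ k

/-- configurations: `(P g, R g)` with `R g = P g ∪ Y g` -/
abbrev Cnf (ι : Type) (K : ℕ) : Type := Fin K → Finset ι × Finset ι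

/-- initial configuration -/
def Scn.ini (S : Scn ι V K w r b₁ b₂ N₀ Na) : Cnf ι K := fun g => (S.sl (S.a g), S.sl (S.b g))

/-- final configuration -/
def Scn.fin (S : Scn ι V K w r b₁ b₂ N₀ Na) : Cnf ι K :=
  fun g => (S.sl (S.a g + w), S.sl (S.b g - w))

/-- valid configurations -/
def Scn.Ok (S : Scn ι V K w r b₁ b₂ N₀ Na) (c : Cnf ι K) : Prop :=
  ∀ g, (S.ini g).1 ⊆ (c g).1 ∧ (c g).1 ⊆ (S.fin g).1 ∧ (S.fin g).2 ⊆ (c g).2 ∧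
    (c g).2 ⊆ (S.ini g).2

/-- `Z` meets `A` and its complement -/
def Crs (Z A : Finset ι) : Prop := ¬ Z ⊆ A ∧ ¬ Disjoint Z A

instance (Z A : Finset ι) : Decidable (Crs Z A) := by unfold Crs; infer_instance

/-- the term `v` crosses a front of `c` -/
def Scn.cr (S : Scn ι V K w r b₁ b₂ N₀ Na) (c : Cnf ι K) (v : V) : Prop :=
  ∃ g, Crs (S.Z v) (c g).1 ∨ Crs (S.Z v) (c g).2

/-- active terms: inside the range of one front -/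
def Scn.act (S : Scn ι V K w r b₁ b₂ N₀ Na) (v : V) : Prop :=
  v ∈ S.near ∧ ∃ g, (S.Z v ⊆ (S.fin g).1 ∧ ¬ S.Z v ⊆ (S.ini g).1) ∨
    (Disjoint (S.Z v) (S.fin g).2 ∧ ¬ Disjoint (S.Z v) (S.ini g).2)

/-- the move: a crossing term inside the range of a front is absorbed by that front -/
def Scn.mv (S : Scn ι V K w r b₁ b₂ N₀ Na) (c : Cnf ι K) (v : V) : Cnf ι K := fun g =>
  (if Crs (S.Z v) (c g).1 ∧ S.Z v ⊆ (S.fin g).1 then (c g).1 ∪ S.Z v else (c g).1,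
    if Crs (S.Z v) (c g).2 ∧ Disjoint (S.Z v) (S.fin g).2 then (c g).2 \ S.Z v else (c g).2)

/-- `v` crosses only the front `P g` -/
def Scn.CrP (S : Scn ι V K w r b₁ b₂ N₀ Na) (c : Cnf ι K) (v : V) (g : Fin K) : Prop :=
  Crs (S.Z v) (c g).1 ∧ S.Z v ⊆ (c g).2 ∧
    (∀ g', g' < g → Disjoint (S.Z v) (c g').2) ∧ (∀ g', g < g' → S.Z v ⊆ (c g').1) ∧
    (S.act v → S.mv c v = Function.update c g ((c g).1 ∪ S.Z v, (c g).2))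

/-- `v` crosses only the front `R g` -/
def Scn.CrR (S : Scn ι V K w r b₁ b₂ N₀ Na) (c : Cnf ι K) (v : V) (g : Fin K) : Prop :=
  Crs (S.Z v) (c g).2 ∧ Disjoint (S.Z v) (c g).1 ∧
    (∀ g', g' < g → Disjoint (S.Z v) (c g').2) ∧ (∀ g', g < g' → S.Z v ⊆ (c g').1) ∧
    (S.act v → S.mv c v = Function.update c g ((c g).1, (c g).2 \ S.Z v))

/-- probability bound for the inactive terms -/
noncomputable def pin (K w r b₁ b₂ N₀ T₁ : ℕ) : ℝ :=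
  2 * K * N₀ * Real.exp (6 * b₁ * b₂ * T₁ + 1 - (w : ℝ) / r)

end scan

open Classical in
/-- combinatorics of the scanner -/
def CombStmt : Prop :=
  ∀ (ι V : Type) [Fintype ι] [DecidableEq ι] [Fintype V] [Nonempty V] (K w r b₁ b₂ N₀ Na : ℕ)
    (S : Scn ι V K w r b₁ b₂ N₀ Na),
    S.Ok S.ini ∧ S.Ok S.fin ∧ (∀ c v, S.Ok c → S.Ok (S.mv c v)) ∧
    (∀ c, S.Ok c → ∀ g, (c g).1 ⊆ (c g).2 ∧ Disjoint (c g).2 S.A₁ ∧
      ∀ g', g < g' → (c g).2 ⊆ (c g').1) ∧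
    (∀ c v, S.Ok c → S.cr c v → v ∈ S.near ∧ ∃ g, S.CrP c v g ∨ S.CrR c v g) ∧
    (∀ c v, S.Ok c → ¬ (S.act v ∧ S.cr c v) → S.mv c v = c) ∧
    (univ.filter S.act).card ≤ Na ∧
    ∀ T₁ : ℕ, 1 ≤ T₁ → ∀ v, ∀ t ≤ Fintype.card V * T₁,
      ex S.mv S.ini (Fintype.card V * T₁) t (fun c => if S.cr c v then 1 else 0) ≤
        if S.act v then (1 : ℝ) / T₁ else pin K w r b₁ b₂ N₀ T₁

section fn

variable {ι : Type} [Fintype ι] [DecidableEq ι] {d : ι → Type} [∀ x, Fintype (d x)]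
  [∀ x, DecidableEq (d x)]

/-- the entropy functional of a configuration -/
noncomputable def fn {K : ℕ} (A₁ : Finset ι) (c : Cnf ι K) (χ : Q.Vec (Cfg d)) : ℝ :=
  ∑ g, (SV χ (c g).1 + SV χ (c g).2 - SV χ ((c g).2 \ (c g).1) - 2 * SV χ A₁)

/-- mutual information -/
noncomputable def mi (χ : Q.Vec (Cfg d)) (A F : Finset ι) : ℝ := SV χ A + SV χ F - SV χ (A ∪ F)

/-- `Ω` is fixed up to `ε` by a projector on `X` of rank at most `exp ρ` -/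
def Low (Ω : Q.Vec (Cfg d)) (X : Finset ι) (ρ ε : ℝ) : Prop :=
  ∃ P : Q.Op (sub (sb X) d), P.IsHermitian ∧ P * P = P ∧ (trace P).re ≤ Real.exp ρ ∧
    ‖ap (lift X P) Ω - Ω‖ ≤ ε

end fn

/-- the energy bound of the rigidity theorem -/
noncomputable def enB (a : ℕ) (C J l s lam τ B E₀ p : ℝ) (Na NV T₁ : ℕ) : ℝ :=
  4 * E₀ + C * J * s ^ 2 * l ^ (2 * a) *
    (Na / (T₁ : ℝ) ^ 2 * (lam ^ ((1 : ℝ) / a) + lam ^ ((1 : ℝ) / a - 1) * s ^ ((1 : ℝ) / a) + τ) +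
      lam ^ ((1 : ℝ) / a - 1) * B / ((T₁ : ℝ) ^ 2 * τ) + NV * p ^ 2)

/-- rigidity -/
def RigStmt : Prop :=
  ∃ (a : ℕ) (C : ℝ), 1 ≤ a ∧ 1 ≤ C ∧ ∀ (ι : Type) [Fintype ι] [DecidableEq ι] (d : ι → Type)
    [∀ x, Fintype (d x)] [∀ x, DecidableEq (d x)] [∀ x, Nonempty (d x)] (V : Type) [Fintype V]
    [Nonempty V] (K w r b₁ b₂ N₀ Na T₁ : ℕ) (S : Scn ι V K w r b₁ b₂ N₀ Na) (h : V → Q.Op d)
    (J l s lam τ B E₀ α β : ℝ) (Ω : Q.Vec (Cfg d)) (O : Q.Op d) (ZO : Finset ι),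
    (∀ v, (h v).PosSemidef ∧ Supp (S.Z v) (h v)) →
    (∀ v ∈ S.near, ‖h v‖ ≤ J ∧ Real.log (dim d (S.Z v)) ≤ l) →
    0 ≤ J → 1 ≤ l → 0 < s → C * l ^ a * s ≤ 1 → 0 < lam → 0 < τ → τ ≤ 1 / 4 → 1 ≤ T₁ →
    ‖Ω‖ = 1 → ap (∑ v, h v) Ω = (E₀ : ℂ) • Ω → 0 ≤ β → 0 ≤ B →
    (∀ χ : Q.Vec (Cfg d), ‖χ‖ = 1 → α - β * qf χ (∑ v, h v) ≤ fn S.A₁ S.ini χ) →
    (∀ χ : Q.Vec (Cfg d), ‖χ‖ = 1 → -B ≤ fn S.A₁ S.ini χ) → fn S.A₁ S.fin Ω ≤ B →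
    O.IsHermitian → O * O = O → Supp ZO O → (∀ g, ZO ⊆ (S.ini g).1) → Disjoint ZO S.A₁ →
    ap O Ω ≠ 0 →
    α - β * enB a C J l s lam τ B E₀ (pin K w r b₁ b₂ N₀ T₁) Na (Fintype.card V) T₁ ≤
      fn S.A₁ S.fin (((‖ap O Ω‖⁻¹ : ℝ) : ℂ) • ap O Ω) - Real.log (‖ap O Ω‖ ^ 2) / s

/-- lower semicontinuity of the mutual information at a state of small rank on `A` -/
def LscStmt : Prop :=
  ∀ (ι : Type) [Fintype ι] [DecidableEq ι] (d : ι → Type) [∀ x, Fintype (d x)]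
    [∀ x, DecidableEq (d x)] [∀ x, Nonempty (d x)] (A F : Finset ι)
    (P : Q.Op (sub (sb A) d)) (ρ ε : ℝ) (χ χ' : Q.Vec (Cfg d)),
    Disjoint A F → P.IsHermitian → P * P = P → (trace P).re ≤ Real.exp ρ → 0 ≤ ρ →
    ‖χ‖ = 1 → ‖χ'‖ = 1 → ap (lift A P) χ' = χ' → ‖χ - χ'‖ ≤ ε →
    mi χ' A F - 20 * ε * ρ - 30 ≤ mi χ A F

/-- rigidity with the teleportation test (the ancillas are eliminated) -/
def AncStmt : Prop :=
  ∃ (a : ℕ) (C : ℝ), 1 ≤ a ∧ 1 ≤ C ∧ ∀ (ι : Type) [Fintype ι] [DecidableEq ι] (d : ι → Type)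
    [∀ x, Fintype (d x)] [∀ x, DecidableEq (d x)] [∀ x, Nonempty (d x)] (V : Type) [Fintype V]
    [Nonempty V] (K w r b₁ b₂ N₀ Na T₁ : ℕ) (S : Scn ι V K w r b₁ b₂ N₀ Na) (h : V → Q.Op d)
    (J l s lam τ E₀ Δ ε ρ z : ℝ) (Ω Ω' : Q.Vec (Cfg d)) (P₀ : Finset ι),
    (∀ v, (h v).PosSemidef ∧ Supp (S.Z v) (h v)) →
    (∀ v ∈ S.near, ‖h v‖ ≤ J ∧ Real.log (dim d (S.Z v)) ≤ l) →
    0 ≤ J → 1 ≤ l → 0 < s → C * l ^ a * s ≤ 1 → 0 < lam → 0 < τ → τ ≤ 1 / 4 → 1 ≤ T₁ →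
    A.Gap (∑ v, h v) Ω' E₀ Δ → 0 ≤ E₀ → 0 < Δ → ‖Ω‖ = 1 → ‖Ω' - Ω‖ ≤ ε → ε ≤ 1 / 10 → 1 ≤ ρ →
    ε * ρ ≤ 1 → 0 < z → (∀ g, P₀ ⊆ (S.ini g).1) → Low Ω P₀ ρ ε →
    (∀ g, Low Ω (S.ini g).1 ρ ε ∧ ε * Real.log (dim d (S.ini g).2) ≤ 1 ∧
      SV Ω (S.fin g).1 ≤ ρ) →
    ∑ g, mi Ω P₀ (S.fin g).2ᶜ ≤
      ∑ g, (mi Ω (S.fin g).1 (S.fin g).2ᶜ - mi Ω (S.ini g).1 (S.ini g).2ᶜ) +
        C * K * (z * ρ + 1) + C * ρ / s + C * K * ρ / (Δ * z) *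
          enB a C J l s lam τ (C * K * ρ) E₀ (pin K w r b₁ b₂ N₀ T₁) Na (Fintype.card V) T₁

/-- one step: an entropy budget for the sublevel sets gives a better bound for the mutual
information across the shell -/
def StepStmt : Prop :=
  ∀ (q R : ℕ) (J Δ η : ℝ), 1 ≤ q → 0 < J → 0 < Δ → 0 < η → η ≤ 1 →
    ∃ c C : ℝ, 0 < c ∧ c ≤ 1 / 2 ∧ 0 < C ∧
    ∀ (Λ : Type) [Fintype Λ] [DecidableEq Λ] (s : Sys q R J Δ Λ) (n m : ℕ) (ch : Chart s n m)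
      (B : ℝ), 1 ≤ n → (n : ℝ) ^ (1 - c) ≤ m → (n : ℝ) ≤ B → B ≤ (n : ℝ) ^ (2 - η) →
      (∀ k : ℤ, 0 ≤ k → k ≤ m → S s.Ω (ch.P k) ≤ B) →
      MI s.Ω (ch.P 0) (ch.P m)ᶜ ≤ C * (n : ℝ) ^ (-c) * B

end Crest.Agent.N336.C
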