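import Crest.Agent.N336.C.Defs

/-!
# Row 336, CORE: arithmetic of the instantiation (helper17)
-/

set_option autoImplicit false

namespace Crest.Agent.N336.C

theorem pin_nonneg (K w r b₁ b₂ N₀ T : ℕ) : 0 ≤ pin K w r b₁ b₂ N₀ T := by unfold pin; positivity

theorem pin_le {u K N₀ T : ℕ} (hu : 1000 ≤ u) (hT : 1 ≤ T) :
    pin K (2 * u ^ 6 * T) (2 * u) (9 * u ^ 2) (9 * u ^ 2) N₀ T ≤ 2 * K * N₀ * Real.exp (-u) := by
  unfold pin
  have hx : (1000 : ℝ) ≤ u := by exact_mod_cast hu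
  have hT' : (1 : ℝ) ≤ T := by exact_mod_cast hT
  gcongr
  push_cast
  have e : (2 * (u : ℝ) ^ 6 * T) / (2 * u) = u * (u ^ 4 * T) := by field_simp
  have h1 : (u : ℝ) ≤ u ^ 4 * T :=
    (le_self_pow₀ (by linarith) (by norm_num)).trans (le_mul_of_one_le_right (by positivity) hT')
  rw [e]
  nlinarith

set_option maxHeartbeats 1000000 in
/-- The energy bound for the chosen parameters. -/
theorem enB_le {a p G u K n T NV : ℕ} {C J C₃ B E τ lam s : ℝ} (ha : 1 ≤ a) (hp : p = 6 * a + 24)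
    (hG : G = 6 * a + p * a + p * a * a + 25) (hτ : τ = ((u : ℝ) ^ p)⁻¹) (hlam : lam = τ ^ a)
    (hs : s = lam ^ a) (hK : K = u ^ (p * a * a + 1)) (hC : 1 ≤ C) (hJ : 1 ≤ J) (hC₃ : 1 ≤ C₃)
    (hu : 1000 ≤ u) (hD : 32 * C * C * J * C₃ ≤ u) (hT : 1 ≤ T) (hnT : n ≤ u ^ 9 * K * T)
    (hB0 : 0 ≤ B) (hB : B * (u : ℝ) ^ G ≤ (n : ℝ) ^ 2) (hun : u ^ G ≤ n) (hNV : NV ≤ n ^ 2 + 1)
    (hexp : (n : ℝ) ^ 6 ≤ Real.exp u) (hE : E ≤ (((n : ℝ) ^ 3)⁻¹) ^ 2) :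
    enB a C J ((u : ℝ) ^ 3) s lam τ (C * K * (C₃ * B)) E
      (pin K (2 * u ^ 6 * T) (2 * u) (9 * u ^ 2) (9 * u ^ 2) (2 * u * n) T) (n ^ 2) NV T ≤
      4 / (u : ℝ) ^ 3 := by
  have hpin := pin_le (K := K) (N₀ := 2 * u * n) hu hT
  have hpin0 := pin_nonneg K (2 * u ^ 6 * T) (2 * u) (9 * u ^ 2) (9 * u ^ 2) (2 * u * n) T
  generalize pin K (2 * u ^ 6 * T) (2 * u) (9 * u ^ 2) (9 * u ^ 2) (2 * u * n) T = P at hpin hpin0
  have hKx : (K : ℝ) = (u : ℝ) ^ (p * a * a + 1) := by rw [hK]; push_cast; rfl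
  have hnT' : (n : ℝ) ≤ (u : ℝ) ^ 9 * K * T := by exact_mod_cast hnT
  have hun' : (u : ℝ) ^ G ≤ n := by exact_mod_cast hun
  have hNV' : (NV : ℝ) ≤ (n : ℝ) ^ 2 + 1 := by exact_mod_cast hNV
  have hT' : (1 : ℝ) ≤ T := by exact_mod_cast hT
  have hx : (1000 : ℝ) ≤ u := by exact_mod_cast hu
  push_cast at hpin
  generalize (u : ℝ) = x at *
  have hx0 : 0 < x := by linarith
  have hx1 : 1 ≤ x := by linarith
  have hτ0 : 0 < τ := by rw [hτ]; positivity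
  have hl0 : 0 < lam := by rw [hlam]; positivity
  have hK0 : (0 : ℝ) < K := by rw [hKx]; positivity
  have hn1 : (1 : ℝ) ≤ n := (one_le_pow₀ hx1).trans hun'
  have ha0 : a ≠ 0 := by omega
  have r1 : lam ^ ((1 : ℝ) / a) = τ := by
    rw [hlam, one_div, Real.pow_rpow_inv_natCast hτ0.le ha0]
  have r2 : s ^ ((1 : ℝ) / a) = lam := by
    rw [hs, one_div, Real.pow_rpow_inv_natCast hl0.le ha0]
  have r3 : lam ^ ((1 : ℝ) / a - 1) = τ / lam := by rw [Real.rpow_sub_one hl0.ne', r1]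
  have hsK : s * K = x := by
    rw [hs, hlam, hτ, hKx, inv_pow, inv_pow, ← pow_mul, ← pow_mul, pow_succ, ← mul_assoc p]
    field_simp
  have hs0 : 0 < s := by rw [hs]; positivity
  have hq : (n : ℝ) ^ 2 / T ^ 2 ≤ x ^ 18 * K ^ 2 := by
    rw [div_le_iff₀ (by positivity)]
    calc _ ≤ (x ^ 9 * K * T) ^ 2 := by gcongr
      _ = _ := by ring
  have hCJ : 1 ≤ C * J := one_le_mul_of_one_le_of_one_le hC hJ
  have hCC : 1 ≤ C * C₃ := one_le_mul_of_one_le_of_one_le hC hC₃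
  have hD0 : C * J * (C * C₃) * 32 ≤ x := by linarith [show C * J * (C * C₃) * 32 = 32 * C * C * J * C₃ by ring]
  have hD1 : 32 * (C * J) ≤ x := by
    linarith [le_mul_of_one_le_right (by linarith : 0 ≤ C * J) hCC]
  have hD2 : C * J * (C * C₃) ≤ x := by
    linarith [one_le_mul_of_one_le_of_one_le hCJ hCC]
  have l1 : (x ^ 3) ^ (2 * a) = x ^ (6 * a) := by rw [← pow_mul]; congr 1; ring
  have t0 : 4 * E ≤ 1 / x ^ 3 := by
    have h1 : x ^ 4 ≤ n := (pow_le_pow_right₀ hx1 (by omega)).trans hun'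
    have h2 : (n : ℝ) ≤ (n ^ 3) ^ 2 := by
      rw [← pow_mul]; exact le_self_pow₀ hn1 (by norm_num)
    rw [inv_pow] at hE
    have h3 : (((n : ℝ) ^ 3) ^ 2)⁻¹ ≤ (x ^ 4)⁻¹ := inv_anti₀ (by positivity) (h1.trans h2)
    calc 4 * E ≤ 4 * (x ^ 4)⁻¹ := by linarith
      _ ≤ x * (x ^ 4)⁻¹ := by gcongr; linarith
      _ = _ := by field_simp
  have t1 : C * J * s ^ 2 * x ^ (6 * a) * ((n : ℝ) ^ 2 / T ^ 2 * (3 * τ)) ≤ 1 / x ^ 3 := by
    calc _ ≤ C * J * s ^ 2 * x ^ (6 * a) * (x ^ 18 * K ^ 2 * (3 * τ)) := by gcongr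
      _ = 3 * (C * J) * (s * K) ^ 2 * (x ^ (6 * a) * x ^ 18 * τ) := by ring
      _ = 3 * (C * J) / x ^ 4 := by rw [hsK, hτ, hp, pow_add]; field_simp
      _ ≤ x / x ^ 4 := by gcongr; linarith
      _ = _ := by field_simp
  have t2 : C * J * s ^ 2 * x ^ (6 * a) * (τ / lam * (C * K * (C₃ * B)) / (T ^ 2 * τ)) ≤
      1 / x ^ 3 := by
    have hB' : B / T ^ 2 ≤ x ^ 18 * K ^ 2 / x ^ G := by
      rw [le_div_iff₀ (by positivity), div_mul_eq_mul_div]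
      exact le_trans (by gcongr) hq
    calc _ = C * J * (C * C₃) * s ^ 2 * x ^ (6 * a) * (K / lam) * (B / T ^ 2) := by field_simp
      _ ≤ C * J * (C * C₃) * s ^ 2 * x ^ (6 * a) * (K / lam) * (x ^ 18 * K ^ 2 / x ^ G) := by
          gcongr
      _ = C * J * (C * C₃) * (s * K) ^ 2 * (x ^ (6 * a) * x ^ 18 * K / lam / x ^ G) := by ring
      _ = C * J * (C * C₃) / x ^ 4 := by
          rw [hsK, hKx, hlam, hτ, hG, inv_pow, ← pow_mul]
          simp only [pow_add]; field_simp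
      _ ≤ x / x ^ 4 := by gcongr
      _ = _ := by field_simp
  have t3 : C * J * s ^ 2 * x ^ (6 * a) * (NV * P ^ 2) ≤ 1 / x ^ 3 := by
    have h1 : x ^ (6 * a + 8) ≤ n := (pow_le_pow_right₀ hx1 (by omega)).trans hun'
    have h2 : (NV : ℝ) ≤ 2 * n ^ 2 := by linarith [one_le_pow₀ (n := 2) hn1]
    have h3 : Real.exp (-x) ≤ ((n : ℝ) ^ 6)⁻¹ := by
      rw [Real.exp_neg]; exact inv_anti₀ (by positivity) hexp
    calc _ ≤ C * J * s ^ 2 * x ^ (6 * a) * (2 * n ^ 2 * (2 * K * (2 * x * n) * ((n : ℝ) ^ 6)⁻¹) ^ 2) := by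
          gcongr; exact hpin.trans (by gcongr)
      _ = 32 * (C * J) * (s * K) ^ 2 * x ^ (6 * a) * x ^ 2 / n ^ 8 := by field_simp; ring
      _ ≤ x * x ^ 2 * x ^ (6 * a) * x ^ 2 / n := by
          rw [hsK]; gcongr; exact le_self_pow₀ hn1 (by norm_num)
      _ ≤ x * x ^ 2 * x ^ (6 * a) * x ^ 2 / x ^ (6 * a + 8) := by gcongr
      _ = _ := by rw [pow_add]; field_simp
  unfold enB
  rw [r1, r2, r3, l1, div_mul_cancel₀ _ hl0.ne']
  push_cast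
  have e : (4 : ℝ) / x ^ 3 = 1 / x ^ 3 + (1 / x ^ 3 + 1 / x ^ 3 + 1 / x ^ 3) := by ring
  rw [e, mul_add, mul_add, show τ + τ + τ = 3 * τ by ring]
  linarith

end Crest.Agent.N336.C
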