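import Crest.Agent.N336.C.Defs
import Crest.Agent.N336.A.Geo
import Crest.Agent.N336.TB
import Crest.Agent.N336.Area.Step
import Crest.Agent.N336.Q.EntMain

/-!
# Row 336, CORE: geometry of the instantiation (helper17)
-/

set_option autoImplicit false
set_option linter.unusedSectionVars false

open Matrix Finset
open scoped ComplexOrder MatrixOrder Matrix.Norms.L2Operator InnerProductSpace

namespace Crest.Agent.N336.C

open Crest.Agent.N336.Q Crest.Agent.N336.Eng Crest.Agent.N336.A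

variable {q R : ℕ} {J Δ : ℝ} {Λ : Type} [Fintype Λ] [DecidableEq Λ] {s : Sys q R J Δ Λ} {n m : ℕ}

/-- the level function of a chart -/
noncomputable def lvl (c : Chart s n m) (x : Λ) : ℤ :=
  if x ∈ c.P m then c.ψ (s.pos x) else m + 1

lemma lvl_le_iff (c : Chart s n m) {k : ℤ} (hk : k ≤ m) {x : Λ} : lvl c x ≤ k ↔ x ∈ c.P k := by
  unfold lvl
  split_ifs with h
  · rw [c.mem_P] at h ⊢; simp [h.1]
  · exact ⟨fun h' => by omega, fun h' => absurd (c.P_mono hk h') h⟩

lemma lvl_le (c : Chart s n m) (x : Λ) : lvl c x ≤ m + 1 := by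
  unfold lvl
  split_ifs with h
  · have := (c.mem_P.1 h).2; omega
  · rfl

lemma lvl_ball (c : Chart s n m) {x y : Λ} {j : ℕ} (h : y ∈ ball s x j) :
    lvl c y ≤ lvl c x + j := by
  have := lvl_le c y
  by_cases h1 : lvl c x + j ≤ m
  · exact (lvl_le_iff c h1).2
      (c.edist_mem (by omega) ((lvl_le_iff c (by omega)).1 le_rfl) (mem_ball.1 h))
  · omega

lemma card_level (c : Chart s n m) {k : ℤ} (h0 : 0 ≤ k) (hk : k ≤ m) :
    (univ.filter fun x => lvl c x = k).card ≤ n := by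
  rw [← card_image_of_injective _ s.inj]
  refine c.lev k h0 hk _ fun z hz => ?_
  obtain ⟨x, hx, rfl⟩ := mem_image.1 hz
  have h := (mem_filter.1 hx).2
  unfold lvl at h
  split_ifs at h
  · exact h
  · omega

lemma card_layer (c : Chart s n m) {a b : ℤ} {r : ℕ} (h0 : 0 ≤ a) (hb : b ≤ m) (h : b ≤ a + r) :
    (univ.filter fun x => a < lvl c x ∧ lvl c x ≤ b).card ≤ r * n := by
  refine (card_le_card (t := (Ioc a b).biUnion fun k => univ.filter fun x => lvl c x = k)
    fun x hx => ?_).trans ((card_biUnion_le_card_mul _ _ n fun k hk => ?_).trans ?_)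
  · simpa using hx
  · rw [mem_Ioc] at hk; exact card_level c (by omega) (by omega)
  · rw [Int.card_Ioc]; gcongr; omega

lemma cross_le (c : Chart s n m) {k : ℤ} (h0 : 0 ≤ k) (hk : k + R ≤ m) :
    s.cross (c.P k) ≤ R * 2 ^ ((2 * R + 1) ^ 2) * n := by
  unfold Sys.cross
  refine (card_le_card (t := (univ.filter fun x => k < lvl c x ∧ lvl c x ≤ k + R).biUnion
    fun y => (ball s y R).powerset) fun X hX => ?_).trans
    ((card_biUnion_le_card_mul _ _ (2 ^ ((2 * R + 1) ^ 2)) fun y _ => ?_).trans ?_)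
  · obtain ⟨h, ⟨x, hx, hx'⟩, y, hy, hy'⟩ := (mem_filter.1 hX).2
    rw [← lvl_le_iff c (by omega)] at hx' hy'
    have := lvl_ball c (sub_ball h hx hy)
    exact mem_biUnion.2 ⟨y, mem_filter.2 ⟨mem_univ _, by omega, by omega⟩,
      mem_powerset.2 (sub_ball h hy)⟩
  · rw [card_powerset]
    exact Nat.pow_le_pow_right two_pos (card_ball_le s y R)
  · rw [mul_right_comm]
    exact Nat.mul_le_mul_right _ (card_layer c h0 hk le_rfl)

/-- the supports of the terms -/
noncomputable def zz (s : Sys q R J Δ Λ) (N : Finset Λ) (u : ℕ) : Option N → Finset Λ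
  | none => nbhd s Nᶜ u
  | some v => ball s v u

lemma card_near (N : Finset Λ) : ((univ : Finset (Option N)).erase none).card = N.card := by
  simp [card_erase_of_mem]

/-- the scanner geometry of a chart -/
noncomputable def scn (c : Chart s n m) (u K w : ℕ) (a b : Fin K → ℤ) (hu : 1 ≤ u)
    (h1 : ∀ g, a g + w + (2 * u : ℕ) ≤ b g - w)
    (h2 : ∀ g g', g < g' → b g + (2 * u : ℕ) ≤ a g')
    (h3 : ∀ g, ((2 * u : ℕ) : ℤ) ≤ a g) (h4 : ∀ g, b g + (2 * u : ℕ) ≤ m) :
    Scn Λ (Option (c.P (m - u))) K w (2 * u) (9 * u ^ 2) (9 * u ^ 2) (2 * u * n) (n ^ 2) where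
  lv := lvl c
  A₁ := ∅
  Z := zz s (c.P (m - u)) u
  near := univ.erase none
  a := a
  b := b
  r_pos := by omega
  sep := h1
  sep' := h2
  far v hv x hx g := by
    obtain rfl : v = none := by simpa using hv
    obtain ⟨y, hy, hx⟩ := mem_nbhd.1 hx
    rw [mem_compl, ← lvl_le_iff c (by omega)] at hy
    have := lvl_ball c (ball_symm hx)
    have := h4 g
    omega
  top x hx := by simp at hx
  disj v := disjoint_empty_right _
  spread v hv x hx y hy := by
    obtain _ | v := v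
    · simp at hv
    · have := lvl_ball c (ball_trans (ball_symm hy) hx)
      omega
  size v hv := by
    obtain _ | v := v
    · simp at hv
    · exact (card_ball_le s _ u).trans (by nlinarith)
  deg x := by
    refine le_trans (card_le_card_of_injOn (t := ball s x u) (fun o => o.elim x (·.1))
      (fun v hv => ?_) fun v hv v' hv' h => ?_) ((card_ball_le s _ u).trans (by nlinarith))
    · obtain _ | v := v
      · simp at hv
      · exact ball_symm (mem_filter.1 hv).2
    · obtain _ | v := v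
      · simp at hv
      obtain _ | v' := v'
      · simp at hv'
      exact congrArg some (Subtype.ext h)
  lay g := by
    have := h1 g; have := h3 g; have := h4 g
    exact ⟨card_layer c (by omega) (by omega) (by omega), card_layer c (by omega) (h4 g) le_rfl⟩
  cnt := (card_filter_le _ _).trans ((card_near _).trans_le (c.card_P (by omega)))

lemma scn_sl (c : Chart s n m) {u K w : ℕ} {a b : Fin K → ℤ} {hu h1 h2 h3 h4} {k : ℤ}
    (hk : k ≤ m) : (scn c u K w a b hu h1 h2 h3 h4).sl k = c.P k := by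
  ext x
  rw [Scn.sl, mem_filter, ← lvl_le_iff c hk]
  exact ⟨fun h => h.2, fun h => ⟨mem_univ _, h⟩⟩

lemma SV_eq_S (Ω : N336.Vec Λ q) (A : Finset Λ) : SV (d := fun _ => Fin q) Ω A = S Ω A :=
  (S_eq Ω A).symm

lemma mi_eq_MI (Ω : N336.Vec Λ q) (A F : Finset Λ) : mi (d := fun _ => Fin q) Ω A F = MI Ω A F := by
  simp only [mi, MI, SV_eq_S]

lemma log_dim_eq (A : Finset Λ) :
    Real.log (dim (fun _ : Λ => Fin q) A) = A.card * Real.log q := by
  rw [dim_const, Fintype.card_fin, Nat.cast_pow, Real.log_pow]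

lemma MI_nonneg' (hE : EntStmt) {Ω : N336.Vec Λ q} (h : ‖Ω‖ = 1) (A F : Finset Λ) :
    0 ≤ MI Ω A F := by
  obtain ⟨-, h2, h3, -⟩ := hE q Λ Ω h
  have := h3 A F
  have := (h2 (A ∩ F)).1
  unfold MI; linarith

lemma MI_le_two (hE : EntStmt) {Ω : N336.Vec Λ q} (h : ‖Ω‖ = 1) {A A' : Finset Λ} (hA : A ⊆ A') :
    MI Ω A A'ᶜ ≤ 2 * S Ω A := by
  obtain ⟨h1, h2, h3, -⟩ := hE q Λ Ω h
  refine (Area.MI_mono_right h3 (compl_subset_compl.2 hA) disjoint_compl_right).trans ?_
  have := (h2 (A ∪ Aᶜ)).1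
  unfold MI; rw [h1]; linarith

/-- the output of the patch lemma with one region is a projector of small rank -/
lemma low_of_patch [NeZero q] {Ω : N336.Vec Λ q} {X : Finset Λ} {B : ℕ}
    (a : Fin B → (X → Fin q) → ℂ) (h1 : ∀ α, ∑ σ, ‖a α σ‖ ^ 2 = 1)
    (h2 : ∀ α β, α ≠ β → rk1 X (a α) (a α) * rk1 X (a β) (a β) = 0) {ρ ε : ℝ}
    (hB : (B : ℝ) ≤ Real.exp ρ) (h3 : ‖act (∑ α, rk1 X (a α) (a α)) Ω - Ω‖ ≤ ε) :
    Low (d := fun _ => Fin q) Ω X ρ ε := by
  let v : Fin B → Q.Vec (Cfg (sub (sb X) fun _ : Λ => Fin q)) := fun α => WithLp.toLp 2 (a α)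
  have hv : ∀ α, ‖v α‖ ^ 2 = 1 := fun α => by rw [EuclideanSpace.norm_sq_eq]; exact h1 α
  have e : ∀ α, rk1 X (a α) (a α) = lift (d := fun _ => Fin q) X (pj (v α)) := fun α =>
    localOp_eq X _
  refine ⟨∑ α, pj (v α), isSelfAdjoint_sum univ fun α _ => (pj_isHermitian _).isSelfAdjoint,
    ?_, ?_, ?_⟩
  · rw [sum_mul]
    refine sum_congr rfl fun α _ => ?_
    rw [mul_sum, sum_eq_single α (fun β _ hβ => ?_) (by simp)]
    · rw [mul_kb, ap_kb, inner_self_eq_norm_sq_to_K, ← RCLike.ofReal_pow, hv]; simp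
    · refine emb_injective (d := fun _ => Fin q) (sb X) ?_
      rw [map_mul, map_zero, ← e, ← e]
      exact h2 α β (Ne.symm hβ)
  · simpa [trace_sum, trace_pj, hv] using hB
  · rw [map_sum]
    simp only [← e]
    exact h3

lemma exists_step_le {f : ℕ → ℝ} {u : ℕ} {M : ℝ} (hu : 1 ≤ u) (h0 : 0 ≤ f 0) (h1 : f u ≤ M) :
    ∃ j < u, f (j + 1) - f j ≤ M / u := by
  have hu' : (0 : ℝ) < u := by exact_mod_cast hu
  obtain ⟨j, hj, h⟩ := exists_le_of_sum_le (s := range u) (f := fun j => f (j + 1) - f j)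
    (g := fun _ => M / u) ⟨0, mem_range.2 hu⟩ (by
      rw [sum_range_sub, sum_const, card_range, nsmul_eq_mul, mul_div_cancel₀ _ hu'.ne']
      linarith)
  exact ⟨j, mem_range.1 hj, h⟩

end Crest.Agent.N336.C
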