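import Crest.Agent.N336.C.Defs

/-!
# Row 336, CORE: the choice of the parameters of one step (helper61)
-/

set_option autoImplicit false
set_option maxHeartbeats 400000

open Filter

namespace Crest.Agent.N336.C

namespace Ar

theorem div_lb (M e D : ℕ) {X D' : ℝ} (hD : 0 < D) (hD' : (D : ℝ) ≤ D') (hX : X ≤ M)
    (he : 4 * (e : ℝ) ≤ X) (h4 : 4 * D' ≤ X) : X / (2 * D') ≤ ((M - e) / D : ℕ) := by
  have hD0 : (0 : ℝ) < D := Nat.cast_pos.2 hD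
  have he0 : (0 : ℝ) ≤ e := Nat.cast_nonneg e
  have heM : e ≤ M := by exact_mod_cast (show (e : ℝ) ≤ M by linarith)
  have h1 : ((M - e : ℕ) : ℝ) < (((M - e) / D : ℕ) + 1) * D := by
    have := Nat.lt_mul_div_succ (M - e) hD
    rw [mul_comm] at this
    exact_mod_cast this
  rw [Nat.cast_sub heM] at h1
  have h2 : (0 : ℝ) ≤ ((M - e) / D : ℕ) := Nat.cast_nonneg _
  rw [div_le_iff₀ (by linarith)]
  nlinarith [mul_le_mul_of_nonneg_left hD' (show (0 : ℝ) ≤ ((M - e) / D : ℕ) + 1 by linarith)]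

theorem ev_log (M : ℝ) {δ : ℝ} (hδ : 0 < δ) :
    ∀ᶠ x : ℝ in atTop, M * Real.log x ^ 2 ≤ x ^ δ := by
  have h := (isLittleO_log_rpow_rpow_atTop (2 : ℝ) hδ).const_mul_left M
  filter_upwards [h.bound one_pos, eventually_ge_atTop 0] with x hx h0
  rw [one_mul, Real.norm_of_nonneg (Real.rpow_nonneg h0 _), Real.rpow_two] at hx
  exact (le_abs_self _).trans hx

/-- the energy bound -/
theorem enB_le {a : ℕ} (ha : 1 ≤ a) {C J l x u y E₀ p ρ' : ℝ} {Na NV T₁ : ℕ} (hy : 100 ≤ y)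
    (hu : u = y ^ (2 * a + 20)) (hx : u ^ (50 * a ^ 2) ≤ x) (hC : C ≤ y)
    (hJ0 : 0 ≤ J) (hJ : J ≤ y) (hl0 : 0 ≤ l) (hl : l ≤ y) (hE : E₀ ≤ (x ^ 10)⁻¹ ^ 2)
    (hT : x / (u ^ (16 * a ^ 2 + 3) * y ^ 4) ≤ T₁) (hNa : (Na : ℝ) ≤ 3 * x ^ 2 / u)
    (hNV : (NV : ℝ) ≤ 2 * x ^ 2) (hp0 : 0 ≤ p) (hp : p ≤ 6 / x ^ 3) (hρ0 : 0 ≤ ρ')
    (hρ : ρ' ≤ y ^ 3 * u ^ (16 * a ^ 2 + 1) * x ^ 2 / u ^ (50 * a ^ 2)) :
    enB a C J l (u ^ (16 * a ^ 2))⁻¹ (u ^ (8 * a))⁻¹ (u ^ 8)⁻¹ ρ' E₀ p Na NV T₁ ≤ (u ^ 2)⁻¹ := by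
  have hy1 : 1 ≤ y := by linarith
  have hy0 : 0 < y := by linarith
  have hyu : y ≤ u := hu ▸ le_self_pow₀ hy1 (by omega)
  have hu1 : 1 ≤ u := hy1.trans hyu
  have hu0 : 0 < u := by linarith
  have ha2 : 1 ≤ a ^ 2 := Nat.one_le_pow _ _ ha
  have hux : u ^ 3 ≤ x := (pow_le_pow_right₀ hu1 (by omega)).trans hx
  have hx1 : 1 ≤ x := (one_le_pow₀ hu1).trans hux
  have hx0 : 0 < x := by linarith
  have ha0 : (a : ℝ) ≠ 0 := Nat.cast_ne_zero.2 (by omega)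
  have e1 : (u ^ (8 * a))⁻¹ ^ ((1 : ℝ) / a) = (u ^ 8)⁻¹ := by
    rw [pow_mul, ← inv_pow, one_div, Real.pow_rpow_inv_natCast (by positivity) (by omega)]
  have e2 : (u ^ (16 * a ^ 2))⁻¹ ^ ((1 : ℝ) / a) = (u ^ (16 * a))⁻¹ := by
    rw [show 16 * a ^ 2 = 16 * a * a by ring, pow_mul, ← inv_pow, one_div,
      Real.pow_rpow_inv_natCast (by positivity) (by omega)]
  have e3 : (u ^ (8 * a))⁻¹ ^ ((1 : ℝ) / a - 1) = (u ^ 8)⁻¹ * u ^ (8 * a) := by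
    rw [Real.rpow_sub_one (by positivity), e1, div_inv_eq_mul]
  have hT0 : 0 < x / (u ^ (16 * a ^ 2 + 3) * y ^ 4) := by positivity
  have hT1 : (0 : ℝ) < T₁ := hT0.trans_le hT
  have k0 : ((u ^ (16 * a ^ 2))⁻¹) ^ 2 / (T₁ : ℝ) ^ 2 ≤ u ^ 6 * y ^ 8 / x ^ 2 := by
    refine (div_le_div_of_nonneg_left (by positivity) (by positivity)
      (pow_le_pow_left₀ hT0.le hT 2)).trans (le_of_eq ?_)
    field_simp
    ring
  have k1 : (u ^ 8)⁻¹ + (u ^ 8)⁻¹ * u ^ (8 * a) * (u ^ (16 * a))⁻¹ + (u ^ 8)⁻¹ ≤ 3 * (u ^ 8)⁻¹ := by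
    have : u ^ (8 * a) * (u ^ (16 * a))⁻¹ ≤ 1 := by
      rw [← div_eq_mul_inv, div_le_one (by positivity)]
      exact pow_le_pow_right₀ hu1 (by omega)
    have h0 : 0 ≤ (u ^ 8)⁻¹ := by positivity
    nlinarith
  have t1 : ((u ^ (16 * a ^ 2))⁻¹) ^ 2 * (Na / (T₁ : ℝ) ^ 2 *
      ((u ^ 8)⁻¹ + (u ^ 8)⁻¹ * u ^ (8 * a) * (u ^ (16 * a))⁻¹ + (u ^ 8)⁻¹)) ≤
        9 * y ^ 8 / u ^ 3 := by
    calc _ = ((u ^ (16 * a ^ 2))⁻¹) ^ 2 / (T₁ : ℝ) ^ 2 * Na *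
          ((u ^ 8)⁻¹ + (u ^ 8)⁻¹ * u ^ (8 * a) * (u ^ (16 * a))⁻¹ + (u ^ 8)⁻¹) := by ring
      _ ≤ u ^ 6 * y ^ 8 / x ^ 2 * (3 * x ^ 2 / u) * (3 * (u ^ 8)⁻¹) := by gcongr
      _ = _ := by field_simp; ring
  have t2 : ((u ^ (16 * a ^ 2))⁻¹) ^ 2 *
      ((u ^ 8)⁻¹ * u ^ (8 * a) * ρ' / ((T₁ : ℝ) ^ 2 * (u ^ 8)⁻¹)) ≤ y ^ 11 / u ^ 3 := by
    have h1 : u ^ (16 * a ^ 2 + 8 * a + 10) ≤ u ^ (50 * a ^ 2) :=
      pow_le_pow_right₀ hu1 (by nlinarith)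
    calc _ = ((u ^ (16 * a ^ 2))⁻¹) ^ 2 / (T₁ : ℝ) ^ 2 * u ^ (8 * a) * ρ' := by field_simp
      _ ≤ u ^ 6 * y ^ 8 / x ^ 2 * u ^ (8 * a) *
          (y ^ 3 * u ^ (16 * a ^ 2 + 1) * x ^ 2 / u ^ (50 * a ^ 2)) := by gcongr
      _ = y ^ 11 / u ^ 3 * (u ^ (16 * a ^ 2 + 8 * a + 10) / u ^ (50 * a ^ 2)) := by
        field_simp
        ring
      _ ≤ _ := mul_le_of_le_one_right (by positivity) ((div_le_one (by positivity)).2 h1)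
  have t3 : ((u ^ (16 * a ^ 2))⁻¹) ^ 2 * (NV * p ^ 2) ≤ 72 / u ^ 3 := by
    have h1 : ((u ^ (16 * a ^ 2))⁻¹) ^ 2 ≤ 1 :=
      pow_le_one₀ (by positivity) (inv_le_one_of_one_le₀ (one_le_pow₀ hu1))
    calc _ ≤ 1 * (2 * x ^ 2 * (6 / x ^ 3) ^ 2) := by gcongr
      _ = 72 / x ^ 4 := by field_simp; ring
      _ ≤ _ := div_le_div_of_nonneg_left (by norm_num) (by positivity)
        (hux.trans (le_self_pow₀ hx1 (by norm_num)))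
  have t4 : 4 * E₀ ≤ 4 / u ^ 3 := by
    have : (x ^ 10)⁻¹ ^ 2 ≤ 1 / u ^ 3 := by
      rw [inv_pow, ← pow_mul, one_div]
      exact inv_anti₀ (by positivity) (hux.trans (le_self_pow₀ hx1 (by norm_num)))
    calc 4 * E₀ ≤ 4 * (1 / u ^ 3) := by linarith
      _ = _ := by ring
  have h8 : 9 * y ^ 8 ≤ y ^ 11 := by
    have : (9 : ℝ) ≤ y ^ 3 := le_trans (by linarith) (le_self_pow₀ hy1 (by norm_num))
    calc 9 * y ^ 8 ≤ y ^ 3 * y ^ 8 := by gcongr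
      _ = _ := by ring
  have h72 : 72 ≤ y ^ 11 := le_trans (by linarith) (le_self_pow₀ hy1 (by norm_num))
  have h4 : 4 ≤ y ^ (2 * a + 13) := le_trans (by linarith) (le_self_pow₀ hy1 (by omega))
  unfold enB
  rw [e1, e2, e3]
  calc _ = 4 * E₀ + C * J * l ^ (2 * a) * (((u ^ (16 * a ^ 2))⁻¹) ^ 2 * (Na / (T₁ : ℝ) ^ 2 *
          ((u ^ 8)⁻¹ + (u ^ 8)⁻¹ * u ^ (8 * a) * (u ^ (16 * a))⁻¹ + (u ^ 8)⁻¹)) +
        ((u ^ (16 * a ^ 2))⁻¹) ^ 2 *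
          ((u ^ 8)⁻¹ * u ^ (8 * a) * ρ' / ((T₁ : ℝ) ^ 2 * (u ^ 8)⁻¹)) +
        ((u ^ (16 * a ^ 2))⁻¹) ^ 2 * (NV * p ^ 2)) := by ring
    _ ≤ 4 / u ^ 3 + y * y * y ^ (2 * a) * (9 * y ^ 8 / u ^ 3 + y ^ 11 / u ^ 3 + 72 / u ^ 3) := by
        gcongr
    _ ≤ y ^ (2 * a + 13) / u ^ 3 +
          y * y * y ^ (2 * a) * (y ^ 11 / u ^ 3 + y ^ 11 / u ^ 3 + y ^ 11 / u ^ 3) := by gcongr
    _ = 4 * y ^ (2 * a + 13) / u ^ 3 := by ring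
    _ ≤ u / u ^ 3 := by
        refine div_le_div_of_nonneg_right ?_ (by positivity)
        have : (4 : ℝ) ≤ y ^ 7 := le_trans (by linarith) (le_self_pow₀ hy1 (by norm_num))
        calc 4 * y ^ (2 * a + 13) ≤ y ^ 7 * y ^ (2 * a + 13) := by gcongr
          _ = u := by rw [hu]; ring
    _ = _ := by field_simp

/-- the integer parameters -/
theorem ints {A : ℕ} {x u y : ℝ} {r₀ b : ℕ} (hy : 2000 ≤ y) (hyu : y ^ 4 ≤ u)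
    (hx : u ^ (A + 30) ≤ x) (hr : 1 ≤ r₀) (hb : 1 ≤ b) (hry : (2 * r₀ : ℝ) ≤ y) (hby : (b : ℝ) ≤ y) :
    ∃ K W₀ Nt w T₁ : ℕ, u ^ (A + 1) ≤ K ∧ (K : ℝ) ≤ 2 * u ^ (A + 1) ∧ u ≤ Nt ∧
      4 * (2 * r₀) + K * W₀ ≤ ⌈x / u⌉₊ ∧ (2 * Nt + 2) * w + 4 * (2 * r₀) ≤ W₀ ∧
      x / (u ^ (A + 3) * y ^ 4) ≤ T₁ ∧ y ≤ T₁ ∧ 12 * (2 * r₀) * b * b * T₁ ≤ w := by
  have hy1 : 1 ≤ y := by linarith
  have hyu1 : y ≤ u := (le_self_pow₀ hy1 (by norm_num)).trans hyu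
  have hu1 : 1 ≤ u := hy1.trans hyu1
  have hu0 : 0 < u := by linarith
  have hx0 : 0 < x := lt_of_lt_of_le (by positivity) hx
  have hA : ∀ k : ℕ, k ≤ A + 10 → 2000 * (u * u ^ k) ≤ x := fun k hk => by
    calc 2000 * (u * u ^ k) ≤ u * (u * u ^ k) := by gcongr; linarith
      _ = u ^ (k + 2) := by ring
      _ ≤ x := (pow_le_pow_right₀ hu1 (by omega)).trans hx
  have hru : (r₀ : ℝ) ≤ u := by linarith [(Nat.cast_nonneg r₀ : (0 : ℝ) ≤ r₀)]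
  obtain ⟨m, hm⟩ : ∃ m : ℕ, m = ⌈x / u⌉₊ := ⟨_, rfl⟩
  obtain ⟨K, hK⟩ : ∃ K : ℕ, K = ⌈u ^ (A + 1)⌉₊ := ⟨_, rfl⟩
  obtain ⟨Nt, hN⟩ : ∃ Nt : ℕ, Nt = ⌈u⌉₊ := ⟨_, rfl⟩
  have m1 : x / u ≤ m := hm ▸ Nat.le_ceil _
  have K1 : u ^ (A + 1) ≤ K := hK ▸ Nat.le_ceil _
  have K0 : 1 ≤ u ^ (A + 1) := one_le_pow₀ hu1
  have K2 : (K : ℝ) ≤ 2 * u ^ (A + 1) := by
    have : (K : ℝ) ≤ u ^ (A + 1) + 1 := hK ▸ (Nat.ceil_lt_add_one (by positivity)).le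
    linarith
  have K3 : 1 ≤ K := by exact_mod_cast K0.trans K1
  have N1 : u ≤ Nt := hN ▸ Nat.le_ceil _
  have N2 : (Nt : ℝ) ≤ u + 1 := hN ▸ (Nat.ceil_lt_add_one hu0.le).le
  have q0 : 4 * ((8 * r₀ : ℕ) : ℝ) ≤ x / u := by
    rw [le_div_iff₀ hu0]; push_cast
    have h1 := hA 1 (by omega)
    have h2 : (r₀ : ℝ) * u ≤ u * u ^ 1 := by rw [pow_one]; gcongr
    have h3 : 0 ≤ u * u ^ 1 := by positivity
    linarith
  have W1 := div_lb m (8 * r₀) K (X := x / u) (D' := 2 * u ^ (A + 1)) K3 K2 m1 q0 (by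
    rw [le_div_iff₀ hu0]
    have h1 := hA (A + 1) (by omega)
    have h3 : 0 ≤ u * u ^ (A + 1) := by positivity
    linarith)
  obtain ⟨W₀, hW⟩ : ∃ W₀ : ℕ, W₀ = (m - 8 * r₀) / K := ⟨_, rfl⟩
  rw [← hW, show x / u / (2 * (2 * u ^ (A + 1))) = x / (4 * u ^ (A + 2)) by
    field_simp; ring] at W1
  have q1 : 4 * ((8 * r₀ : ℕ) : ℝ) ≤ x / (4 * u ^ (A + 2)) := by
    rw [le_div_iff₀ (by positivity)]; push_cast
    have h1 := hA (A + 2) (by omega)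
    have h2 : (r₀ : ℝ) * u ^ (A + 2) ≤ u * u ^ (A + 2) := by gcongr
    have h3 : 0 ≤ u * u ^ (A + 2) := by positivity
    linarith
  have w1 := div_lb W₀ (8 * r₀) (2 * Nt + 2) (X := x / (4 * u ^ (A + 2)))
    (D' := 6 * u) (by omega) (by push_cast; linarith) W1 q1 (by
      rw [le_div_iff₀ (by positivity)]
      have h1 := hA (A + 2) (by omega)
      have h3 : 0 ≤ u * u ^ (A + 2) := by positivity
      linarith)
  obtain ⟨w, hw⟩ : ∃ w : ℕ, w = (W₀ - 8 * r₀) / (2 * Nt + 2) := ⟨_, rfl⟩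
  rw [← hw, show x / (4 * u ^ (A + 2)) / (2 * (6 * u)) = x / (48 * u ^ (A + 3)) by
    field_simp; ring] at w1
  have d1 : ((12 * (2 * r₀) * b * b : ℕ) : ℝ) ≤ 12 * y ^ 3 := by
    push_cast
    calc (12 : ℝ) * (2 * r₀) * b * b ≤ 12 * y * y * y := by gcongr
      _ = _ := by ring
  have hy3 : y ^ 3 * 2000 ≤ u := by
    calc y ^ 3 * 2000 ≤ y ^ 3 * y := by gcongr
      _ ≤ u := by rw [← pow_succ]; exact hyu
  have T1 := div_lb w 0 (12 * (2 * r₀) * b * b) (X := x / (48 * u ^ (A + 3)))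
    (D' := 12 * y ^ 3) (by positivity) d1 w1 (by simp only [Nat.cast_zero, mul_zero]; positivity)
    (by
      rw [le_div_iff₀ (by positivity)]
      have h1 := hA (A + 3) (by omega)
      have h2 : y ^ 3 * 2000 * u ^ (A + 3) ≤ u * u ^ (A + 3) := by gcongr
      have h3 : 0 ≤ u * u ^ (A + 3) := by positivity
      linarith)
  obtain ⟨T₁, hT⟩ : ∃ T₁ : ℕ, T₁ = (w - 0) / (12 * (2 * r₀) * b * b) := ⟨_, rfl⟩
  rw [← hT] at T1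
  have T2 : x / (u ^ (A + 3) * y ^ 4) ≤ T₁ := by
    refine le_trans ?_ T1
    rw [div_div]
    refine div_le_div_of_nonneg_left hx0.le (by positivity) ?_
    calc 48 * u ^ (A + 3) * (2 * (12 * y ^ 3)) = u ^ (A + 3) * (y ^ 3 * 1152) := by ring
      _ ≤ u ^ (A + 3) * (y ^ 3 * y) := by gcongr; linarith
      _ = _ := by ring
  have hm8 : 8 * r₀ ≤ m := by
    have h0 : (0 : ℝ) ≤ ((8 * r₀ : ℕ) : ℝ) := Nat.cast_nonneg _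
    exact_mod_cast (show ((8 * r₀ : ℕ) : ℝ) ≤ m by linarith)
  have hW8 : 8 * r₀ ≤ W₀ := by
    have h0 : (0 : ℝ) ≤ ((8 * r₀ : ℕ) : ℝ) := Nat.cast_nonneg _
    exact_mod_cast (show ((8 * r₀ : ℕ) : ℝ) ≤ W₀ by linarith)
  refine ⟨K, W₀, Nt, w, T₁, K1, K2, N1, ?_, ?_, T2, le_trans ?_ T2, hT ▸ Nat.mul_div_le _ _⟩
  · have := Nat.mul_div_le (m - 8 * r₀) K
    rw [← hW] at this
    omega
  · have := Nat.mul_div_le (W₀ - 8 * r₀) (2 * Nt + 2)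
    rw [← hw] at this
    omega
  · rw [le_div_iff₀ (by positivity)]
    calc y * (u ^ (A + 3) * y ^ 4) ≤ u * (u ^ (A + 3) * u) := by gcongr
      _ = u ^ (A + 5) := by ring
      _ ≤ x := (pow_le_pow_right₀ hu1 (by omega)).trans hx

theorem exp_neg_log {x : ℝ} (hx : 0 < x) (k : ℕ) : Real.exp (-(k * Real.log x)) = (x ^ k)⁻¹ := by
  rw [Real.exp_neg, ← Real.log_pow, Real.exp_log (by positivity)]

theorem pin_le {K w r b N₀ T₁ : ℕ} {x : ℝ} (hx : 0 < x) (hK : (K : ℝ) ≤ x)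
    (hN : (N₀ : ℝ) ≤ x * x) (hr : 0 < r) (hb : 1 ≤ b) (hT : 12 * r * b * b * T₁ ≤ w)
    (hL : 6 * Real.log x ≤ T₁) : pin K w r b b N₀ T₁ ≤ 6 / x ^ 3 := by
  have hr0 : (0 : ℝ) < r := Nat.cast_pos.2 hr
  have hb1 : (1 : ℝ) ≤ b := by exact_mod_cast hb
  have h3 : (12 : ℝ) * (b * b * T₁) ≤ w / r := by
    rw [le_div_iff₀ hr0]
    have : (12 : ℝ) * r * b * b * T₁ ≤ w := by exact_mod_cast hT
    linarith
  have h5 : (T₁ : ℝ) ≤ b * b * T₁ := le_mul_of_one_le_left (by positivity) (by nlinarith)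
  have h6 : Real.exp (6 * b * b * T₁ + 1 - w / r) ≤ 3 * (x ^ 6)⁻¹ := by
    rw [← exp_neg_log hx 6]
    have h0 : (0 : ℝ) ≤ T₁ := Nat.cast_nonneg _
    calc _ ≤ Real.exp (1 + -((6 : ℕ) * Real.log x)) :=
          Real.exp_le_exp.2 (by push_cast; linarith)
      _ ≤ _ := by
        rw [Real.exp_add]
        gcongr
        linarith [Real.exp_one_lt_d9]
  unfold pin
  calc _ ≤ 2 * x * (x * x) * (3 * (x ^ 6)⁻¹) := by gcongr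
    _ = _ := by field_simp; ring

theorem final {C Cp D u B K Nt e : ℝ} {A : ℕ} (hC : 0 ≤ C) (hCp : 0 < Cp) (hD : 0 < D)
    (hu : 0 < u) (hB : u ≤ B) (hK : u ^ (A + 1) ≤ K) (hN : u ≤ Nt) (he : e ≤ (u ^ 2)⁻¹) :
    2 * K * B / Nt + C * K * (u⁻¹ * ((2 * Cp + 1) * B) + 1) + C * ((2 * Cp + 1) * B) / (u ^ A)⁻¹ +
      C * K * ((2 * Cp + 1) * B) / (D * u⁻¹) * e ≤
      K * ((2 + C * (2 * Cp + 2) + C * (2 * Cp + 1) + C * (2 * Cp + 1) / D) * u⁻¹ * B) := by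
  have hB0 : 0 < B := hu.trans_le hB
  have hK0 : 0 < K := lt_of_lt_of_le (by positivity) hK
  have f1 : 2 * K * B / Nt ≤ K * (2 * u⁻¹ * B) := by
    calc 2 * K * B / Nt ≤ 2 * K * B / u := by gcongr
      _ = _ := by ring
  have f2 : C * K * (u⁻¹ * ((2 * Cp + 1) * B) + 1) ≤ K * (C * (2 * Cp + 2) * u⁻¹ * B) := by
    have h1 : 1 ≤ u⁻¹ * B := by rw [← div_eq_inv_mul, one_le_div hu]; exact hB
    calc _ ≤ C * K * (u⁻¹ * ((2 * Cp + 1) * B) + u⁻¹ * B) := by gcongr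
      _ = _ := by ring
  have f3 : C * ((2 * Cp + 1) * B) / (u ^ A)⁻¹ ≤ K * (C * (2 * Cp + 1) * u⁻¹ * B) := by
    calc _ = u ^ (A + 1) * (C * (2 * Cp + 1) * u⁻¹ * B) := by field_simp; ring
      _ ≤ _ := by gcongr
  have f4 : C * K * ((2 * Cp + 1) * B) / (D * u⁻¹) * (u ^ 2)⁻¹ =
      K * (C * (2 * Cp + 1) / D * u⁻¹ * B) := by field_simp
  have f5 := mul_le_mul_of_nonneg_left he
    (show 0 ≤ C * K * ((2 * Cp + 1) * B) / (D * u⁻¹) by positivity)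
  rw [f4] at f5
  linarith

/-- the real parameters -/
theorem reals {x y C CF cF cp Cp lq : ℝ} {cb r₀ : ℕ} (hx1 : 1 ≤ x) (hL : 1 + cp ≤ Real.log x)
    (hC : 1 ≤ C) (hCF : 0 < CF) (hcF : 0 < cF) (hcp : 0 < cp) (hCp : 0 < Cp) (hlq : 0 ≤ lq)
    (hM : (2000 + C + 2 * CF + (lq + 2 * Cp + 1) + cb + 10 / cp + (26 / cF + 3) ^ 2 * (lq + 2)) *
      Real.log x ^ 2 ≤ y) (hr : r₀ = ⌈13 * Real.log x / cF⌉₊) :
    2000 ≤ y ∧ C ≤ y ∧ 2 * CF ≤ y ∧ lq + 2 * Cp + 1 ≤ y ∧ (cb : ℝ) ≤ y ∧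
      1 ≤ 10 * Real.log x / cp ∧ 10 * Real.log x / cp ≤ y ∧ 6 * Real.log x ≤ y ∧ 1 ≤ r₀ ∧
      (((2 * r₀ + 1) ^ 2 : ℕ) : ℝ) * (lq + 2) ≤ y ∧ Real.exp (-(cF * r₀)) ≤ (x ^ 13)⁻¹ := by
  have hexp := exp_neg_log (show 0 < x by linarith) 13
  generalize Real.log x = L at *
  have hL1 : 1 ≤ L := by linarith
  have hLL : L ≤ L ^ 2 := le_self_pow₀ hL1 two_ne_zero
  have p1 : 0 ≤ (cb : ℝ) := Nat.cast_nonneg _
  have p2 : 0 < 10 / cp := by positivity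
  have p3 : 0 < (26 / cF + 3) ^ 2 * (lq + 2) := by positivity
  obtain ⟨M, hM'⟩ : ∃ M : ℝ, M = 2000 + C + 2 * CF + (lq + 2 * Cp + 1) + cb + 10 / cp +
    (26 / cF + 3) ^ 2 * (lq + 2) := ⟨_, rfl⟩
  rw [← hM'] at hM
  have hMy : M ≤ y := le_trans (le_mul_of_one_le_right (by linarith) (hL1.trans hLL)) hM
  have hk : ∀ k : ℝ, k ≤ M → k * L ^ 2 ≤ y := fun k hk =>
    (mul_le_mul_of_nonneg_right hk (by positivity)).trans hM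
  have r1 : 13 * L / cF ≤ r₀ := hr ▸ Nat.le_ceil _
  have r2 : (r₀ : ℝ) ≤ 13 * L / cF + 1 := hr ▸ (Nat.ceil_lt_add_one (by positivity)).le
  refine ⟨by linarith, by linarith, by linarith, by linarith, by linarith, ?_, ?_, ?_,
    hr ▸ Nat.one_le_ceil_iff.2 (by positivity), ?_, ?_⟩
  · rw [le_div_iff₀ hcp]; linarith
  · refine le_trans ?_ (hk (10 / cp) (by linarith))
    calc 10 * L / cp = 10 / cp * L := by ring
      _ ≤ _ := by gcongr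
  · exact le_trans (by linarith) (hk 6 (by linarith))
  · have h1 : (2 * r₀ + 1 : ℝ) ≤ (26 / cF + 3) * L := by
      have : (26 / cF + 3) * L = 2 * (13 * L / cF) + 3 * L := by ring
      linarith
    refine le_trans ?_ (hk _ (show (26 / cF + 3) ^ 2 * (lq + 2) ≤ M by linarith))
    push_cast
    calc _ ≤ ((26 / cF + 3) * L) ^ 2 * (lq + 2) := by gcongr
      _ = _ := by ring
  · rw [← hexp]
    refine Real.exp_le_exp.2 (neg_le_neg ?_)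
    rw [div_le_iff₀ hcF] at r1
    push_cast; linarith

end Ar

open Ar in
/-- **The parameters of one step.** -/
theorem arith (a : ℕ) (ha : 1 ≤ a) (C CF cF cp Cp lq D η : ℝ) (cb : ℕ) (hC : 1 ≤ C) (hCF : 0 < CF)
    (hcF : 0 < cF) (hcp : 0 < cp) (hCp : 0 < Cp) (hlq : 0 ≤ lq) (hD : 0 < D) (hη : 0 < η)
    (hη1 : η ≤ 1) (hcb : 1 ≤ cb) :
    ∃ (c C₂ : ℝ) (n₀ : ℕ), 0 < c ∧ c ≤ 1 / 2 ∧ 0 < C₂ ∧ ∀ n : ℕ, n₀ ≤ n →
      ∃ (m r₀ K W₀ Nt w T₁ : ℕ) (s lam τ z ε t : ℝ), m = ⌈(n : ℝ) ^ (1 - c)⌉₊ ∧ m ≤ n ∧ 1 ≤ r₀ ∧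
        1 ≤ K ∧ 1 ≤ Nt ∧ 1 ≤ T₁ ∧ 4 * (2 * r₀) + K * W₀ ≤ m ∧
        (2 * Nt + 2) * w + 4 * (2 * r₀) ≤ W₀ ∧
        CF * ((n : ℝ) ^ 2 + 1) * Real.exp (-(cF * r₀)) ≤ ε ∧ 0 < ε ∧ ε ≤ 1 / 10 ∧
        ε * (n : ℝ) ^ 2 * (lq + 2 * Cp + 1) ≤ 1 ∧ 0 < s ∧ 0 < lam ∧ 0 < τ ∧ 0 < z ∧ τ ≤ 1 / 4 ∧
        C * (((2 * r₀ + 1) ^ 2 : ℕ) * lq + 1) ^ a * s ≤ 1 ∧ 1 ≤ t ∧ t ≤ n ∧
        Real.exp (-(cp * t * Real.sqrt (1 / ((cb * n : ℕ) : ℝ)))) ≤ ε ∧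
        ∀ (B ρ E₀ : ℝ) (N₀ Na NV : ℕ), (n : ℝ) ≤ B → B ≤ (n : ℝ) ^ (2 - η) →
          ρ = (2 * Cp + 1) * B → N₀ ≤ 2 * r₀ * n → Na ≤ (m + 1) * n → NV ≤ n ^ 2 + 1 →
          E₀ ≤ ε ^ 2 →
          2 * K * B / Nt + C * K * (z * ρ + 1) + C * ρ / s + C * K * ρ / (D * z) *
            enB a C CF (((2 * r₀ + 1) ^ 2 : ℕ) * lq + 1) s lam τ (C * K * ρ) E₀
              (pin K w (2 * r₀) ((2 * r₀ + 1) ^ 2) ((2 * r₀ + 1) ^ 2) N₀ T₁) Na NV T₁ ≤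
            K * (C₂ * (n : ℝ) ^ (-c) * B) := by
  have ha1 : (1 : ℝ) ≤ a := by exact_mod_cast ha
  obtain ⟨c, hc⟩ : ∃ c : ℝ, c = η / (50 * a ^ 2) := ⟨_, rfl⟩
  have hc0 : 0 < c := by rw [hc]; positivity
  have hc1 : c ≤ 1 / 2 := by
    rw [hc, div_le_iff₀ (by positivity)]; nlinarith
  obtain ⟨n₀, hn₀⟩ := eventually_atTop.1 (tendsto_natCast_atTop_atTop (R := ℝ) |>.eventually
    ((ev_log (2000 + C + 2 * CF + (lq + 2 * Cp + 1) + cb + 10 / cp + (26 / cF + 3) ^ 2 * (lq + 2))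
      (show 0 < c / (2 * a + 20 : ℕ) by positivity)).and
      ((Real.tendsto_log_atTop.eventually_ge_atTop (1 + cp)).and (eventually_ge_atTop 1))))
  refine ⟨c, 2 + C * (2 * Cp + 2) + C * (2 * Cp + 1) + C * (2 * Cp + 1) / D, n₀, hc0, hc1,
    by positivity, fun n hn => ?_⟩
  obtain ⟨hMy, hL, hx1⟩ := hn₀ n hn
  clear hn₀
  obtain ⟨x, hx⟩ : ∃ x : ℝ, x = n := ⟨_, rfl⟩
  rw [← hx] at hMy hL hx1
  obtain ⟨y, hy⟩ : ∃ y, y = x ^ (c / (2 * a + 20 : ℕ)) := ⟨_, rfl⟩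
  obtain ⟨u, hu⟩ : ∃ u, u = x ^ c := ⟨_, rfl⟩
  rw [← hy] at hMy
  obtain ⟨r₀, hr⟩ : ∃ r₀ : ℕ, r₀ = ⌈13 * Real.log x / cF⌉₊ := ⟨_, rfl⟩
  obtain ⟨hy2, hCy, hCFy, hlqy, hcby, hq1, hq2, hL6, r3, b1, r4⟩ :=
    reals hx1 hL hC hCF hcF hcp hCp hlq hMy hr
  clear hMy hr hL
  have hx0 : 0 < x := by linarith
  have hy1 : 1 ≤ y := by linarith
  have huy : u = y ^ (2 * a + 20) := by
    rw [hu, hy, ← Real.rpow_natCast, ← Real.rpow_mul hx0.le, div_mul_cancel₀ _ (by positivity)]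
  have hyu : y ^ 4 ≤ u := huy ▸ pow_le_pow_right₀ hy1 (by omega)
  have hyu1 : y ≤ u := (le_self_pow₀ hy1 (by norm_num)).trans hyu
  have hu1 : 1 ≤ u := hy1.trans hyu1
  have hu0 : 0 < u := by linarith
  have huη : u ^ (50 * a ^ 2) = x ^ η := by
    rw [hu, ← Real.rpow_natCast, ← Real.rpow_mul hx0.le, hc]
    congr 1
    push_cast
    field_simp
  have hux : u ^ (50 * a ^ 2) ≤ x := by
    rw [huη]
    exact (Real.rpow_le_rpow_of_exponent_le hx1 hη1).trans_eq (Real.rpow_one x)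
  have ha2 : 1 ≤ a ^ 2 := Nat.one_le_pow _ _ ha
  have hbig : ∀ k : ℕ, k ≤ 16 * a ^ 2 + 30 → u ^ k ≤ x := fun k hk =>
    (pow_le_pow_right₀ hu1 (by omega)).trans hux
  have hux1 : u ≤ x := by simpa using hbig 1 (by omega)
  have e1 : x ^ (1 - c) = x / u := by rw [Real.rpow_sub hx0, Real.rpow_one, hu]
  have e2 : x ^ (-c) = u⁻¹ := by rw [Real.rpow_neg hx0.le, hu]
  have e3 : x ^ (2 - η) = x ^ 2 / u ^ (50 * a ^ 2) := by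
    rw [Real.rpow_sub hx0, Real.rpow_two, huη]
  clear huη hu hy hc
  obtain ⟨b, hb⟩ : ∃ b : ℕ, b = (2 * r₀ + 1) ^ 2 := ⟨_, rfl⟩
  rw [← hb] at b1
  have b0 : 2 * r₀ + 1 ≤ b := hb ▸ Nat.le_self_pow two_ne_zero _
  have b2 : (1 : ℝ) ≤ b := by exact_mod_cast (show 1 ≤ b by omega)
  have b6 : 0 ≤ (b : ℝ) * lq := by positivity
  have b3 : (b : ℝ) ≤ y := by linarith
  have b4 : (b : ℝ) * lq + 1 ≤ y := by linarith
  have b5 : (2 * r₀ : ℝ) ≤ y := le_trans (by exact_mod_cast (show 2 * r₀ ≤ b by omega)) b3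
  obtain ⟨K, W₀, Nt, w, T₁, K1, K2, N1, g1, g2, T2, T3, T4⟩ :=
    ints hy2 hyu (hbig _ le_rfl) r3 (by omega) b5 b3
  have hyx : y ^ 3 ≤ x := ((pow_le_pow_right₀ hy1 (by norm_num)).trans hyu).trans hux1
  have hyx1 : y ≤ x := hyu1.trans hux1
  have hnb : (0 : ℝ) < ((cb * n : ℕ) : ℝ) := by
    push_cast; rw [← hx]
    have : (1 : ℝ) ≤ cb := by exact_mod_cast hcb
    positivity
  refine ⟨⌈x / u⌉₊, r₀, K, W₀, Nt, w, T₁, (u ^ (16 * a ^ 2))⁻¹, (u ^ (8 * a))⁻¹, (u ^ 8)⁻¹, u⁻¹,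
    (x ^ 10)⁻¹, Real.sqrt ((cb * n : ℕ) : ℝ) * (10 * Real.log x / cp), by rw [← hx, e1], ?_, r3,
    by exact_mod_cast (one_le_pow₀ hu1).trans K1, by exact_mod_cast hu1.trans N1,
    by exact_mod_cast hy1.trans T3, g1, g2, ?_, by positivity, ?_, ?_, by positivity,
    by positivity, by positivity, by positivity, ?_, ?_, ?_, ?_, ?_, ?_⟩
  · rw [Nat.ceil_le, ← hx]
    exact div_le_self hx0.le hu1
  · rw [← hx]
    have h4 : 1 ≤ x ^ 2 := one_le_pow₀ hx1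
    calc _ ≤ CF * (x ^ 2 + x ^ 2) * (x ^ 13)⁻¹ := by gcongr
      _ = 2 * CF * (x ^ 11)⁻¹ := by field_simp; ring
      _ ≤ x * (x ^ 11)⁻¹ := by gcongr; linarith
      _ = _ := by field_simp
  · rw [one_div]
    exact inv_anti₀ (by norm_num) (le_trans (by linarith) (le_self_pow₀ hx1 (by norm_num)))
  · rw [← hx]
    calc (x ^ 10)⁻¹ * x ^ 2 * (lq + 2 * Cp + 1) ≤ (x ^ 10)⁻¹ * x ^ 2 * x ^ 8 := by
          gcongr
          exact le_trans (by linarith) (le_self_pow₀ hx1 (by norm_num))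
      _ = 1 := by field_simp
  · rw [one_div]
    exact inv_anti₀ (by norm_num) (le_trans (by linarith) (le_self_pow₀ hu1 (by norm_num)))
  · rw [← hb, ← div_eq_mul_inv, div_le_one (by positivity)]
    calc C * ((b : ℝ) * lq + 1) ^ a ≤ y * y ^ a := by gcongr
      _ = y ^ (a + 1) := by ring
      _ ≤ u := huy ▸ pow_le_pow_right₀ hy1 (by omega)
      _ ≤ _ := le_self_pow₀ hu1 (by omega)
  · refine one_le_mul_of_one_le_of_one_le (Real.one_le_sqrt.2 ?_) hq1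
    exact_mod_cast (show 0 < cb * n by exact_mod_cast hnb)
  · rw [← hx]
    refine (pow_le_pow_iff_left₀ (by positivity) hx0.le two_ne_zero).1 ?_
    rw [mul_pow, Real.sq_sqrt hnb.le]
    push_cast
    rw [← hx]
    calc cb * x * (10 * Real.log x / cp) ^ 2 ≤ y * x * y ^ 2 := by gcongr
      _ = y ^ 3 * x := by ring
      _ ≤ x * x := by gcongr
      _ = _ := by ring
  · rw [← exp_neg_log hx0 10]
    refine le_of_eq (congrArg _ (congrArg _ ?_))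
    rw [one_div, Real.sqrt_inv]
    have := Real.sqrt_pos.2 hnb
    generalize Real.sqrt ((cb * n : ℕ) : ℝ) = v at this
    push_cast
    field_simp
  intro B ρ E₀ N₀ Na NV hB1 hB2 hρ hN₀ hNa hNV hE
  rw [← hx] at hB1 hB2 ⊢
  rw [e3] at hB2
  rw [← hb, e2, hρ]
  have hB0 : 0 < B := by linarith
  refine final (by linarith) hCp hD hu0 (hux1.trans hB1) K1 N1 (enB_le ha (by linarith) huy hux
    hCy hCF.le (by linarith) (by positivity) b4 hE T2 ?_ ?_ (by unfold pin; positivity)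
    (pin_le hx0 ?_ ?_ (by omega) (by omega) T4 (hL6.trans T3)) (by positivity) ?_)
  · have h1 : (Na : ℝ) ≤ ((⌈x / u⌉₊ : ℕ) + 1) * x := by rw [hx] at *; exact_mod_cast hNa
    have h2 : 1 ≤ x / u := (one_le_div hu0).2 hux1
    have h3 : ((⌈x / u⌉₊ : ℕ) : ℝ) ≤ x / u + 1 := (Nat.ceil_lt_add_one (by positivity)).le
    calc (Na : ℝ) ≤ (3 * (x / u)) * x := h1.trans (by gcongr; linarith)
      _ = _ := by ring
  · have h1 : (NV : ℝ) ≤ x ^ 2 + 1 := by rw [hx]; exact_mod_cast hNV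
    linarith [one_le_pow₀ hx1 (n := 2)]
  · calc (K : ℝ) ≤ u * u ^ (16 * a ^ 2 + 1) := K2.trans (by gcongr; linarith)
      _ = u ^ (16 * a ^ 2 + 2) := by ring
      _ ≤ x := hbig _ (by omega)
  · have : (N₀ : ℝ) ≤ 2 * r₀ * x := by rw [hx]; exact_mod_cast hN₀
    exact this.trans (by gcongr; linarith)
  · calc C * K * ((2 * Cp + 1) * B) ≤
          y * (y * u ^ (16 * a ^ 2 + 1)) * (y * (x ^ 2 / u ^ (50 * a ^ 2))) := by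
          gcongr
          · exact K2.trans (by gcongr; linarith)
          · linarith
      _ = _ := by ring

end Crest.Agent.N336.C
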