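import Crest.Agent.N336.C.SV

/-!
# Row 336, CORE: lower semicontinuity of the mutual information (helper82)
-/

set_option autoImplicit false
set_option linter.unusedSectionVars false

open Matrix Finset
open scoped ComplexOrder MatrixOrder Matrix.Norms.L2Operator InnerProductSpace

namespace Crest.Agent.N336.C

open Crest.Agent.N336.Q Crest.Agent.N336.Eng

section proj

variable {n : Type} [Fintype n] [DecidableEq n]

lemma refl_unitary {T : Matrix n n ℂ} (hT : T.IsHermitian) (h : T * T = T) :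
    (T + T - 1)ᴴ * (T + T - 1) = 1 := by
  rw [conjTranspose_sub, conjTranspose_add, hT.eq, conjTranspose_one]
  simp only [Matrix.sub_mul, Matrix.mul_sub, Matrix.add_mul, Matrix.mul_add, h, Matrix.one_mul,
    Matrix.mul_one]
  abel

lemma norm_ap_proj_le {T : Matrix n n ℂ} (hT : T.IsHermitian) (h : T * T = T) (v : Q.Vec n) :
    ‖ap T v‖ ≤ ‖v‖ := by
  have h1 := norm_ap_unitary (refl_unitary hT h) v
  have h2 : ap T v + ap T v = ap (T + T - 1) v + v := by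
    rw [ap_sub, ap_add, ap_one]; abel
  have h3 := norm_add_le (ap (T + T - 1) v) v
  rw [← h2, ← two_smul ℝ, norm_smul, h1] at h3
  norm_num at h3
  linarith

lemma pj_add_pj (u v : Q.Vec n) :
    pj u + pj v = ((1 / 2 : ℝ) : ℂ) • pj (u + v) + ((1 / 2 : ℝ) : ℂ) • pj (u - v) := by
  simp only [pj, kb_add_left, kb_add_right, kb_sub_left, kb_sub_right]
  push_cast
  module

/-- normalising a vector close to a unit vector -/
lemma norm_normalize_sub {u w : Q.Vec n} (hu : ‖u‖ ≤ 1) (hu0 : u ≠ 0) (hw : ‖w‖ = 1) {ε : ℝ}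
    (h : ‖u - w‖ ≤ ε) : ‖((‖u‖⁻¹ : ℝ) : ℂ) • u - w‖ ≤ 2 * ε := by
  have hp : 0 < ‖u‖ := norm_pos_iff.2 hu0
  have h1 : ‖w‖ - ‖u‖ ≤ ε := by
    have := norm_sub_norm_le w u
    rw [norm_sub_rev] at this; linarith
  have h2 : ((‖u‖⁻¹ : ℝ) : ℂ) • u - u = ((‖u‖⁻¹ - 1 : ℝ) : ℂ) • u := by
    rw [Complex.ofReal_sub, sub_smul]; simp
  have h3 : ‖((‖u‖⁻¹ : ℝ) : ℂ) • u - u‖ = 1 - ‖u‖ := by
    rw [h2, norm_smul, Complex.norm_real, Real.norm_of_nonneg
      (sub_nonneg.2 ((one_le_inv₀ hp).2 hu))]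
    field_simp
  calc _ ≤ ‖((‖u‖⁻¹ : ℝ) : ℂ) • u - u‖ + ‖u - w‖ := norm_sub_le_norm_sub_add_norm_sub _ _ _
    _ ≤ _ := by rw [h3]; linarith

lemma norm_normalize {u : Q.Vec n} (hu0 : u ≠ 0) : ‖((‖u‖⁻¹ : ℝ) : ℂ) • u‖ = 1 := by
  have hp : 0 < ‖u‖ := norm_pos_iff.2 hu0
  rw [norm_smul, Complex.norm_real, Real.norm_of_nonneg (by positivity), inv_mul_cancel₀ hp.ne']

end proj

variable {ι : Type} [Fintype ι] [DecidableEq ι] {d : ι → Type} [∀ x, Fintype (d x)]
  [∀ x, DecidableEq (d x)] [∀ x, Nonempty (d x)]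

/-- pinching by a reflection on `A` does not increase the mutual information -/
lemma pinch_le {A F : Finset ι} (hd : Disjoint A F) {U : Q.Op d} (hU : Supp A U)
    (h : Uᴴ * U = 1) (χ : Q.Vec (Cfg d)) {ω : Q.Op d}
    (hω : ω = ((1 / 2 : ℝ) : ℂ) • pj χ + ((1 / 2 : ℝ) : ℂ) • pj (ap U χ)) :
    SX A ω + SX F ω - SX (A ∪ F) ω ≤ mi χ A F := by
  have hF : Supp Fᶜ U := hU.mono (subset_compl_iff_disjoint_right.2 hd)
  have h1 : SX F ω = SV χ F := by
    rw [SV_eq, SX, SX, hω, red_add, red_smul, red_smul, pj_ap,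
      red_conj_unitary (by rwa [rg_sb]) h, ← add_smul]
    norm_num
  have h2 := cond_mix_le (univ : Finset (Fin 2)) (subset_union_left : A ⊆ A ∪ F)
    (p := fun _ => 1 / 2) (ρ := ![pj χ, pj (ap U χ)]) (fun _ _ => by norm_num)
    (fun k _ => by fin_cases k <;> exact pj_posSemidef _)
  simp only [Fin.sum_univ_two, Matrix.cons_val_zero, Matrix.cons_val_one] at h2
  rw [← hω, ← SV_eq, ← SV_eq, ← SV_eq, ← SV_eq, SV_ap_in hU h,
    SV_ap_in (hU.mono subset_union_left) h] at h2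
  unfold mi; linarith

/-- the mutual information of a sum of two pure terms -/
lemma le_mix {A F : Finset ι} (hd : Disjoint A F) {u v : Q.Vec (Cfg d)} (hω : Dens (pj u + pj v)) :
    (SX A (pj u) + SX F (pj u) - SX (A ∪ F) (pj u) - SX ∅ (pj u)) - 2 ≤
      SX A (pj u + pj v) + SX F (pj u + pj v) - SX (A ∪ F) (pj u + pj v) := by
  have p : ∀ k ∈ (univ : Finset (Fin 2)), (![pj u, pj v] k).PosSemidef := by
    intro k _; fin_cases k <;> exact pj_posSemidef _
  have h1 := cond_sum_le univ (empty_subset A) p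
  have h2 := cond_sum_le univ (empty_subset F) p
  have h3 := SX_sum_le univ (A ∪ F) p
  simp only [Fin.sum_univ_two, Matrix.cons_val_zero, Matrix.cons_val_one, hω.SX_empty] at h1 h2 h3
  have h4 := SX_submod A F (pj_posSemidef v)
  rw [disjoint_iff_inter_eq_empty.1 hd] at h4
  have k : ∀ w : Q.Vec (Cfg d), SX ∅ (pj w) ≤ 1 := fun w => by
    rw [SX_empty (pj_isHermitian w), trace_pj, Complex.ofReal_re]
    have := Real.negMulLog_le_one_sub_self (sq_nonneg ‖w‖)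
    nlinarith [sq_nonneg ‖w‖]
  linarith [k u, k v]

/-- **lower semicontinuity** -/
theorem lsc : LscStmt := by
  intro ι _ _ d _ _ _ A F P ρ ε χ χ' hd hP hPP hr hρ h h' k' he
  have hε : 0 ≤ ε := (norm_nonneg _).trans he
  have hm : ∀ ψ : Q.Vec (Cfg d), ‖ψ‖ = 1 → ap (lift A P) ψ = ψ → mi ψ A F ≤ 2 * ρ :=
    fun ψ hψ kψ => (mi_le hψ hd).trans (by linarith [SV_le_of_proj hP hPP hr hψ kψ])
  by_cases h10 : 1 / 10 ≤ ε
  · have := hm χ' h' k'
    have := mi_nonneg h A F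
    nlinarith
  push Not at h10
  set T : Q.Op d := lift A P with hT
  have hTh : T.IsHermitian := emb_isHermitian _ hP
  have hTT : T * T = T := by rw [hT, ← map_mul, hPP]
  have hTs : Supp A T := supp_lift A P
  set u := ap T χ with hu
  have hu1 : ‖u‖ ≤ 1 := h ▸ norm_ap_proj_le hTh hTT χ
  have hue : ‖u - χ'‖ ≤ ε := by
    rw [hu, ← k', ← map_sub]; exact (norm_ap_proj_le hTh hTT _).trans he
  have hul : 1 - ε ≤ ‖u‖ := by
    have := norm_sub_norm_le χ' u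
    rw [norm_sub_rev] at this; linarith
  have hp : 0 < ‖u‖ := by linarith
  have hu0 : u ≠ 0 := norm_pos_iff.1 hp
  set ψ := ((‖u‖⁻¹ : ℝ) : ℂ) • u with hψ
  have hψ1 : ‖ψ‖ = 1 := norm_normalize hu0
  have hψe : ‖ψ - χ'‖ ≤ 2 * ε := norm_normalize_sub hu1 hu0 h' hue
  have kψ : ap T ψ = ψ := by rw [hψ, map_smul, hu, ← ap_mul, hTT]
  -- pinching
  have hU := refl_unitary hTh hTT
  have e1 : u + (χ - u) = χ := by abel
  have e2 : u - (χ - u) = ap (T + T - 1) χ := by rw [ap_sub, ap_add, ap_one, ← hu]; abel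
  have hω := pj_add_pj u (χ - u)
  rw [e1, e2] at hω
  have hD : Dens (pj u + pj (χ - u)) := by
    refine ⟨(pj_posSemidef _).add (pj_posSemidef _), ?_⟩
    rw [hω, trace_add, trace_smul, trace_smul, trace_pj, trace_pj, norm_ap_unitary hU, h]
    norm_num
  have a1 := pinch_le hd ((hTs.add hTs).sub (Supp.one A)) hU χ hω
  have a2 := le_mix hd hD
  have e3 : pj u = ((‖u‖ ^ 2 : ℝ) : ℂ) • pj ψ := by
    rw [hψ, pj_smul, smul_smul, ← Complex.ofReal_mul, Complex.norm_real,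
      Real.norm_of_nonneg (by positivity), ← mul_pow, mul_inv_cancel₀ hp.ne']
    simp
  have a3 : SX A (pj u) + SX F (pj u) - SX (A ∪ F) (pj u) - SX ∅ (pj u) = ‖u‖ ^ 2 * mi ψ A F := by
    rw [e3]
    simp only [SX_smul _ _ (pj_isHermitian ψ), (dens_pj hψ1).SX_empty, mi, SV_eq]
    ring
  have b1 := hm ψ hψ1 kψ
  have b2 := mi_nonneg hψ1 A F
  have c1 := abs_le.1 (fannes_proj hP hPP hr hψ1 h' kψ k' hψe (by linarith))
  have c2 := abs_le.1 (fannes_rank hd hP hPP hr hψ1 h' kψ k' hψe (by linarith))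
  have hs : Real.sqrt (2 * ε) ≤ 1 := Real.sqrt_le_one.2 (by linarith)
  have b3 : mi ψ A F - 4 * ε * ρ ≤ ‖u‖ ^ 2 * mi ψ A F := by
    have : 1 - 2 * ε ≤ ‖u‖ ^ 2 := by nlinarith
    nlinarith [mul_le_mul_of_nonneg_right this b2, mul_le_mul_of_nonneg_left b1 hε]
  have b4 : mi χ' A F - 8 * ε * ρ - 8 ≤ mi ψ A F := by
    unfold mi; linarith [c1.1, c2.2]
  have : 0 ≤ ε * ρ := mul_nonneg hε hρ
  linarith

end Crest.Agent.N336.C
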