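import Crest.Agent.N336.R.Mat
import Crest.Agent.N336.C.SV

/-!
# Row 336, CORE: algebra of the leaf metrics (helper50)
-/

set_option autoImplicit false
set_option linter.unusedSectionVars false

open Matrix Finset
open scoped ComplexOrder MatrixOrder Matrix.Norms.L2Operator InnerProductSpace

namespace Crest.Agent.N336.C

open Crest.Agent.N336.Q Crest.Agent.N336.Eng Crest.Agent.N336.R

section abstract

variable {n : Type} [Fintype n] [DecidableEq n] {a a' U H M N : Matrix n n ℂ}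

lemma herm_rsmul (h : a.IsHermitian) (c : ℝ) : (c • a).IsHermitian := by
  unfold Matrix.IsHermitian; rw [conjTranspose_smul, h.eq]; rfl

lemma ee_herm (a : Matrix n n ℂ) : (ee a).IsHermitian := fr_isHermitian _ _

lemma commute_ee (ha : a.IsHermitian) (h : Commute a M) : Commute (ee a) M :=
  commute_fc_left _ ha h

lemma commute_ee_ee (ha : a.IsHermitian) (hU : U.IsHermitian) (h : Commute a U) :
    Commute (ee a) (ee U) := commute_fc_fc ha hU h

lemma rsmul_mono {c : ℝ} (hc : 0 ≤ c) (h : M ≤ N) : c • M ≤ c • N := by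
  rw [Matrix.le_iff, ← smul_sub]; exact (Matrix.le_iff.1 h).smul hc

lemma rsmul_le_rsmul {c c' : ℝ} (hc : c ≤ c') (h : M.PosSemidef) : c • M ≤ c' • M := by
  rw [Matrix.le_iff, ← sub_smul]; exact h.smul (sub_nonneg.2 hc)

lemma qf_rsmul (v : Q.Vec n) (c : ℝ) (M : Matrix n n ℂ) : qf v (c • M) = c * qf v M := by
  rw [← qf_smul]; rfl

lemma qf_conj' (v : Q.Vec n) (hU : U.IsHermitian) (M : Matrix n n ℂ) :
    qf v (U * M * U) = qf (ap U v) M := by
  rw [qf, qf, ap_mul, ap_mul, inner_ap_right, hU.eq]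

lemma qf_mono (v : Q.Vec n) (h : M ≤ N) : qf v M ≤ qf v N := re_inner_ap_mono h v

/-- adding a commuting summand preserves an inequality between exponentials -/
lemma ee_two_add_le (ha : a.IsHermitian) (ha' : a'.IsHermitian) (hU : U.IsHermitian)
    (h1 : Commute a U) (h2 : Commute a' U) {c : ℝ}
    (h : ee ((2 : ℝ) • a') ≤ c • ee ((2 : ℝ) • a)) :
    ee ((2 : ℝ) • (a' + U)) ≤ c • ee ((2 : ℝ) • (a + U)) := by
  have k1 : Commute ((2 : ℝ) • a) ((2 : ℝ) • U) := (h1.smul_left _).smul_right _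
  have k2 : Commute ((2 : ℝ) • a') ((2 : ℝ) • U) := (h2.smul_left _).smul_right _
  rw [smul_add, smul_add, ee_add (herm_rsmul ha' _) (herm_rsmul hU _) k2,
    ee_add (herm_rsmul ha _) (herm_rsmul hU _) k1, ← Matrix.smul_mul]
  exact mul_le_mul_comm h (ee_posDef _).posSemidef
    (commute_ee_ee (herm_rsmul ha' _) (herm_rsmul hU _) k2)
    ((commute_ee_ee (herm_rsmul ha _) (herm_rsmul hU _) k1).smul_left c)

lemma ee_conj_add (ha : a.IsHermitian) (hU : U.IsHermitian) (h1 : Commute a U)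
    (h2 : Commute U H) : ee (-(a + U)) * H * ee (a + U) = ee (-a) * H * ee a := by
  rw [neg_add, ee_add ha.neg hU.neg h1.neg_left.neg_right, add_comm a U, ee_add hU ha h1.symm,
    Matrix.mul_assoc (ee (-a)), (commute_ee hU.neg h2.neg_left).eq]
  simp only [Matrix.mul_assoc]
  rw [← Matrix.mul_assoc (ee (-U)), ee_neg_mul_ee hU, Matrix.one_mul]

lemma ee_sandwich_add (ha : a.IsHermitian) (ha' : a'.IsHermitian) (hU : U.IsHermitian)
    (h1 : Commute a U) (h2 : Commute a' U) :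
    ee (-(a + U)) * ee ((2 : ℝ) • (a' + U)) * ee (-(a + U)) =
      ee (-a) * ee ((2 : ℝ) • a') * ee (-a) := by
  have k2 : Commute ((2 : ℝ) • a') ((2 : ℝ) • U) := (h2.smul_left _).smul_right _
  have e1 : ee (-(a + U)) = ee (-a) * ee (-U) := by
    rw [neg_add, ee_add ha.neg hU.neg h1.neg_left.neg_right]
  have e2 : ee (-(a + U)) = ee (-U) * ee (-a) := by
    rw [e1, (commute_ee_ee ha.neg hU.neg h1.neg_left.neg_right).eq]
  have e3 : ee ((2 : ℝ) • U) = ee U * ee U := by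
    rw [two_smul, ee_add hU hU (Commute.refl U)]
  have c1 : Commute (ee (-U)) (ee ((2 : ℝ) • a')) :=
    commute_ee_ee hU.neg (herm_rsmul ha' _) (h2.symm.neg_left.smul_right _)
  calc _ = ee (-a) * ee (-U) * (ee ((2 : ℝ) • a') * (ee U * ee U)) * (ee (-U) * ee (-a)) := by
        rw [← e1, ← e2, ← e3, smul_add, ee_add (herm_rsmul ha' _) (herm_rsmul hU _) k2]
    _ = ee (-a) * (ee (-U) * ee ((2 : ℝ) • a') * ee U) * (ee U * ee (-U)) * ee (-a) := by
        simp only [Matrix.mul_assoc]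
    _ = _ := by
        rw [c1.eq, Matrix.mul_assoc (ee ((2 : ℝ) • a')), ee_neg_mul_ee hU, ee_mul_ee_neg hU,
          Matrix.mul_one, Matrix.mul_one]

/-- inversion of an inequality between exponentials -/
lemma ee_neg_le (ha : a.IsHermitian) (ha' : a'.IsHermitian) {c : ℝ} (hc : 0 < c)
    (h : ee ((2 : ℝ) • a) ≤ c • ee ((2 : ℝ) • a')) :
    ee ((2 : ℝ) • -a') ≤ c • ee ((2 : ℝ) • -a) := by
  have h1 := rsmul_mono hc.le (inv_anti (ee_posDef _) h)
  have h2 : (c • ee ((2 : ℝ) • a'))⁻¹ = c⁻¹ • ee ((2 : ℝ) • -a') := by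
    refine Matrix.inv_eq_left_inv ?_
    rw [Matrix.smul_mul, Matrix.mul_smul, smul_smul, inv_mul_cancel₀ hc.ne', one_smul, smul_neg,
      ee_neg_mul_ee (herm_rsmul ha' _)]
  rwa [h2, smul_smul, mul_inv_cancel₀ hc.ne', one_smul, ← ee_neg (herm_rsmul ha _),
    ← smul_neg] at h1

end abstract

variable {ι : Type} [Fintype ι] [DecidableEq ι] {d : ι → Type} [∀ x, Fintype (d x)]
  [∀ x, DecidableEq (d x)] [∀ x, Nonempty (d x)] {I : Type} [Fintype I] [DecidableEq I]
  {R : Rp d I} {K : ℕ} {A₁ : Finset ι}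

/-- logarithm of the factor of one band -/
noncomputable def Rp.loc (R : Rp d I) (A₁ : Finset ι) (p : Finset ι × Finset ι) : Matrix I I ℂ :=
  R.lw true p.1 + R.lw true p.2 - R.lw false (p.2 \ p.1) - (2 : ℝ) • R.lw false A₁

/-- logarithm of the square root of the leaf metric -/
noncomputable def Rp.Lg (R : Rp d I) (A₁ : Finset ι) (c : Cnf ι K) : Matrix I I ℂ :=
  ∑ g, R.loc A₁ (c g)

/-- the other bands -/
noncomputable def Rp.rest (R : Rp d I) (A₁ : Finset ι) (c : Cnf ι K) (g : Fin K) : Matrix I I ℂ :=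
  ∑ g' ∈ univ.erase g, R.loc A₁ (c g') - (2 : ℝ) • R.lw false A₁

/-- laminar configurations -/
def Lam (A₁ : Finset ι) (c : Cnf ι K) : Prop :=
  ∀ g, (c g).1 ⊆ (c g).2 ∧ Disjoint (c g).2 A₁ ∧ ∀ g', g < g' → (c g).2 ⊆ (c g').1

lemma Lg_update (R : Rp d I) (c : Cnf ι K) (g : Fin K) (p : Finset ι × Finset ι) :
    R.Lg A₁ (Function.update c g p) =
      R.lw true p.1 + R.lw true p.2 - R.lw false (p.2 \ p.1) + R.rest A₁ c g := by
  rw [Rp.Lg, ← Finset.add_sum_erase _ _ (mem_univ g), Function.update_self, Rp.rest,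
    Finset.sum_congr rfl fun g' hg' => by rw [Function.update_of_ne (ne_of_mem_erase hg')], Rp.loc]
  abel

lemma Lg_eq (R : Rp d I) (c : Cnf ι K) (g : Fin K) :
    R.Lg A₁ c = R.lw true (c g).1 + R.lw true (c g).2 - R.lw false ((c g).2 \ (c g).1) +
      R.rest A₁ c g := by
  rw [← Lg_update, Function.update_eq_self]

namespace Rp.Alg

variable (hR : R.Alg)
include hR

lemma loc_herm (p : Finset ι × Finset ι) : (R.loc A₁ p).IsHermitian :=
  (((hR.herm _ _).add (hR.herm _ _)).sub (hR.herm _ _)).sub (herm_rsmul (hR.herm _ _) _)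

lemma sum_loc_herm (s : Finset (Fin K)) (c : Cnf ι K) :
    (∑ g ∈ s, R.loc A₁ (c g)).IsHermitian := by
  unfold Matrix.IsHermitian
  rw [conjTranspose_sum]
  exact Finset.sum_congr rfl fun g _ => (hR.loc_herm _).eq

lemma Lg_herm (c : Cnf ι K) : (R.Lg A₁ c).IsHermitian := hR.sum_loc_herm _ c

lemma rest_herm (c : Cnf ι K) (g : Fin K) : (R.rest A₁ c g).IsHermitian :=
  (hR.sum_loc_herm _ c).sub (herm_rsmul (hR.herm _ _) _)

lemma comm' (b b' : Bool) {A A' : Finset ι} (h : A' ⊆ A ∨ A ⊆ A' ∨ Disjoint A A') :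
    Commute (R.lw b A) (R.lw b' A') := by
  rcases h with h | h
  · exact (hR.comm _ _ _ _ (.inl h)).symm
  · exact hR.comm _ _ _ _ h

omit hR in
lemma comm_loc {M : Matrix I I ℂ} {p : Finset ι × Finset ι} (h1 : Commute M (R.lw true p.1))
    (h2 : Commute M (R.lw true p.2)) (h3 : Commute M (R.lw false (p.2 \ p.1)))
    (h4 : Commute M (R.lw false A₁)) : Commute M (R.loc A₁ p) :=
  ((h1.add_right h2).sub_right h3).sub_right (h4.smul_right _)

lemma comm_rest {c : Cnf ι K} (hc : Lam A₁ c) (g : Fin K) (b : Bool) {B : Finset ι}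
    (h1 : B ⊆ (c g).2) (h2 : (c g).1 ⊆ B ∨ Disjoint B (c g).1) :
    Commute (R.lw b B) (R.rest A₁ c g) := by
  have hA : Commute (R.lw b B) (R.lw false A₁) :=
    hR.comm _ _ _ _ (.inr ((hc g).2.1.mono_left h1))
  refine (Commute.sum_right _ _ _ fun g' hg' => ?_).sub_right (hA.smul_right _)
  rcases lt_or_gt_of_ne (ne_of_mem_erase hg') with h | h
  · have k : ∀ b' X, X ⊆ (c g').2 → Commute (R.lw b B) (R.lw b' X) := fun b' X hX => by
      have hX' := hX.trans ((hc g').2.2 g h)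
      rcases h2 with h2 | h2
      · exact hR.comm' _ _ (.inl (hX'.trans h2))
      · exact hR.comm' _ _ (.inr (.inr (h2.mono_right hX')))
    exact comm_loc (k _ _ (hc g').1) (k _ _ Subset.rfl) (k _ _ sdiff_subset) hA
  · have k := h1.trans ((hc g).2.2 g' h)
    exact comm_loc (hR.comm _ _ _ _ (.inl k)) (hR.comm _ _ _ _ (.inl (k.trans (hc g').1)))
      (hR.comm _ _ _ _ (.inr (disjoint_sdiff.mono_left k))) hA

omit hR in
/-- a matrix attached to a set that does not cross the band commutes with the band -/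
lemma comm_loc_of {M : Matrix I I ℂ} {Z : Finset ι}
    (hM : ∀ b A, Z ⊆ A ∨ Disjoint Z A → Commute (R.lw b A) M) (hA : Disjoint Z A₁)
    {p : Finset ι × Finset ι} (h1 : Z ⊆ p.1 ∨ Disjoint Z p.1) (h2 : Z ⊆ p.2 ∨ Disjoint Z p.2) :
    Commute M (R.loc A₁ p) := by
  refine comm_loc (hM _ _ h1).symm (hM _ _ h2).symm (hM _ _ ?_).symm (hM _ _ (.inr hA)).symm
  rcases h1 with h1 | h1
  · exact .inr (disjoint_sdiff.mono_left h1)
  · rcases h2 with h2 | h2
    · exact .inl (subset_sdiff.2 ⟨h2, h1⟩)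
    · exact .inr (h2.mono_right sdiff_subset)

omit hR in
lemma comm_rest_of {c : Cnf ι K} (hc : Lam A₁ c) (g : Fin K) {M : Matrix I I ℂ} {Z : Finset ι}
    (hM : ∀ b A, Z ⊆ A ∨ Disjoint Z A → Commute (R.lw b A) M) (hA : Disjoint Z A₁)
    (h1 : ∀ g', g' < g → Disjoint Z (c g').2) (h2 : ∀ g', g < g' → Z ⊆ (c g').1) :
    Commute (R.rest A₁ c g) M := by
  refine ((Commute.sum_right _ _ _ fun g' hg' => ?_).sub_right
    ((hM _ _ (.inr hA)).symm.smul_right _)).symm
  rcases lt_or_gt_of_ne (ne_of_mem_erase hg') with h | h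
  · exact comm_loc_of hM hA (.inr ((h1 g' h).mono_right (hc g').1)) (.inr (h1 g' h))
  · exact comm_loc_of hM hA (.inl (h2 g' h)) (.inl ((h2 g' h).trans (hc g').1))

omit hR in
lemma comm_Lg_of {c : Cnf ι K} {M : Matrix I I ℂ} {Z : Finset ι}
    (hM : ∀ b A, Z ⊆ A ∨ Disjoint Z A → Commute (R.lw b A) M) (hA : Disjoint Z A₁)
    (h : ∀ g, ¬ Crs Z (c g).1 ∧ ¬ Crs Z (c g).2) : Commute M (R.Lg A₁ c) := by
  have k : ∀ A, ¬ Crs Z A → Z ⊆ A ∨ Disjoint Z A := fun A hA => by
    unfold Crs at hA; tauto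
  exact Commute.sum_right _ _ _ fun g _ => comm_loc_of hM hA (k _ (h g).1) (k _ (h g).2)

/-- decomposition for a move of the front `P` -/
lemma dec_P {c : Cnf ι K} (hc : Lam A₁ c) (g : Fin K) :
    ∃ U : Matrix I I ℂ, U.IsHermitian ∧
      (∀ P', (c g).1 ⊆ P' → P' ⊆ (c g).2 →
        R.Lg A₁ (Function.update c g (P', (c g).2)) =
          (R.lw true P' - R.lw false ((c g).2 \ P')) + U ∧
        Commute (R.lw true P' - R.lw false ((c g).2 \ P')) U) ∧
      U = R.lw true (c g).2 + R.rest A₁ c g := by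
  refine ⟨_, (hR.herm _ _).add (hR.rest_herm c g), fun P' h1 h2 => ⟨?_, ?_⟩, rfl⟩
  · rw [Lg_update]; abel
  · exact ((hR.comm _ _ _ _ (.inl h2)).add_right (hR.comm_rest hc g _ h2 (.inl h1))).sub_left
      ((hR.comm _ _ _ _ (.inl sdiff_subset)).add_right
        (hR.comm_rest hc g _ sdiff_subset (.inr (sdiff_disjoint.mono_right h1))))

/-- decomposition for a move of the front `R` -/
lemma dec_R {c : Cnf ι K} (hc : Lam A₁ c) (g : Fin K) :
    ∃ U : Matrix I I ℂ, U.IsHermitian ∧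
      (∀ R', (c g).1 ⊆ R' → R' ⊆ (c g).2 →
        R.Lg A₁ (Function.update c g ((c g).1, R')) =
          (R.lw true R' - R.lw false (R' \ (c g).1)) + U ∧
        Commute (R.lw true R' - R.lw false (R' \ (c g).1)) U) ∧
      U = R.lw true (c g).1 + R.rest A₁ c g := by
  refine ⟨_, (hR.herm _ _).add (hR.rest_herm c g), fun R' h1 h2 => ⟨?_, ?_⟩, rfl⟩
  · rw [Lg_update]; abel
  · exact ((hR.comm' _ _ (.inl h1)).add_right (hR.comm_rest hc g _ h2 (.inl h1))).sub_left
      ((hR.comm _ _ _ _ (.inr sdiff_disjoint)).add_right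
        (hR.comm_rest hc g _ (sdiff_subset.trans h2) (.inr sdiff_disjoint)))

end Rp.Alg

end Crest.Agent.N336.C
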