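import Crest.Agent.N336.C.RigA

/-!
# Row 336, CORE: monotonicity and gain of the moves (helper50)
-/

set_option autoImplicit false
set_option linter.unusedSectionVars false

open Matrix Finset
open scoped ComplexOrder MatrixOrder Matrix.Norms.L2Operator InnerProductSpace

namespace Crest.Agent.N336.C

open Crest.Agent.N336.Q Crest.Agent.N336.Eng Crest.Agent.N336.R

section abstract

variable {n : Type} [Fintype n] [DecidableEq n] {a a' U x y : Matrix n n ℂ}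

lemma ee_sub (hx : x.IsHermitian) (hy : y.IsHermitian) (h : Commute x y) :
    ee (x - y) = ee x * ee (-y) := by
  rw [sub_eq_add_neg, ee_add hx hy.neg h.neg_right]

lemma ee_two (hx : x.IsHermitian) : ee ((2 : ℝ) • x) = ee x * ee x := by
  rw [two_smul, ee_add hx hx (Commute.refl x)]

/-- `x` commutes with everything and moves inside -/
lemma sandwich_eq (hx : x.IsHermitian) (hy : y.IsHermitian) (ha : a'.IsHermitian)
    (h1 : Commute x y) (h2 : Commute x a') :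
    ee (-(x - y)) * ee ((2 : ℝ) • a') * ee (-(x - y)) =
      ee y * ee ((2 : ℝ) • (a' - x)) * ee y := by
  have e1 : ee (-(x - y)) = ee y * ee (-x) := by rw [neg_sub, ee_sub hy hx h1.symm]
  have e2 : ee (-(x - y)) = ee (-x) * ee y := by
    rw [e1, (commute_ee_ee hy hx.neg h1.symm.neg_right).eq]
  have e3 : ee ((2 : ℝ) • (a' - x)) = ee (-x) * ee ((2 : ℝ) • a') * ee (-x) := by
    rw [(commute_ee_ee hx.neg (herm_rsmul ha _) (h2.neg_left.smul_right _)).eq, Matrix.mul_assoc,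
      ← ee_two hx.neg, ← ee_add (herm_rsmul ha _) (herm_rsmul hx.neg _)
        ((h2.symm.neg_right.smul_left _).smul_right _), ← smul_add, sub_eq_add_neg]
  conv_lhs => arg 1; arg 1; rw [e1]
  rw [e2, e3]
  simp only [Matrix.mul_assoc]

lemma qf_sandwich (hy : y.IsHermitian) (ha : a.IsHermitian) (v : Q.Vec n) :
    qf v (ee y * ee ((2 : ℝ) • a) * ee y) = ‖ap (ee a * ee y) v‖ ^ 2 := by
  rw [norm_ap_sq, conjTranspose_mul, (ee_herm y).eq, (ee_herm a).eq, ee_two ha]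
  simp only [Matrix.mul_assoc]

end abstract

variable {ι : Type} [Fintype ι] [DecidableEq ι] {d : ι → Type} [∀ x, Fintype (d x)]
  [∀ x, DecidableEq (d x)] [∀ x, Nonempty (d x)] {I : Type} [Fintype I] [DecidableEq I]
  {R : Rp d I} {K : ℕ} {A₁ : Finset ι} {V : Type} [Fintype V] {h : V → Q.Op d}
  {Z : V → Finset ι} {a : ℕ} {C J l s δ : ℝ}

section moves

variable (hR : R.Alg) (hS : R.Asy h Z a C J l s δ)
include hR hS

/-- local monotonicity for the front `R` -/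
lemma mono_loc_R {F y Y : Finset ι} (h1 : Disjoint F y) (h2 : Disjoint F Y) (h3 : Disjoint y Y) :
    ee ((2 : ℝ) • (R.lw true (F ∪ y)ᶜ - R.lw false Y)) ≤
      Real.exp (3 * (δ * R.k)) • ee ((2 : ℝ) • (R.lw true Fᶜ - R.lw false (Y ∪ y))) := by
  have hc := (Real.exp_pos (δ * R.k)).le
  have d1 : Disjoint (F ∪ y) Y := disjoint_union_left.2 ⟨h2, h3⟩
  have d2 : Disjoint F (Y ∪ y) := disjoint_union_right.2 ⟨h2, h1⟩
  have s1 := hS.compl (F ∪ y)ᶜ
  rw [compl_compl] at s1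
  have t1 := ee_two_add_le (hR.herm _ _) (hR.herm _ _) (hR.herm false Y).neg
    (hR.comm _ _ _ _ (.inr d1)).neg_right
    (hR.comm' _ _ (.inl (subset_compl_iff_disjoint_left.2 d1))).neg_right s1
  have t2 := hS.mono F y Y h1 h2 h3
  have t3 := ee_two_add_le (hR.herm _ _) (hR.herm _ _) (hR.herm false (Y ∪ y)).neg
    (hR.comm' _ _ (.inl (subset_compl_iff_disjoint_left.2 d2))).neg_right
    (hR.comm _ _ _ _ (.inr d2)).neg_right (hS.compl F)
  simp only [← sub_eq_add_neg] at t1 t3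
  refine t1.trans ((rsmul_mono hc (t2.trans (rsmul_mono hc t3))).trans (le_of_eq ?_))
  rw [smul_smul, smul_smul, ← Real.exp_add, ← Real.exp_add]
  congr 2; ring

/-- local gain for the front `P` -/
lemma gain_loc_P {P y Y : Finset ι} (h1 : Disjoint P y) (h2 : Disjoint P Y) (h3 : Disjoint y Y)
    (hl : Real.log (dim d y) ≤ l) {χ : Q.Vec (Cfg d)} (hχ : ‖χ‖ = 1) :
    qf (R.cv χ) (ee (-(R.lw true P - R.lw false (Y ∪ y))) *
      ee ((2 : ℝ) • (R.lw true (P ∪ y) - R.lw false Y)) *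
      ee (-(R.lw true P - R.lw false (Y ∪ y)))) ≤
      Real.exp (R.k * (-(2 * s * eta χ P y Y) + C * s ^ (1 + (1 : ℝ) / a) * l ^ a + δ)) := by
  have ha := (hR.herm true (P ∪ y)).sub (hR.herm false Y)
  rw [sandwich_eq (hR.herm _ _) (hR.herm _ _) ha
    (hR.comm _ _ _ _ (.inr (disjoint_union_right.2 ⟨h2, h1⟩)))
    ((hR.comm _ _ _ _ (.inl subset_union_left)).sub_right (hR.comm _ _ _ _ (.inr h2))),
    qf_sandwich (hR.herm _ _) (ha.sub (hR.herm _ _)), sub_right_comm]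
  exact hS.gain P y Y h1 h2 h3 hl χ hχ

/-- local gain for the front `R` -/
lemma gain_loc_R {F y Y : Finset ι} (h1 : Disjoint F y) (h2 : Disjoint F Y) (h3 : Disjoint y Y)
    (hl : Real.log (dim d y) ≤ l) {χ : Q.Vec (Cfg d)} (hχ : ‖χ‖ = 1) :
    qf (R.cv χ) (ee (-(R.lw true Fᶜ - R.lw false (Y ∪ y))) *
      ee ((2 : ℝ) • (R.lw true (F ∪ y)ᶜ - R.lw false Y)) *
      ee (-(R.lw true Fᶜ - R.lw false (Y ∪ y)))) ≤
      Real.exp (R.k * (-(2 * s * eta χ F y Y) + C * s ^ (1 + (1 : ℝ) / a) * l ^ a + 3 * δ)) := by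
  have hc := (Real.exp_pos (δ * R.k)).le
  have d1 : Disjoint (F ∪ y) Y := disjoint_union_left.2 ⟨h2, h3⟩
  have d2 : Disjoint F (Y ∪ y) := disjoint_union_right.2 ⟨h2, h1⟩
  have q1 : (F ∪ y)ᶜ ⊆ Fᶜ := compl_subset_compl.2 subset_union_left
  have q2 : Y ⊆ Fᶜ := subset_compl_iff_disjoint_left.2 h2
  have q3 : Y ⊆ (F ∪ y)ᶜ := subset_compl_iff_disjoint_left.2 d1
  have q4 : Disjoint (F ∪ y)ᶜ F := disjoint_compl_left.mono_right subset_union_left
  have ha := (hR.herm true (F ∪ y)ᶜ).sub (hR.herm false Y)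
  have cF : Commute (R.lw true Fᶜ) (R.lw true (F ∪ y)ᶜ - R.lw false Y) :=
    (hR.comm' _ _ (.inl q1)).sub_right (hR.comm' _ _ (.inl q2))
  rw [sandwich_eq (hR.herm _ _) (hR.herm _ _) ha
    (hR.comm' _ _ (.inl (subset_compl_iff_disjoint_left.2 d2))) cF]
  have t1 := ee_two_add_le (hR.herm true F).neg (hR.herm true Fᶜ).neg ha
    ((hR.comm _ _ _ _ (.inr q4.symm)).sub_right (hR.comm _ _ _ _ (.inr h2))).neg_left cF.neg_left
    (ee_neg_le (hR.herm _ _) (hR.herm _ _) (Real.exp_pos _) (hS.compl F))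
  have s1 := hS.compl (F ∪ y)ᶜ
  rw [compl_compl] at s1
  have t2 := ee_two_add_le (hR.herm _ _) (hR.herm _ _)
    ((hR.herm true F).neg.sub (hR.herm false Y))
    ((hR.comm' _ _ (.inl subset_union_left)).neg_right.sub_right (hR.comm _ _ _ _ (.inr d1)))
    ((hR.comm _ _ _ _ (.inr q4)).neg_right.sub_right (hR.comm' _ _ (.inl q3))) s1
  have e1 : -R.lw true Fᶜ + (R.lw true (F ∪ y)ᶜ - R.lw false Y) =
      R.lw true (F ∪ y)ᶜ - R.lw false Y - R.lw true Fᶜ := by abel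
  have e2 : -R.lw true F + (R.lw true (F ∪ y)ᶜ - R.lw false Y) =
      R.lw true (F ∪ y)ᶜ + (-R.lw true F - R.lw false Y) := by abel
  have e3 : R.lw true (F ∪ y) + (-R.lw true F - R.lw false Y) =
      R.lw true (F ∪ y) - R.lw true F - R.lw false Y := by abel
  rw [e1, e2] at t1
  rw [e3] at t2
  have t3 := conj_mono (t1.trans (rsmul_mono hc t2)) (ee (R.lw false (Y ∪ y)))
  rw [(ee_herm _).eq, smul_smul, Matrix.mul_smul, Matrix.smul_mul] at t3
  refine (qf_mono _ t3).trans ?_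
  rw [qf_rsmul, qf_sandwich (hR.herm _ _) (((hR.herm _ _).sub (hR.herm _ _)).sub (hR.herm _ _))]
  refine (mul_le_mul_of_nonneg_left (hS.gain F y Y h1 h2 h3 hl χ hχ) (by positivity)).trans
    (le_of_eq ?_)
  rw [← Real.exp_add, ← Real.exp_add]
  congr 1; ring

lemma mono_P (hδ : 0 ≤ δ) {c : Cnf ι K} (hc : Lam A₁ c) (g : Fin K) {P' : Finset ι}
    (h1 : (c g).1 ⊆ P') (h2 : P' ⊆ (c g).2) :
    ee ((2 : ℝ) • R.Lg A₁ (Function.update c g (P', (c g).2))) ≤
      Real.exp (3 * (δ * R.k)) • ee ((2 : ℝ) • R.Lg A₁ c) := by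
  obtain ⟨U, hU, H, -⟩ := hR.dec_P hc g
  obtain ⟨e1, c1⟩ := H P' h1 h2
  obtain ⟨e0, c0⟩ := H _ Subset.rfl (hc g).1
  rw [Prod.mk.eta, Function.update_eq_self] at e0
  rw [e1, e0]
  refine ee_two_add_le ((hR.herm _ _).sub (hR.herm _ _)) ((hR.herm _ _).sub (hR.herm _ _)) hU c0
    c1 ?_
  have := hS.mono (c g).1 (P' \ (c g).1) ((c g).2 \ P') disjoint_sdiff
    (disjoint_sdiff.mono_left h1) (disjoint_sdiff.mono_left sdiff_subset)
  rw [union_sdiff_of_subset h1, sdiff_union_sdiff_cancel h2 h1] at this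
  refine this.trans (rsmul_le_rsmul (Real.exp_le_exp.2 ?_) (ee_posDef _).posSemidef)
  have : 0 ≤ δ * R.k := by positivity
  linarith

omit hR hS in
lemma compl_union_sdiff {X X' : Finset ι} (h : X' ⊆ X) : (Xᶜ ∪ X \ X')ᶜ = X' := by
  ext x
  have := @h x
  simp only [mem_compl, mem_union, mem_sdiff]; tauto

lemma mono_R {c : Cnf ι K} (hc : Lam A₁ c) (g : Fin K) {R' : Finset ι}
    (h1 : (c g).1 ⊆ R') (h2 : R' ⊆ (c g).2) :
    ee ((2 : ℝ) • R.Lg A₁ (Function.update c g ((c g).1, R'))) ≤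
      Real.exp (3 * (δ * R.k)) • ee ((2 : ℝ) • R.Lg A₁ c) := by
  obtain ⟨U, hU, H, -⟩ := hR.dec_R hc g
  obtain ⟨e1, c1⟩ := H R' h1 h2
  obtain ⟨e0, c0⟩ := H _ (hc g).1 Subset.rfl
  rw [Prod.mk.eta, Function.update_eq_self] at e0
  rw [e1, e0]
  refine ee_two_add_le ((hR.herm _ _).sub (hR.herm _ _)) ((hR.herm _ _).sub (hR.herm _ _)) hU c0
    c1 ?_
  have := mono_loc_R hR hS (F := (c g).2ᶜ) (y := (c g).2 \ R') (Y := R' \ (c g).1)
    (disjoint_compl_left.mono_right sdiff_subset)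
    (disjoint_compl_left.mono_right (sdiff_subset.trans h2))
    (sdiff_disjoint.mono_right sdiff_subset)
  rwa [compl_union_sdiff h2, compl_compl, union_comm (R' \ _), sdiff_union_sdiff_cancel h2 h1]
    at this

end moves

/-- number of absorbed sites -/
def cnt (c : Cnf ι K) : ℕ := ∑ g, ((c g).1.card + (c g).2ᶜ.card)

lemma cnt_update (c : Cnf ι K) (g : Fin K) (p : Finset ι × Finset ι) :
    cnt (Function.update c g p) + ((c g).1.card + (c g).2ᶜ.card) =
      cnt c + (p.1.card + p.2ᶜ.card) := by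
  rw [cnt, cnt, ← Finset.add_sum_erase _ _ (mem_univ g), ← Finset.add_sum_erase _ _ (mem_univ g),
    Function.update_self,
    Finset.sum_congr rfl fun g' hg' => by rw [Function.update_of_ne (ne_of_mem_erase hg')]]
  ring

lemma cnt_le (c : Cnf ι K) : cnt c ≤ K * (2 * Fintype.card ι) := by
  refine (Finset.sum_le_card_nsmul _ _ (2 * Fintype.card ι) fun g _ => ?_).trans (by simp)
  have := card_le_univ (c g).1
  have := card_le_univ (c g).2ᶜ
  omega

/-- logarithm of the square root of the leaf metric with slack -/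
noncomputable def Rp.Lf (R : Rp d I) (A₁ : Finset ι) (δ : ℝ) (c : Cnf ι K) : Matrix I I ℂ :=
  R.Lg A₁ c + (-(3 / 2 * (δ * R.k) * cnt c) : ℝ) • (1 : Matrix I I ℂ)

/-- the leaf metric -/
noncomputable def Rp.Am (R : Rp d I) (A₁ : Finset ι) (δ : ℝ) (c : Cnf ι K) : Matrix I I ℂ :=
  ee ((2 : ℝ) • R.Lf A₁ δ c)

lemma Lf_herm (hR : R.Alg) (c : Cnf ι K) : (R.Lf A₁ δ c).IsHermitian :=
  (hR.Lg_herm c).add (herm_rsmul isHermitian_one _)

lemma Am_eq (hR : R.Alg) (c : Cnf ι K) :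
    R.Am A₁ δ c = Real.exp (-(3 * (δ * R.k) * cnt c)) • ee ((2 : ℝ) • R.Lg A₁ c) := by
  rw [Rp.Am, Rp.Lf, smul_add, smul_smul, ee_add_smul_one (herm_rsmul (hR.Lg_herm c) _)]
  congr 2; ring

lemma ee_Lf (hR : R.Alg) (c : Cnf ι K) :
    ee (R.Lf A₁ δ c) = Real.exp (-(3 / 2 * (δ * R.k) * cnt c)) • ee (R.Lg A₁ c) := by
  rw [Rp.Lf, ee_add_smul_one (hR.Lg_herm c)]

lemma ee_neg_Lf (hR : R.Alg) (c : Cnf ι K) :
    ee (-R.Lf A₁ δ c) = Real.exp (3 / 2 * (δ * R.k) * cnt c) • ee (-R.Lg A₁ c) := by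
  rw [Rp.Lf, neg_add, ← neg_smul, neg_neg, ee_add_smul_one (hR.Lg_herm c).neg]

lemma Am_step (hR : R.Alg) (hδ : 0 ≤ δ) {c c' : Cnf ι K} (h1 : cnt c + 1 ≤ cnt c')
    (h2 : ee ((2 : ℝ) • R.Lg A₁ c') ≤ Real.exp (3 * (δ * R.k)) • ee ((2 : ℝ) • R.Lg A₁ c)) :
    R.Am A₁ δ c' ≤ R.Am A₁ δ c := by
  rw [Am_eq hR, Am_eq hR]
  refine (rsmul_mono (Real.exp_pos _).le h2).trans ?_
  rw [smul_smul, ← Real.exp_add]
  refine rsmul_le_rsmul (Real.exp_le_exp.2 ?_) (ee_posDef _).posSemidef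
  have h3 : (cnt c : ℝ) + 1 ≤ cnt c' := by exact_mod_cast h1
  have : 0 ≤ δ * R.k := by positivity
  nlinarith

lemma Am_update (hR : R.Alg) (hS : R.Asy h Z a C J l s δ) (hδ : 0 ≤ δ) {c : Cnf ι K} (g : Fin K)
    {p : Finset ι × Finset ι} (hc : Lam A₁ c) (hc' : Lam A₁ (Function.update c g (p.1, (c g).2)))
    (h1 : (c g).1 ⊆ p.1) (h2 : p.1 ⊆ p.2) (h3 : p.2 ⊆ (c g).2) :
    R.Am A₁ δ (Function.update c g p) ≤ R.Am A₁ δ c := by
  set c' := Function.update c g (p.1, (c g).2) with hcd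
  have s1 : R.Am A₁ δ c' ≤ R.Am A₁ δ c := by
    rcases h1.eq_or_ssubset with e | e
    · rw [hcd, ← e, Prod.mk.eta, Function.update_eq_self]
    · refine Am_step hR hδ ?_ (mono_P hR hS hδ hc g h1 (h2.trans h3))
      have k1 := cnt_update c g (p.1, (c g).2)
      have k2 := card_lt_card e
      rw [← hcd] at k1
      simp only at k1
      omega
  have e1 : c' g = (p.1, (c g).2) := by rw [hcd, Function.update_self]
  have e2 : Function.update c g p = Function.update c' g ((c' g).1, p.2) := by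
    rw [e1, hcd, Function.update_idem]
  refine le_trans ?_ s1
  rw [e2]
  rcases h3.eq_or_ssubset with e | e
  · have : ((c' g).1, p.2) = c' g := by rw [e1, e]
    rw [this, Function.update_eq_self]
  · refine Am_step hR hδ ?_ (mono_R hR hS hc' g (by rw [e1]; exact h2) (by rw [e1]; exact h3))
    have := cnt_update c' g ((c' g).1, p.2)
    have h4 := card_lt_card (compl_ssubset_compl.2 e)
    have h5 : (c' g).2 = (c g).2 := by rw [e1]
    rw [h5] at this
    simp only at *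
    omega

end Crest.Agent.N336.C
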