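import Crest.Agent.N336.C.RigB

/-!
# Row 336, CORE: the local data of a crossing term (helper50)
-/

set_option autoImplicit false
set_option linter.unusedSectionVars false

open Matrix Finset
open scoped ComplexOrder MatrixOrder Matrix.Norms.L2Operator InnerProductSpace

namespace Crest.Agent.N336.C

open Crest.Agent.N336.Q Crest.Agent.N336.Eng Crest.Agent.N336.R

variable {ι : Type} [Fintype ι] [DecidableEq ι] {d : ι → Type} [∀ x, Fintype (d x)]
  [∀ x, DecidableEq (d x)] [∀ x, Nonempty (d x)] {I : Type} [Fintype I] [DecidableEq I]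
  {R : Rp d I} {V : Type} [Fintype V] {h : V → Q.Op d} {a : ℕ} {C J l s δ : ℝ}
  {K w r b₁ b₂ N₀ Na : ℕ} {S : Scn ι V K w r b₁ b₂ N₀ Na}

lemma Scn.Ok.update {c : Cnf ι K} (hc : S.Ok c) (g : Fin K) {p : Finset ι × Finset ι}
    (hp : (S.ini g).1 ⊆ p.1 ∧ p.1 ⊆ (S.fin g).1 ∧ (S.fin g).2 ⊆ p.2 ∧ p.2 ⊆ (S.ini g).2) :
    S.Ok (Function.update c g p) := fun g' => by
  by_cases e : g' = g
  · subst e; rw [Function.update_self]; exact hp
  · rw [Function.update_of_ne e]; exact hc g'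

theorem Am_mono (hR : R.Alg) (hS : R.Asy h S.Z a C J l s δ) (hδ : 0 ≤ δ)
    (hL : ∀ c, S.Ok c → Lam S.A₁ c) {c c' : Cnf ι K} (hc : S.Ok c) (hc' : S.Ok c')
    (H : ∀ g, (c g).1 ⊆ (c' g).1 ∧ (c' g).2 ⊆ (c g).2) : R.Am S.A₁ δ c' ≤ R.Am S.A₁ δ c := by
  have key : ∀ T : Finset (Fin K), R.Am S.A₁ δ (T.piecewise c' c) ≤ R.Am S.A₁ δ c := by
    intro T
    induction T using Finset.induction_on with
    | empty => rw [Finset.piecewise_empty]
    | insert g T hg ih =>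
      have ok : S.Ok (T.piecewise c' c) := fun g' => by
        by_cases e : g' ∈ T
        · rw [Finset.piecewise_eq_of_mem _ _ _ e]; exact hc' g'
        · rw [Finset.piecewise_eq_of_notMem _ _ _ e]; exact hc g'
      have e : T.piecewise c' c g = c g := Finset.piecewise_eq_of_notMem _ _ _ hg
      rw [Finset.piecewise_insert]
      refine le_trans (Am_update hR hS hδ g (hL _ ok) (hL _ (ok.update g ?_)) ?_ (hL _ hc' g).1
        ?_) ih
      · rw [e]; exact ⟨(hc' g).1, (hc' g).2.1, (hc g).2.2⟩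
      · rw [e]; exact (H g).1
      · rw [e]; exact (H g).2
  simpa using key univ

lemma mv_le (c : Cnf ι K) (v : V) (g : Fin K) :
    (c g).1 ⊆ (S.mv c v g).1 ∧ (S.mv c v g).2 ⊆ (c g).2 := by
  unfold Scn.mv
  constructor
  · dsimp only; split_ifs; exacts [subset_union_left, Subset.rfl]
  · dsimp only; split_ifs; exacts [sdiff_subset, Subset.rfl]

lemma cnt_mono {c c' : Cnf ι K} (H : ∀ g, (c g).1 ⊆ (c' g).1 ∧ (c' g).2 ⊆ (c g).2) :
    cnt c ≤ cnt c' :=
  Finset.sum_le_sum fun g _ => add_le_add (card_le_card (H g).1)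
    (card_le_card (compl_subset_compl.2 (H g).2))

/-- the local data of a crossing term -/
structure Loc (R : Rp d I) (S : Scn ι V K w r b₁ b₂ N₀ Na) (h : V → Q.Op d) (s e : ℝ)
    (c : Cnf ι K) (v : V) (P y Y A : Finset ι) : Prop where
  d1 : Disjoint P y
  d2 : Disjoint P Y
  d3 : Disjoint y Y
  s1 : y ⊆ S.Z v
  s2 : S.Z v ⊆ P ∪ y
  side : A = P ∨ A = Pᶜ
  conj : ee (-R.Lg S.A₁ c) * R.hh (h v) * ee (R.Lg S.A₁ c) = R.X A (Y ∪ y) (h v)
  gain : S.act v → ∀ χ : Q.Vec (Cfg d), ‖χ‖ = 1 →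
    qf (R.cv χ) (ee (-R.Lg S.A₁ c) * ee ((2 : ℝ) • R.Lg S.A₁ (S.mv c v)) * ee (-R.Lg S.A₁ c)) ≤
      Real.exp (R.k * (-(2 * s * eta χ P y Y) + e))

lemma X_eq (hR : R.Alg) {A Y : Finset ι} (hc : Commute (R.lw true A) (R.lw false Y))
    (h : Q.Op d) : ee (-(R.lw true A - R.lw false Y)) * R.hh h * ee (R.lw true A - R.lw false Y) =
      R.X A Y h := by
  have e1 : ee (-(R.lw true A - R.lw false Y)) = ee (-R.lw true A) * ee (R.lw false Y) := by
    rw [neg_sub', sub_neg_eq_add, ee_add (hR.herm _ _).neg (hR.herm _ _) hc.neg_left]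
  have e2 : ee (R.lw true A - R.lw false Y) = ee (-R.lw false Y) * ee (R.lw true A) := by
    rw [sub_eq_neg_add, ee_add (hR.herm _ _).neg (hR.herm _ _) hc.symm.neg_left]
  rw [e1, e2, Rp.X]
  simp only [Matrix.mul_assoc]

theorem exists_loc (hR : R.Alg) (hS : R.Asy h S.Z a C J l s δ) (hδ : 0 ≤ δ) {c : Cnf ι K}
    (hc : Lam S.A₁ c) {v : V} (hv : Supp (S.Z v) (h v)) (hl : Real.log (dim d (S.Z v)) ≤ l)
    (hx : ∃ g, S.CrP c v g ∨ S.CrR c v g) :
    ∃ q : Finset ι × Finset ι × Finset ι × Finset ι,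
      Loc R S h s (C * s ^ (1 + (1 : ℝ) / a) * l ^ a + 3 * δ) c v q.1 q.2.1 q.2.2.1 q.2.2.2 := by
  have hM : ∀ b A, S.Z v ⊆ A ∨ Disjoint (S.Z v) A → Commute (R.lw b A) (R.hh (h v)) :=
    fun b A hA => hR.comm_hh b A _ _ hv hA
  obtain ⟨g, ⟨-, x2, x3, x4, x5⟩ | ⟨-, x2, x3, x4, x5⟩⟩ := hx
  · obtain ⟨U, hU, H, hUe⟩ := hR.dec_P hc g
    have p1 : (c g).1 ⊆ (c g).1 ∪ S.Z v := subset_union_left
    have p2 : (c g).1 ∪ S.Z v ⊆ (c g).2 := union_subset (hc g).1 x2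
    obtain ⟨e1, c1⟩ := H _ p1 p2
    obtain ⟨e0, c0⟩ := H _ Subset.rfl (hc g).1
    rw [Prod.mk.eta, Function.update_eq_self] at e0
    have u1 : (c g).1 ∪ S.Z v \ (c g).1 = (c g).1 ∪ S.Z v := union_sdiff_self_eq_union
    have u2 : (c g).2 \ ((c g).1 ∪ S.Z v) ∪ S.Z v \ (c g).1 = (c g).2 \ (c g).1 := by
      ext x
      have := @x2 x
      simp only [mem_union, mem_sdiff]; tauto
    have d1 : Disjoint (c g).1 (S.Z v \ (c g).1) := disjoint_sdiff
    have d2 : Disjoint (c g).1 ((c g).2 \ ((c g).1 ∪ S.Z v)) := disjoint_sdiff.mono_left p1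
    have d3 : Disjoint (S.Z v \ (c g).1) ((c g).2 \ ((c g).1 ∪ S.Z v)) :=
      disjoint_sdiff.mono_left (sdiff_subset.trans subset_union_right)
    refine ⟨((c g).1, S.Z v \ (c g).1, (c g).2 \ ((c g).1 ∪ S.Z v), (c g).1), d1, d2, d3,
      sdiff_subset, by rw [u1]; exact subset_union_right, .inl rfl, ?_, fun ha χ hχ => ?_⟩
    · dsimp only
      rw [u2, e0, ee_conj_add ((hR.herm _ _).sub (hR.herm _ _)) hU c0, X_eq hR
        (hR.comm _ _ _ _ (.inr disjoint_sdiff))]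
      rw [hUe]
      exact (hM _ _ (.inl x2)).add_left (Rp.Alg.comm_rest_of hc g hM (S.disj v) x3 x4)
    · dsimp only
      rw [x5 ha, e1, e0, ee_sandwich_add ((hR.herm _ _).sub (hR.herm _ _))
        ((hR.herm _ _).sub (hR.herm _ _)) hU c0 c1]
      have := gain_loc_P hR hS d1 d2 d3 ((log_dim_mono sdiff_subset).trans hl) hχ
      rw [u1, u2] at this
      refine this.trans (Real.exp_le_exp.2 (mul_le_mul_of_nonneg_left ?_ (Nat.cast_nonneg _)))
      linarith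
  · obtain ⟨U, hU, H, hUe⟩ := hR.dec_R hc g
    have p1 : (c g).1 ⊆ (c g).2 \ S.Z v := subset_sdiff.2 ⟨(hc g).1, x2.symm⟩
    have p2 : (c g).2 \ S.Z v ⊆ (c g).2 := sdiff_subset
    obtain ⟨e1, c1⟩ := H _ p1 p2
    obtain ⟨e0, c0⟩ := H _ (hc g).1 Subset.rfl
    rw [Prod.mk.eta, Function.update_eq_self] at e0
    have u1 : ((c g).2ᶜ ∪ S.Z v ∩ (c g).2)ᶜ = (c g).2 \ S.Z v := by
      ext x
      simp only [mem_compl, mem_union, mem_sdiff, mem_inter]; tauto
    have u2 : ((c g).2 \ S.Z v) \ (c g).1 ∪ S.Z v ∩ (c g).2 = (c g).2 \ (c g).1 := by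
      ext x
      have : x ∈ S.Z v → x ∉ (c g).1 := fun hx => disjoint_left.1 x2 hx
      simp only [mem_union, mem_sdiff, mem_inter]; tauto
    have d1 : Disjoint (c g).2ᶜ (S.Z v ∩ (c g).2) :=
      disjoint_compl_left.mono_right inter_subset_right
    have d2 : Disjoint (c g).2ᶜ (((c g).2 \ S.Z v) \ (c g).1) :=
      disjoint_compl_left.mono_right (sdiff_subset.trans p2)
    have d3 : Disjoint (S.Z v ∩ (c g).2) (((c g).2 \ S.Z v) \ (c g).1) :=
      (disjoint_sdiff.mono_right sdiff_subset).mono_left inter_subset_left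
    refine ⟨((c g).2ᶜ, S.Z v ∩ (c g).2, ((c g).2 \ S.Z v) \ (c g).1, (c g).2), d1, d2, d3,
      inter_subset_left, fun x hx => ?_, .inr (compl_compl _).symm, ?_, fun ha χ hχ => ?_⟩
    · simp only [mem_compl, mem_union, mem_inter]; tauto
    · dsimp only
      rw [u2, e0, ee_conj_add ((hR.herm _ _).sub (hR.herm _ _)) hU c0, X_eq hR
        (hR.comm' _ _ (.inl sdiff_subset))]
      rw [hUe]
      exact (hM _ _ (.inr x2)).add_left (Rp.Alg.comm_rest_of hc g hM (S.disj v) x3 x4)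
    · dsimp only
      rw [x5 ha, e1, e0, ee_sandwich_add ((hR.herm _ _).sub (hR.herm _ _))
        ((hR.herm _ _).sub (hR.herm _ _)) hU c0 c1]
      have := gain_loc_R hR hS d1 d2 d3 ((log_dim_mono inter_subset_left).trans hl) hχ
      rwa [u1, u2, compl_compl, add_assoc] at this

/-! ### value bounds -/

/-- the functional as a continuous function -/
noncomputable def fnC (d : ι → Type) [∀ x, Fintype (d x)] [∀ x, DecidableEq (d x)]
    [∀ x, Nonempty (d x)] (A₁ : Finset ι) (c : Cnf ι K) : C(Sph (Cfg d), ℝ) :=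
  ∑ g, (SC (c g).1 + SC (c g).2 - SC ((c g).2 \ (c g).1) - (2 : ℝ) • SC A₁)

lemma fnC_apply (A₁ : Finset ι) (c : Cnf ι K) (χ : Sph (Cfg d)) :
    fnC d A₁ c χ = fn A₁ c χ.1 := by
  simp only [fnC, fn, ContinuousMap.sum_apply, ContinuousMap.sub_apply, ContinuousMap.add_apply,
    ContinuousMap.smul_apply, SC_apply, smul_eq_mul]

lemma Lg_le {Z : V → Finset ι} (hS : R.Asy h Z a C J l s δ) (A₁ : Finset ι) (c : Cnf ι K) :
    R.Lg A₁ c ≤ (-(s * R.k)) • R.T (fnC d A₁ c) + (5 * K * (δ * R.k)) • (1 : Matrix I I ℂ) := by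
  have k1 : ∀ b A, R.lw b A ≤ (-(s * R.k)) • R.T (SC A) + (δ * R.k) • (1 : Matrix I I ℂ) :=
    fun b A => by
      have := hS.up b A ((-s) • SC A) fun χ => by simp
      rwa [map_smul, smul_smul, mul_neg, mul_comm] at this
  have k2 : ∀ b A, -R.lw b A ≤ (s * R.k) • R.T (SC A) + (δ * R.k) • (1 : Matrix I I ℂ) :=
    fun b A => by
      have := hS.up' b A (s • SC A) fun χ => by simp
      rwa [map_smul, smul_smul, mul_comm] at this
  have e : (5 * K * (δ * R.k)) • (1 : Matrix I I ℂ) =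
      ∑ _g : Fin K, (5 * (δ * R.k)) • (1 : Matrix I I ℂ) := by
    rw [Finset.sum_const, card_univ, Fintype.card_fin, ← Nat.cast_smul_eq_nsmul ℝ, smul_smul]
    congr 1; ring
  rw [Rp.Lg, fnC, map_sum, Finset.smul_sum, e, ← Finset.sum_add_distrib]
  refine Finset.sum_le_sum fun g _ => ?_
  have := add_le_add (add_le_add (add_le_add (k1 true (c g).1) (k1 true (c g).2))
    (k2 false ((c g).2 \ (c g).1))) (rsmul_mono (by norm_num : (0 : ℝ) ≤ 2) (k2 false A₁))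
  refine le_trans (le_of_eq ?_) (this.trans (le_of_eq ?_))
  · rw [Rp.loc]; module
  · simp only [map_sub, map_add, map_smul]; module

lemma le_qf_Lg {Z : V → Finset ι} (hS : R.Asy h Z a C J l s δ) (A₁ : Finset ι) (c : Cnf ι K)
    {χ : Q.Vec (Cfg d)} (hχ : ‖χ‖ = 1) :
    -(s * R.k * fn A₁ c χ) - 5 * K * (δ * R.k) ≤ qf (R.cv χ) (R.Lg A₁ c) := by
  have e : qf (R.cv χ) (R.Lg A₁ c) = ∑ g, qf (R.cv χ) (R.loc A₁ (c g)) := re_inner_sum _ _ _
  have e2 : 5 * K * (δ * R.k) = ∑ _g : Fin K, 5 * (δ * R.k) := by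
    rw [Finset.sum_const, card_univ, Fintype.card_fin, nsmul_eq_mul]; ring
  rw [e, fn, Finset.mul_sum, e2, ← Finset.sum_neg_distrib, ← Finset.sum_sub_distrib]
  refine Finset.sum_le_sum fun g _ => ?_
  rw [Rp.loc, qf_sub, qf_sub, qf_add, qf_rsmul]
  have h1 := abs_le.1 (hS.lo true (c g).1 χ hχ)
  have h2 := abs_le.1 (hS.lo true (c g).2 χ hχ)
  have h3 := abs_le.1 (hS.lo false ((c g).2 \ (c g).1) χ hχ)
  have h4 := abs_le.1 (hS.lo false A₁ χ hχ)
  linarith [h1.1, h2.1, h3.2, h4.2]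

end Crest.Agent.N336.C
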