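import Crest.Agent.N336.C.RigC

/-!
# Row 336, CORE: the hypotheses of the operator engine (helper50)
-/

set_option autoImplicit false
set_option linter.unusedSectionVars false

open Matrix Finset
open scoped ComplexOrder MatrixOrder Matrix.Norms.L2Operator InnerProductSpace

namespace Crest.Agent.N336.C

open Crest.Agent.N336.Q Crest.Agent.N336.Eng Crest.Agent.N336.R

section abstract

variable {n : Type} [Fintype n] [DecidableEq n]

lemma defect_eq {G L W : Matrix n n ℂ} (hG : G.PosDef) (hL : L.IsHermitian) (hW : W.PosDef) :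
    (pw G (-(1 / 2)) * ee L * W * ee L * pw G (-(1 / 2))).PosDef ∧
    (pw G (1 / 2) * (ee L * ee L) - pw G (-(1 / 2)) * ee L * W * ee L * pw G (-(1 / 2)) *
        pw G (1 / 2))ᴴ * (pw G (-(1 / 2)) * ee L * W * ee L * pw G (-(1 / 2)))⁻¹ *
      (pw G (1 / 2) * (ee L * ee L) - pw G (-(1 / 2)) * ee L * W * ee L * pw G (-(1 / 2)) *
        pw G (1 / 2)) =
      ee L * ((ee (-L) * G * ee L - W)ᴴ * W⁻¹ * (ee (-L) * G * ee L - W)) * ee L := by
  set g := pw G (1 / 2)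
  set gi := pw G (-(1 / 2))
  set q := ee L
  set qi := ee (-L)
  have a1 : ∀ M : Matrix n n ℂ, gi * (g * M) = M := fun M => by
    rw [← Matrix.mul_assoc, pw_neg_mul hG, Matrix.one_mul]
  have a2 : ∀ M : Matrix n n ℂ, g * (gi * M) = M := fun M => by
    rw [← Matrix.mul_assoc, pw_mul_neg hG, Matrix.one_mul]
  have a3 : ∀ M : Matrix n n ℂ, qi * (q * M) = M := fun M => by
    rw [← Matrix.mul_assoc, ee_neg_mul_ee hL, Matrix.one_mul]
  have a4 : ∀ M : Matrix n n ℂ, q * (qi * M) = M := fun M => by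
    rw [← Matrix.mul_assoc, ee_mul_ee_neg hL, Matrix.one_mul]
  have a5 : ∀ M : Matrix n n ℂ, W⁻¹ * (W * M) = M := fun M => by
    rw [← Matrix.mul_assoc, Matrix.nonsing_inv_mul _ ((Matrix.isUnit_iff_isUnit_det _).1 hW.isUnit),
      Matrix.one_mul]
  have a6 : G = g * g := by rw [pw_mul_pw hG, add_halves, pw_one hG.1]
  have hq : qᴴ = q := (ee_herm L).eq
  have hgi : giᴴ = gi := pw_conjTranspose _ _
  constructor
  · have := hW.conjTranspose_mul_mul_same (B := q * gi) (Matrix.mulVec_injective_of_isUnit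
      ((ee_posDef L).isUnit.mul (pw_posDef hG _).isUnit))
    rw [conjTranspose_mul, hq, hgi] at this
    simpa only [Matrix.mul_assoc] using this
  · have e1 : g * (q * q) - gi * q * W * q * gi * g = gi * (q * ((qi * G * q - W) * q)) := by
      rw [Matrix.mul_assoc _ gi g, pw_neg_mul hG, Matrix.mul_one]
      conv_rhs => rw [a6]
      simp only [Matrix.sub_mul, Matrix.mul_sub, Matrix.mul_assoc, a1, a4]
    have e2 : (gi * q * W * q * gi)⁻¹ = g * (qi * (W⁻¹ * (qi * g))) := by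
      refine Matrix.inv_eq_left_inv ?_
      simp only [Matrix.mul_assoc, a2, a3, a5]
      exact pw_mul_neg hG _
    rw [e1, e2]
    simp only [conjTranspose_mul, hq, hgi, Matrix.mul_assoc, a1, a2, a3, a4]

lemma qf_proj_le {O M : Matrix n n ℂ} (hO : O.IsHermitian) (hOO : O * O = O) (hM : M.PosSemidef)
    (hc : Commute O M) (v : Q.Vec n) : qf (ap O v) M ≤ qf v M := by
  rw [← qf_conj' v hO]
  refine qf_mono v ?_
  have h1 : O * M * O = M * O := by rw [hc.eq, Matrix.mul_assoc, hOO]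
  have h2 : ((1 : Matrix n n ℂ) - O).PosSemidef := by
    have : (1 : Matrix n n ℂ) - O = (1 - O)ᴴ * (1 - O) := by
      rw [conjTranspose_sub, conjTranspose_one, hO.eq, Matrix.sub_mul, Matrix.mul_sub,
        Matrix.mul_sub, hOO]; simp
    rw [this]; exact posSemidef_conjTranspose_mul_self _
  rw [h1, Matrix.le_iff]
  have := posSemidef_mul hM h2 ((Commute.one_right M).sub_right hc.symm)
  rwa [Matrix.mul_sub, Matrix.mul_one] at this

lemma qf_vsmul (c : ℝ) (v : Q.Vec n) (M : Matrix n n ℂ) :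
    qf ((c : ℂ) • v) M = c ^ 2 * qf v M := by
  rw [qf, qf, map_smul, inner_smul_left, inner_smul_right, Complex.conj_ofReal, ← mul_assoc,
    ← Complex.ofReal_mul, Complex.re_ofReal_mul, sq]

lemma qf_pos' {M : Matrix n n ℂ} (hM : M.PosDef) {v : Q.Vec n} (hv : v ≠ 0) : 0 < qf v M := by
  have h1 : M = pw M (1 / 2) * 1 * pw M (1 / 2) := by
    rw [Matrix.mul_one, pw_mul_pw hM, add_halves, pw_one hM.1]
  rw [h1, qf_conj' v (pw_isHermitian _ _), qf_one]
  refine pow_pos (norm_pos_iff.2 fun h0 => hv ?_) 2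
  have := congrArg (ap (pw M (-(1 / 2)))) h0
  rwa [← ap_mul, pw_neg_mul hM, ap_one, map_zero] at this

/-- upper bound for the logarithm of the norm -/
lemma log_qf_le {M : Matrix n n ℂ} (hM : M.PosDef) {Ω : Q.Vec n} (hΩ : ‖Ω‖ = 1) :
    ∃ Φ : Q.Vec n, ‖Φ‖ = 1 ∧ ap (pw M (1 / 4)) Ω = ((‖ap (pw M (1 / 4)) Ω‖ : ℝ) : ℂ) • Φ ∧
      0 < ‖ap (pw M (1 / 4)) Ω‖ ∧
      Real.log (qf Ω (pw M (1 / 2))) ≤ (1 / 2) * qf Φ (lg M) := by
  set u := ap (pw M (1 / 4)) Ω with hu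
  have h1 : qf Ω (pw M (1 / 2)) = ‖u‖ ^ 2 := by
    rw [← qf_one, hu, ← qf_conj' _ (pw_isHermitian _ _), Matrix.mul_one, pw_mul_pw hM]; norm_num
  have h0 : 0 < ‖u‖ := by
    have := qf_pos' (pw_posDef hM (1 / 2)) (v := Ω) (norm_ne_zero_iff.1 (by rw [hΩ]; norm_num))
    rw [h1] at this
    exact (norm_nonneg u).lt_of_ne fun e => by rw [← e] at this; simp at this
  have hn : ‖((‖u‖⁻¹ : ℝ) : ℂ) • u‖ = 1 := by
    rw [norm_smul, Complex.norm_real, norm_inv, norm_norm, inv_mul_cancel₀ h0.ne']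
  refine ⟨((‖u‖⁻¹ : ℝ) : ℂ) • u, hn, ?_, h0, ?_⟩
  · rw [smul_smul, ← Complex.ofReal_mul, mul_inv_cancel₀ h0.ne', Complex.ofReal_one, one_smul]
  · have h2 := qf_lg_le (pw_posDef hM (-(1 / 2))) hn
    have h3 : qf (((‖u‖⁻¹ : ℝ) : ℂ) • u) (pw M (-(1 / 2))) = (‖u‖ ^ 2)⁻¹ := by
      rw [qf_vsmul, hu, ← qf_conj' _ (pw_isHermitian _ _), pw_mul_pw hM, pw_mul_pw hM]
      norm_num [pw_zero, qf_one, hΩ]
    rw [h3, lg_pw hM, qf_smul, Real.log_inv] at h2
    rw [h1]; linarith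

end abstract

section ex

variable {Cf X : Type} [Fintype X] [Nonempty X] (mv : Cf → X → Cf)

lemma avg_iter_aff {α : Type*} (s : Finset α) (f : α → Cf → ℝ) (a b : ℝ) (t : ℕ) :
    (avg mv)^[t] (fun c => a * ∑ i ∈ s, f i c + b) =
      fun c => a * ∑ i ∈ s, (avg mv)^[t] (f i) c + b := by
  induction t with
  | zero => rfl
  | succ t ih =>
    funext c
    have hN : (Fintype.card X : ℝ) ≠ 0 := by exact_mod_cast Fintype.card_pos.ne'
    simp only [Function.iterate_succ_apply', ih, avg]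
    rw [Finset.sum_add_distrib, ← Finset.mul_sum, Finset.sum_comm, ← Finset.sum_div,
      Finset.sum_const, card_univ, nsmul_eq_mul]
    field_simp

lemma ex_aff {α : Type*} (s : Finset α) (f : α → Cf → ℝ) (a b : ℝ) (c₀ : Cf) {T : ℕ} (hT : 1 ≤ T)
    (t : ℕ) : ex mv c₀ T t (fun c => a * ∑ i ∈ s, f i c + b) =
      a * ∑ i ∈ s, ex mv c₀ T t (f i) + b := by
  have hN : (T : ℝ) ≠ 0 := by positivity
  simp only [ex, avg_iter_aff]
  rw [Finset.sum_add_distrib, ← Finset.mul_sum, Finset.sum_comm, ← Finset.sum_div,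
    Finset.sum_const, card_range, nsmul_eq_mul]
  field_simp

lemma ex_subtype {p : Cf → Prop} (hp : ∀ c x, p c → p (mv c x)) (c₀ : {c // p c}) (T t : ℕ)
    (f : Cf → ℝ) : ex (fun (c : {c // p c}) x => (⟨mv c.1 x, hp _ _ c.2⟩ : {c // p c})) c₀ T t
      (fun c => f c.1) = ex mv c₀.1 T t f := by
  have : ∀ t : ℕ, (avg fun (c : {c // p c}) x => (⟨mv c.1 x, hp _ _ c.2⟩ : {c // p c}))^[t]
      (fun c => f c.1) = fun c => (avg mv)^[t] f c.1 := fun t => by
    induction t with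
    | zero => rfl
    | succ t ih => funext c; simp only [Function.iterate_succ_apply', ih, avg]
  simp only [ex, this]

end ex

lemma rpow_le_lin {x lam κ : ℝ} (hx : 0 ≤ x) (hl : 0 < lam) (h0 : 0 < κ) (h1 : κ ≤ 1) :
    x ^ κ ≤ lam ^ κ + lam ^ (κ - 1) * x := by
  have p1 : 0 ≤ lam ^ (κ - 1) * x := by positivity
  rcases le_total x lam with h | h
  · have := Real.rpow_le_rpow hx h h0.le
    linarith
  · have hx0 : 0 < x := hl.trans_le h
    have h2 := Real.rpow_le_rpow_of_nonpos hl h (by linarith : κ - 1 ≤ 0)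
    have h3 : x ^ κ = x ^ (κ - 1) * x := by rw [Real.rpow_sub_one hx0.ne']; field_simp
    have h4 : 0 ≤ lam ^ κ := by positivity
    rw [h3]; nlinarith

variable {ι : Type} [Fintype ι] [DecidableEq ι] {d : ι → Type} [∀ x, Fintype (d x)]
  [∀ x, DecidableEq (d x)] [∀ x, Nonempty (d x)] {I : Type} [Fintype I] [DecidableEq I]
  {R : Rp d I} {V : Type} [Fintype V] {h : V → Q.Op d} {a : ℕ} {C J l s δ : ℝ}
  {K w r b₁ b₂ N₀ Na : ℕ} {S : Scn ι V K w r b₁ b₂ N₀ Na}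

/-- the activity as a continuous function -/
noncomputable def etaC (d : ι → Type) [∀ x, Fintype (d x)] [∀ x, DecidableEq (d x)]
    [∀ x, Nonempty (d x)] (P y Y : Finset ι) : C(Sph (Cfg d), ℝ) :=
  SC (P ∪ y) - SC P + SC (Y ∪ y) - SC Y

lemma etaC_apply (P y Y : Finset ι) (χ : Sph (Cfg d)) : etaC d P y Y χ = eta χ.1 P y Y := rfl

/-- the symbol of the defect -/
noncomputable def dfC (d : ι → Type) [∀ x, Fintype (d x)] [∀ x, DecidableEq (d x)]
    [∀ x, Nonempty (d x)] (c δ : ℝ) (a : ℕ) (P y Y : Finset ι) : C(Sph (Cfg d), ℝ) :=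
  ⟨fun χ => c * (etaC d P y Y χ + δ) ^ ((1 : ℝ) / a), continuous_const.mul
    (((etaC d P y Y).continuous.add continuous_const).rpow_const fun _ => .inr (by positivity))⟩

lemma T_const (hR : R.Alg) (c : ℝ) : R.T (ContinuousMap.const _ c) = c • (1 : Matrix I I ℂ) := by
  rw [← hR.T_one, ← map_smul]
  congr 1
  ext; simp

lemma T_le (hR : R.Alg) {f : C(Sph (Cfg d), ℝ)} {c : ℝ} (H : ∀ χ, f χ ≤ c) :
    R.T f ≤ c • (1 : Matrix I I ℂ) := by
  rw [← T_const hR]; exact hR.T_mono _ _ H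

lemma le_T (hR : R.Alg) {f : C(Sph (Cfg d), ℝ)} {c : ℝ} (H : ∀ χ, c ≤ f χ) :
    c • (1 : Matrix I I ℂ) ≤ R.T f := by
  rw [← T_const hR]; exact hR.T_mono _ _ H

lemma pw_Am_half (hR : R.Alg) (A₁ : Finset ι) (c : Cnf ι K) :
    pw (R.Am A₁ δ c) (1 / 2) = ee (R.Lf A₁ δ c) := by
  rw [Rp.Am, pw_ee (herm_rsmul (Lf_herm hR c) _), smul_smul]; norm_num

lemma pw_Am_neg_half (hR : R.Alg) (A₁ : Finset ι) (c : Cnf ι K) :
    pw (R.Am A₁ δ c) (-1 / 2) = ee (-R.Lf A₁ δ c) := by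
  rw [Rp.Am, pw_ee (herm_rsmul (Lf_herm hR c) _), smul_smul]; norm_num

lemma conj_Lf (hR : R.Alg) (A₁ : Finset ι) (c : Cnf ι K) (M : Matrix I I ℂ) :
    ee (-R.Lf A₁ δ c) * M * ee (R.Lf A₁ δ c) = ee (-R.Lg A₁ c) * M * ee (R.Lg A₁ c) := by
  rw [ee_Lf hR, ee_neg_Lf hR, Matrix.smul_mul, Matrix.smul_mul, Matrix.mul_smul, smul_smul,
    ← Real.exp_add, add_neg_cancel, Real.exp_zero, one_smul]

lemma sandwich_Lf (hR : R.Alg) (hδ : 0 ≤ δ) (A₁ : Finset ι) {c c' : Cnf ι K} (hc : cnt c ≤ cnt c')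
    (v : Q.Vec I) : qf v (ee (-R.Lf A₁ δ c) * R.Am A₁ δ c' * ee (-R.Lf A₁ δ c)) ≤
      qf v (ee (-R.Lg A₁ c) * ee ((2 : ℝ) • R.Lg A₁ c') * ee (-R.Lg A₁ c)) := by
  rw [ee_neg_Lf hR, Am_eq hR]
  simp only [Matrix.smul_mul, Matrix.mul_smul, smul_smul, qf_rsmul]
  refine mul_le_of_le_one_left ?_ ?_
  · rw [qf_conj' _ (ee_herm _)]; exact re_inner_ap_nonneg (ee_posDef _).posSemidef _
  · rw [← Real.exp_add, ← Real.exp_add, Real.exp_le_one_iff]
    have h3 : (cnt c : ℝ) ≤ cnt c' := by exact_mod_cast hc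
    have : 0 ≤ δ * R.k := by positivity
    nlinarith

lemma sandwich_self (hR : R.Alg) (A₁ : Finset ι) (c : Cnf ι K) :
    ee (-R.Lf A₁ δ c) * R.Am A₁ δ c * ee (-R.Lf A₁ δ c) = 1 := by
  rw [Rp.Am, ee_two (Lf_herm hR c), ← Matrix.mul_assoc, ee_neg_mul_ee (Lf_herm hR c),
    Matrix.one_mul, ee_mul_ee_neg (Lf_herm hR c)]

end Crest.Agent.N336.C
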