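import Crest.Agent.N336.C.RigD

/-!
# Row 336, CORE: gain against energy for one configuration (helper50)
-/

set_option autoImplicit false
set_option linter.unusedSectionVars false

open Matrix Finset
open scoped ComplexOrder MatrixOrder Matrix.Norms.L2Operator InnerProductSpace

namespace Crest.Agent.N336.C

open Crest.Agent.N336.Q Crest.Agent.N336.Eng Crest.Agent.N336.R

variable {ι : Type} [Fintype ι] [DecidableEq ι] {d : ι → Type} [∀ x, Fintype (d x)]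
  [∀ x, DecidableEq (d x)] [∀ x, Nonempty (d x)] {I : Type} [Fintype I] [DecidableEq I]
  {R : Rp d I} {V : Type} [Fintype V] {h : V → Q.Op d} {a : ℕ} {C J l s δ : ℝ}
  {K w r b₁ b₂ N₀ Na : ℕ} {S : Scn ι V K w r b₁ b₂ N₀ Na}

/-- cost of one crossing term -/
noncomputable def xi1 (a : ℕ) (c lam s e δ : ℝ) : ℝ :=
  c * lam ^ ((1 : ℝ) / a) + c * lam ^ ((1 : ℝ) / a - 1) * (δ + e / (2 * s)) + δ

open Classical in
theorem h3 [Nonempty V] (hR : R.Alg) (hS : R.Asy h S.Z a C J l s δ) (hδ : 0 < δ) (hs : 0 < s)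
    (ha : 1 ≤ a) {c' lam e : ℝ} (hc' : 0 ≤ c') (hlam : 0 < lam) {c : Cnf ι K}
    (hmv : ∀ v, ¬ (S.act v ∧ S.cr c v) → S.mv c v = c)
    (q : V → Finset ι × Finset ι × Finset ι × Finset ι)
    (hq : ∀ v, S.cr c v → Loc R S h s e c v (q v).1 (q v).2.1 (q v).2.2.1 (q v).2.2.2)
    {G : Matrix I I ℂ} (hG : G.PosDef)
    (H : ∀ u : Q.Vec I, u ≠ 0 → Real.log (qf u G) ≤
      (∑ x, Real.log (qf u (R.Am S.A₁ δ (S.mv c x)))) / Fintype.card V) :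
    ∑ v ∈ univ.filter (fun v => S.act v ∧ S.cr c v),
        (R.T (dfC d c' δ a (q v).1 (q v).2.1 (q v).2.2.1) + δ • (1 : Matrix I I ℂ)) ≤
      (xi1 a c' lam s e δ * (univ.filter fun v => S.act v ∧ S.cr c v).card +
          c' * lam ^ ((1 : ℝ) / a - 1) * Fintype.card V * δ / (2 * s)) • (1 : Matrix I I ℂ) -
        (c' * lam ^ ((1 : ℝ) / a - 1) * Fintype.card V / (2 * s * R.k)) •
          lg (ee (-R.Lf S.A₁ δ c) * G * ee (-R.Lf S.A₁ δ c)) := by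
  set F := univ.filter fun v => S.act v ∧ S.cr c v with hF
  set γ := c' * lam ^ ((1 : ℝ) / a - 1) with hγ
  set N : ℝ := (Fintype.card V : ℝ) with hN
  have hN0 : 0 < N := by rw [hN]; exact_mod_cast Fintype.card_pos
  have hk : (0 : ℝ) < R.k := by exact_mod_cast hR.k_pos
  have hγ0 : 0 ≤ γ := by positivity
  have hκ : (0 : ℝ) < 1 / a := by positivity
  have hκ1 : (1 : ℝ) / a ≤ 1 := by
    rw [div_le_one (by positivity)]; exact_mod_cast ha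
  have hL := Lf_herm (δ := δ) (A₁ := S.A₁) hR c
  have hM : (ee (-R.Lf S.A₁ δ c) * G * ee (-R.Lf S.A₁ δ c)).PosDef := by
    have := hG.conjTranspose_mul_mul_same (B := ee (-R.Lf S.A₁ δ c))
      (Matrix.mulVec_injective_of_isUnit (ee_posDef _).isUnit)
    rwa [(ee_herm _).eq] at this
  let G₀ : C(Sph (Cfg d), ℝ) := N⁻¹ • ∑ v ∈ F,
    ((-(2 * s)) • etaC d (q v).1 (q v).2.1 (q v).2.2.1 + ContinuousMap.const _ e)
  have hG₀ : ∀ χ, G₀ χ = N⁻¹ * ∑ v ∈ F, (-(2 * s * eta χ.1 (q v).1 (q v).2.1 (q v).2.2.1) + e) :=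
    fun χ => by
      simp only [G₀, ContinuousMap.smul_apply, ContinuousMap.sum_apply, ContinuousMap.add_apply,
        ContinuousMap.const_apply, etaC_apply, smul_eq_mul, neg_mul]
  have hb := hS.bl _ G₀ hM fun χ => by
    have hχ := hR.cv_norm _ (Sph.norm χ)
    have hu : ap (ee (-R.Lf S.A₁ δ c)) (R.cv χ.1) ≠ 0 := fun h0 => by
      have := congrArg (ap (ee (R.Lf S.A₁ δ c))) h0
      rw [← ap_mul, ee_mul_ee_neg hL, ap_one, map_zero] at this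
      rw [this, norm_zero] at hχ; exact zero_ne_one hχ
    rw [qf_conj' _ (ee_herm _)]
    refine (H _ hu).trans ?_
    rw [hG₀, div_eq_inv_mul, mul_left_comm, hF, Finset.sum_filter, Finset.mul_sum _ _ (R.k : ℝ)]
    refine mul_le_mul_of_nonneg_left (Finset.sum_le_sum fun x _ => ?_) (by positivity)
    split_ifs with hx
    · refine (Real.log_le_iff_le_exp (qf_pos' (ee_posDef _) hu)).2 ?_
      rw [← qf_conj' _ (ee_herm _)]
      exact (sandwich_Lf hR hδ.le _ (cnt_mono (mv_le c x)) _).trans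
        ((hq x hx.2).gain hx.1 _ (Sph.norm χ))
    · rw [hmv x hx, ← qf_conj' _ (ee_herm _), sandwich_self hR, qf_one, hχ]; simp
  have hp : R.T (∑ v ∈ F, dfC d c' δ a (q v).1 (q v).2.1 (q v).2.2.1 + (γ * N / (2 * s)) • G₀) ≤
      ((xi1 a c' lam s e δ - δ) * F.card) • (1 : Matrix I I ℂ) := T_le hR fun χ => by
    rw [ContinuousMap.add_apply, ContinuousMap.smul_apply, hG₀, ContinuousMap.sum_apply,
      smul_eq_mul, ← mul_assoc, Finset.mul_sum, ← Finset.sum_add_distrib, mul_comm _ (F.card : ℝ),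
      ← nsmul_eq_mul]
    refine Finset.sum_le_card_nsmul _ _ _ fun v hv => ?_
    have hv' := hq v (mem_filter.1 hv).2.2
    have h0 := eta_nonneg χ.1 hv'.d1 hv'.d2 hv'.d3
    have h1 := mul_le_mul_of_nonneg_left
      (rpow_le_lin (add_nonneg h0 hδ.le) hlam hκ hκ1) hc'
    have h2 : γ * N / (2 * s) * N⁻¹ *
        (-(2 * s * eta χ.1 (q v).1 (q v).2.1 (q v).2.2.1) + e) =
        -(γ * eta χ.1 (q v).1 (q v).2.1 (q v).2.2.1) + γ * (e / (2 * s)) := by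
      field_simp
    rw [h2]
    change c' * (eta χ.1 _ _ _ + δ) ^ ((1 : ℝ) / a) + _ ≤ _
    rw [xi1, ← hγ]
    have h3 : c' * (lam ^ ((1 : ℝ) / a) + lam ^ ((1 : ℝ) / a - 1) *
        (eta χ.1 (q v).1 (q v).2.1 (q v).2.2.1 + δ)) = c' * lam ^ ((1 : ℝ) / a) +
        γ * (eta χ.1 (q v).1 (q v).2.1 (q v).2.2.1 + δ) := by rw [hγ]; ring
    nlinarith
  have hb' := rsmul_mono (by positivity : 0 ≤ γ * N / (2 * s * R.k)) hb
  rw [map_add, map_sum, map_smul] at hp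
  rw [le_sub_iff_add_le, Finset.sum_add_distrib, Finset.sum_const]
  refine (add_le_add_right hb' _).trans ?_
  have e1 : (γ * N / (2 * s * R.k)) • ((R.k : ℝ) • R.T G₀ + (δ * R.k) • (1 : Matrix I I ℂ)) =
      (γ * N / (2 * s)) • R.T G₀ + (γ * N * δ / (2 * s)) • (1 : Matrix I I ℂ) := by
    rw [smul_add, smul_smul, smul_smul]
    congr 2 <;> field_simp
  rw [e1, ← Nat.cast_smul_eq_nsmul ℝ]
  refine le_trans (le_of_eq ?_) ((add_le_add_left hp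
    ((F.card * δ + γ * N * δ / (2 * s)) • (1 : Matrix I I ℂ))).trans (le_of_eq ?_))
  · module
  · module

/-- defect of a crossing term -/
theorem exists_defect (hR : R.Alg) (hS : R.Asy h S.Z a C J l s δ) (hδ : 0 < δ) {e : ℝ}
    {c : Cnf ι K} {v : V} {P y Y A : Finset ι} (hq : Loc R S h s e c v P y Y A)
    (hv : (h v).PosSemidef) (h1 : ‖h v‖ ≤ J) (h2 : Real.log (dim d (S.Z v)) ≤ l) :
    ∃ At : Matrix I I ℂ, At.PosDef ∧
      (pw (R.hh (h v) + δ • 1) (1 / 2) * R.Am S.A₁ δ c - At * pw (R.hh (h v) + δ • 1) (1 / 2))ᴴ *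
        At⁻¹ *
        (pw (R.hh (h v) + δ • 1) (1 / 2) * R.Am S.A₁ δ c - At * pw (R.hh (h v) + δ • 1) (1 / 2)) ≤
      pw (R.Am S.A₁ δ c) (1 / 2) *
        (R.T (dfC d (C * J * s ^ 2 * l ^ a) δ a P y Y) + δ • (1 : Matrix I I ℂ)) *
        pw (R.Am S.A₁ δ c) (1 / 2) := by
  obtain ⟨W, hW, hD⟩ := hS.dfc v P y Y A hq.d1 hq.d2 hq.d3 hq.s1 hq.s2 hq.side h1 h2
    (dfC d (C * J * s ^ 2 * l ^ a) δ a P y Y) fun χ => le_rfl
  have p1 : (δ • (1 : Matrix I I ℂ)).PosDef := PosDef.one.smul hδ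
  have hL := Lf_herm (δ := δ) (A₁ := S.A₁) hR c
  obtain ⟨k1, k2⟩ := defect_eq (PosDef.posSemidef_add (hR.hh_pos _ hv) p1) hL (hW.add p1)
  refine ⟨_, k1, ?_⟩
  rw [pw_Am_half hR, Rp.Am, ee_two hL, k2]
  have e1 : ee (-R.Lf S.A₁ δ c) * (R.hh (h v) + δ • 1) * ee (R.Lf S.A₁ δ c) - (W + δ • 1) =
      R.X A (Y ∪ y) (h v) - W := by
    rw [Matrix.mul_add, Matrix.add_mul, conj_Lf hR, hq.conj, Matrix.mul_smul, Matrix.mul_one,
      Matrix.smul_mul, ee_neg_mul_ee hL]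
    abel
  rw [e1]
  have := conj_mono ((conj_mono (inv_anti hW (le_add_of_nonneg_right p1.posSemidef.nonneg))
    (R.X A (Y ∪ y) (h v) - W)).trans hD) (ee (R.Lf S.A₁ δ c))
  rwa [(ee_herm _).eq] at this

lemma dfC_bounds (hδ : 0 < δ) (hδ1 : δ ≤ 1) (ha : 1 ≤ a) (hl : 1 ≤ l) {c' : ℝ} (hc' : 0 ≤ c')
    {P y Y : Finset ι} (d1 : Disjoint P y) (d2 : Disjoint P Y) (d3 : Disjoint y Y)
    (h2 : Real.log (dim d y) ≤ l) (χ : Sph (Cfg d)) :
    0 ≤ dfC d c' δ a P y Y χ ∧ dfC d c' δ a P y Y χ ≤ 3 * c' * l := by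
  have h0 := eta_nonneg χ.1 d1 d2 d3
  have h1 := eta_le (Sph.norm χ) P y Y
  have h3 : 0 ≤ eta χ.1 P y Y + δ := by positivity
  change 0 ≤ c' * (eta χ.1 P y Y + δ) ^ ((1 : ℝ) / a) ∧
    c' * (eta χ.1 P y Y + δ) ^ ((1 : ℝ) / a) ≤ _
  refine ⟨by positivity, ?_⟩
  have hκ1 : (1 : ℝ) / a ≤ 1 := by
    rw [div_le_one (by positivity)]; exact_mod_cast ha
  have h4 : (eta χ.1 P y Y + δ) ^ ((1 : ℝ) / a) ≤ 3 * l :=
    (Real.rpow_le_rpow h3 (by linarith : _ ≤ 3 * l) (by positivity)).trans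
      (by simpa using Real.rpow_le_rpow_of_exponent_le (by linarith : 1 ≤ 3 * l) hκ1)
  nlinarith

/-! ### the values at the two ends -/

lemma log_ini_le (hR : R.Alg) (hS : R.Asy h S.Z a C J l s δ) (hδ : 0 ≤ δ) (hs : 0 ≤ s)
    (c : Cnf ι K) {B : ℝ} (hB : ∀ χ : Q.Vec (Cfg d), ‖χ‖ = 1 → -B ≤ fn S.A₁ c χ) {v : Q.Vec I}
    (hv : ‖v‖ = 1) : Real.log (qf v (pw (R.Am S.A₁ δ c) (1 / 2))) ≤
      s * R.k * B + 5 * K * (δ * R.k) := by
  rw [pw_Am_half hR]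
  have h1 : R.Lf S.A₁ δ c ≤ (s * R.k * B + 5 * K * (δ * R.k)) • (1 : Matrix I I ℂ) := by
    have k1 := rsmul_mono (by positivity : 0 ≤ s * R.k)
      (le_T hR (f := fnC d S.A₁ c) (c := -B) fun χ => by rw [fnC_apply]; exact hB _ (Sph.norm χ))
    have k2 := Lg_le hS S.A₁ c
    have k3 : (-(3 / 2 * (δ * R.k) * cnt c) : ℝ) • (1 : Matrix I I ℂ) ≤ (0 : ℝ) • 1 :=
      rsmul_le_rsmul (neg_nonpos.2 (by positivity)) PosSemidef.one
    have := add_le_add (add_le_add k2 k3) k1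
    rw [Rp.Lf, ← sub_nonneg]
    rw [← sub_nonneg] at this
    refine this.trans (le_of_eq ?_)
    module
  have h2 := qf_mono v (ee_le_of_le (Lf_herm hR c) h1)
  rw [qf_rsmul, qf_one, hv, one_pow, mul_one] at h2
  exact (Real.log_le_iff_le_exp
    (qf_pos' (ee_posDef _) (norm_ne_zero_iff.1 (by rw [hv]; norm_num)))).2 h2

lemma le_qf_Lf (hR : R.Alg) (hS : R.Asy h S.Z a C J l s δ) (hδ : 0 ≤ δ) (c : Cnf ι K)
    {χ : Q.Vec (Cfg d)} (hχ : ‖χ‖ = 1) :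
    Real.exp (-(s * R.k * fn S.A₁ c χ) - (5 * K + 3 * K * Fintype.card ι) * (δ * R.k)) ≤
      qf (R.cv χ) (pw (R.Am S.A₁ δ c) (1 / 2)) := by
  rw [pw_Am_half hR]
  refine le_trans (Real.exp_le_exp.2 ?_) (exp_qf_le (Lf_herm hR c) (hR.cv_norm _ hχ))
  rw [Rp.Lf, qf_add, qf_rsmul, qf_one, hR.cv_norm _ hχ]
  have h1 := le_qf_Lg hS S.A₁ c hχ
  have h2 : (cnt c : ℝ) ≤ K * (2 * Fintype.card ι) := by exact_mod_cast cnt_le c
  have h3 : 0 ≤ δ * R.k := by positivity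
  nlinarith

lemma lg_le_of_le (hR : R.Alg) (hS : R.Asy h S.Z a C J l s δ) (hδ : 0 ≤ δ) (hs : 0 ≤ s)
    (c : Cnf ι K) {α β : ℝ} (hβ : 0 ≤ β)
    (hU : ∀ χ : Q.Vec (Cfg d), ‖χ‖ = 1 → α - β * qf χ (∑ v, h v) ≤ fn S.A₁ c χ)
    {M : Matrix I I ℂ} (hM : M.PosDef) (hle : M ≤ R.Am S.A₁ δ c) {Φ : Q.Vec I} (hΦ : ‖Φ‖ = 1) :
    (1 / 2) * qf Φ (lg M) ≤
      -(s * R.k * (α - β * (qf Φ (R.hh (∑ v, h v)) + δ))) + 5 * K * (δ * R.k) := by
  have h1 := qf_mono Φ (lg_mono hM hle)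
  rw [Rp.Am, lg_ee (herm_rsmul (Lf_herm hR c) _), qf_rsmul, Rp.Lf, qf_add, qf_rsmul, qf_one,
    hΦ] at h1
  have h2 := qf_mono Φ (Lg_le hS S.A₁ c)
  rw [qf_add, qf_rsmul, qf_rsmul, qf_one, hΦ] at h2
  let qC : C(Sph (Cfg d), ℝ) := ⟨fun χ => qf χ.1 (∑ v, h v), by unfold qf; fun_prop⟩
  have h3 := qf_mono Φ (hS.en qC fun χ => le_rfl)
  rw [qf_add, qf_rsmul, qf_one, hΦ] at h3
  have h4 := qf_mono Φ (le_T hR (f := fnC d S.A₁ c + β • qC) (c := α) fun χ => by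
    have := hU _ (Sph.norm χ)
    rw [ContinuousMap.add_apply, fnC_apply, ContinuousMap.smul_apply, smul_eq_mul]
    change _ ≤ _ + β * qf χ.1 _
    linarith)
  rw [map_add, map_smul, qf_add, qf_rsmul, qf_rsmul, qf_one, hΦ] at h4
  have h5 : 0 ≤ s * R.k := by positivity
  have h6 : 0 ≤ 3 / 2 * (δ * R.k) * cnt c := by positivity
  have h7 := mul_le_mul_of_nonneg_left h3 hβ
  have h8 : α - β * (qf Φ (R.hh (∑ v, h v)) + δ) ≤ qf Φ (R.T (fnC d S.A₁ c)) := by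
    simp only [one_pow, mul_one] at *
    linarith
  have h9 := mul_le_mul_of_nonneg_left h8 h5
  simp only [one_pow, mul_one] at *
  linarith

lemma le_log_fin (hR : R.Alg) (hS : R.Asy h S.Z a C J l s δ) (hδ : 0 ≤ δ) {Ω : Q.Vec (Cfg d)}
    {O : Q.Op d} {ZO : Finset ι} (hO : O.IsHermitian) (hOO : O * O = O) (hZ : Supp ZO O)
    {c : Cnf ι K} (h1 : ∀ g, ZO ⊆ (c g).1) (h1' : ∀ g, (c g).1 ⊆ (c g).2) (h2 : Disjoint ZO S.A₁)
    (h0 : ap O Ω ≠ 0) :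
    R.k * Real.log (‖ap O Ω‖ ^ 2) - s * R.k * fn S.A₁ c (((‖ap O Ω‖⁻¹ : ℝ) : ℂ) • ap O Ω) -
        (5 * K + 3 * K * Fintype.card ι) * (δ * R.k) ≤
      Real.log (qf (R.cv Ω) (pw (R.Am S.A₁ δ c) (1 / 2))) := by
  set φ := ((‖ap O Ω‖⁻¹ : ℝ) : ℂ) • ap O Ω with hφ
  have hn := norm_pos_iff.2 h0
  have hφ1 : ‖φ‖ = 1 := by
    rw [hφ, norm_smul, Complex.norm_real, norm_inv, norm_norm, inv_mul_cancel₀ hn.ne']
  have e1 : ap O Ω = ((‖ap O Ω‖ : ℝ) : ℂ) • φ := by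
    rw [hφ, smul_smul, ← Complex.ofReal_mul, mul_inv_cancel₀ hn.ne', Complex.ofReal_one, one_smul]
  obtain ⟨t1, t2⟩ := hR.tp_proj O hO hOO
  have hc : Commute (R.tp O) (R.Lf S.A₁ δ c) :=
    (Rp.Alg.comm_Lg_of (fun b A hA => hR.comm_tp b A _ _ hZ (proj_posSemidef hO hOO) hA) h2
      fun g => ⟨fun x => x.1 (h1 g), fun x => x.1 ((h1 g).trans (h1' g))⟩).add_right
      ((Commute.one_right _).smul_right _)
  have k1 := qf_proj_le t1 t2 (ee_posDef (R.Lf S.A₁ δ c)).posSemidef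
    (commute_ee (Lf_herm hR c) hc.symm).symm (R.cv Ω)
  rw [hR.tp_cv, e1, hR.cv_smul, ← Complex.ofReal_pow, qf_vsmul, ← pw_Am_half hR] at k1
  have k2 := (mul_le_mul_of_nonneg_left (le_qf_Lf hR hS hδ c hφ1)
    (by positivity : 0 ≤ (‖ap O Ω‖ ^ R.k) ^ 2)).trans k1
  refine le_trans (le_of_eq ?_) (Real.log_le_log (by positivity) k2)
  rw [Real.log_mul (by positivity) (Real.exp_pos _).ne', Real.log_exp, ← pow_mul, mul_comm R.k 2,
    pow_mul, Real.log_pow _ R.k]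
  ring

end Crest.Agent.N336.C
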